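import Mathlib
import Vale.Agent.P142.KoebeBound

/-!
Univalent functions near infinity: bounds and limits along ultrafilters.
-/

open Set Filter Topology Metric Bornology

namespace Vale.Agent.P116.H906

/-- `f` is holomorphic and injective on `U` and `f z - z → 0` at infinity. -/
structure NU (U : Set ℂ) (f : ℂ → ℂ) : Prop where
  diff : DifferentiableOn ℂ f U
  inj : InjOn f U
  norm : Tendsto (fun z => f z - z) (cobounded ℂ) (𝓝 0)

lemma NU.mono {U V : Set ℂ} {f : ℂ → ℂ} (h : NU U f) (hVU : V ⊆ U) : NU V f :=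
  ⟨h.diff.mono hVU, h.inj.mono hVU, h.norm⟩

/-- the difference `f z - z` in the coordinate `R / z` -/
noncomputable def kf (f : ℂ → ℂ) (R : ℝ) (ζ : ℂ) : ℂ :=
  if ζ = 0 then 0 else f (R / ζ) - R / ζ

lemma kf_zero (f : ℂ → ℂ) (R : ℝ) : kf f R 0 = 0 := by simp [kf]

lemma div_notMem_closedBall {R : ℝ} (hR : 0 < R) {ζ : ℂ} (hζ : ζ ∈ ball (0:ℂ) 1) (h0 : ζ ≠ 0) :
    (R / ζ : ℂ) ∉ closedBall (0:ℂ) R := by
  rw [mem_closedBall, dist_zero_right, norm_div, Complex.norm_real, Real.norm_of_nonneg hR.le,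
    not_le, lt_div_iff₀ (norm_pos_iff.2 h0)]
  rw [mem_ball_zero_iff] at hζ
  nlinarith

lemma kf_diff {U : Set ℂ} {f : ℂ → ℂ} {R : ℝ} (hR : 0 < R) (h : NU U f)
    (hU : (closedBall (0:ℂ) R)ᶜ ⊆ U) : DifferentiableOn ℂ (kf f R) (ball 0 1) := by
  have hmem : ball (0:ℂ) 1 ∈ 𝓝 (0:ℂ) := ball_mem_nhds _ one_pos
  rw [← Complex.differentiableOn_compl_singleton_and_continuousAt_iff hmem]
  constructor
  · intro ζ hζ
    have h0 : ζ ≠ 0 := hζ.2
    have hev : kf f R =ᶠ[𝓝 ζ] fun ζ => f (R / ζ) - R / ζ := by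
      filter_upwards [isOpen_ne.mem_nhds h0] with x hx
      simp only [kf, if_neg (show ¬ x = 0 from hx)]
    refine DifferentiableAt.differentiableWithinAt ?_
    rw [hev.differentiableAt_iff]
    have h1 : DifferentiableAt ℂ (fun ζ : ℂ => (R : ℂ) / ζ) ζ :=
      (differentiableAt_const _).div differentiableAt_id h0
    have h2 : DifferentiableAt ℂ f (R / ζ) := by
      have hm := div_notMem_closedBall hR hζ.1 h0
      exact (h.diff.mono hU).differentiableAt
        ((isClosed_closedBall).isOpen_compl.mem_nhds hm)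
    exact (h2.comp ζ h1).sub h1
  · rw [continuousAt_iff_punctured_nhds, kf_zero]
    have h1 : Tendsto (fun ζ : ℂ => (R : ℂ) / ζ) (𝓝[≠] 0) (cobounded ℂ) := by
      have h2 : Tendsto (fun ζ : ℂ => ζ⁻¹) (𝓝[≠] 0) (cobounded ℂ) := tendsto_inv₀_nhdsNE_zero
      have h3 : Tendsto (fun ζ : ℂ => (R : ℂ) * ζ) (cobounded ℂ) (cobounded ℂ) := by
        have hR0 : (R : ℂ) ≠ 0 := by exact_mod_cast hR.ne'
        exact Filter.tendsto_mul_left_cobounded hR0
      refine (h3.comp h2).congr fun ζ => ?_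
      simp [div_eq_mul_inv]
    have h4 := h.norm.comp h1
    refine h4.congr' ?_
    filter_upwards [self_mem_nhdsWithin] with ζ hζ
    simp only [kf, if_neg (show ¬ ζ = 0 from hζ), Function.comp]

open Vale.Agent.P142 in
theorem NU.omitted {U : Set ℂ} {f : ℂ → ℂ} {R : ℝ} (hR : 0 < R) (h : NU U f)
    (hU : (closedBall (0:ℂ) R)ᶜ ⊆ U) {w : ℂ} (hw : ∀ z ∉ closedBall (0:ℂ) R, f z ≠ w) :
    ‖w‖ ≤ 5 * R := by
  have hR0 : (R : ℂ) ≠ 0 := by exact_mod_cast hR.ne'
  have hk := kf_diff hR h hU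
  set k := kf f R with hkdef
  set r : ℂ → ℂ := fun ζ => 1 + ζ * (k ζ - w) / R with hr
  have hrd : DifferentiableOn ℂ r (ball 0 1) :=
    (differentiableOn_const _).add ((differentiableOn_id.mul (hk.sub_const w)).div_const _)
  have hr0 : r 0 = 1 := by simp [hr]
  have hrz : ∀ ζ ∈ ball (0:ℂ) 1, ζ ≠ 0 → r ζ = ζ * (f (R / ζ) - w) / R := by
    intro ζ hζ h0
    simp only [hr, hkdef, kf, if_neg h0]
    field_simp
    ring
  have hrne : ∀ ζ ∈ ball (0:ℂ) 1, r ζ ≠ 0 := by
    intro ζ hζ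
    by_cases h0 : ζ = 0
    · rw [h0, hr0]; exact one_ne_zero
    · rw [hrz ζ hζ h0]
      exact div_ne_zero (mul_ne_zero h0 (sub_ne_zero.2 (hw _ (div_notMem_closedBall hR hζ h0)))) hR0
  set F : ℂ → ℂ := fun ζ => ζ / r ζ with hF
  have hFd : DifferentiableOn ℂ F (ball 0 1) := differentiableOn_id.div hrd hrne
  have hF0 : F 0 = 0 := by simp [hF]
  have hslope : ∀ ζ ∈ ball (0:ℂ) 1, ζ ≠ 0 → F ζ = R / (f (R / ζ) - w) := by
    intro ζ hζ h0
    simp only [hF, hrz ζ hζ h0]
    have := sub_ne_zero.2 (hw _ (div_notMem_closedBall hR hζ h0))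
    field_simp
  have hinj : InjOn F (ball 0 1) := by
    intro a ha b hb hab
    by_cases ha0 : a = 0
    · by_contra hne
      have hb0 : b ≠ 0 := fun hb0 => hne (by rw [ha0, hb0])
      rw [ha0, hF0] at hab
      have : F b ≠ 0 := div_ne_zero hb0 (hrne b hb)
      exact this hab.symm
    · by_cases hb0 : b = 0
      · rw [hb0, hF0] at hab
        exact absurd hab (div_ne_zero ha0 (hrne a ha))
      · rw [hslope a ha ha0, hslope b hb hb0] at hab
        have h1 := sub_ne_zero.2 (hw _ (div_notMem_closedBall hR ha ha0))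
        have h2 := sub_ne_zero.2 (hw _ (div_notMem_closedBall hR hb hb0))
        rw [div_eq_div_iff h1 h2] at hab
        have h3 := mul_left_cancel₀ hR0 hab
        have h4 : f (R / a) = f (R / b) := by linear_combination -h3
        have h5 := h.inj (hU (div_notMem_closedBall hR ha ha0)) (hU (div_notMem_closedBall hR hb hb0)) h4
        rw [div_eq_div_iff ha0 hb0] at h5
        exact (mul_left_cancel₀ hR0 h5).symm
  have hFderiv : HasDerivAt F 1 0 := by
    have h1 := (hasDerivAt_id (0:ℂ)).fun_div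
      ((hrd.differentiableAt (ball_mem_nhds _ one_pos)).hasDerivAt) (by rw [hr0]; exact one_ne_zero)
    simp only [id, hr0] at h1
    exact h1.congr_deriv (by norm_num)
  have hRf : ∀ ζ ∈ ball (0:ℂ) 1, Rfun F ζ = r ζ := by
    intro ζ hζ
    by_cases h0 : ζ = 0
    · rw [h0, hr0, Rfun, dslope_same, hFderiv.deriv, inv_one]
    · rw [Rfun, dslope_of_ne _ h0, slope_def_field, hF0, sub_zero, sub_zero]
      simp only [hF]
      have := hrne ζ hζ
      field_simp
  have htc : tc (Rfun F) 1 = - w / R := by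
    have hev : Rfun F =ᶠ[𝓝 0] r := by
      filter_upwards [ball_mem_nhds (0:ℂ) one_pos] with ζ hζ using hRf ζ hζ
    have h1 : HasDerivAt r (- w / R) 0 := by
      have h2 := ((hasDerivAt_id (0:ℂ)).fun_mul
        (((hk.differentiableAt (ball_mem_nhds _ one_pos)).hasDerivAt).sub_const w)).div_const (R:ℂ)
      have h3 := h2.const_add 1
      exact h3.congr_deriv (by simp [hkdef, kf_zero])
    have htc1 : tc (Rfun F) 1 = deriv (Rfun F) 0 := by
      simp [tc, iteratedDeriv_one]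
    rw [htc1, hev.deriv_eq, h1.deriv]
  have hb := norm_tc_one_le hFd hinj hF0 hFderiv.deriv
  rw [htc, norm_div, norm_neg, Complex.norm_real, Real.norm_of_nonneg hR.le,
    div_le_iff₀ hR] at hb
  linarith

theorem NU.norm_le {U : Set ℂ} {f : ℂ → ℂ} {R : ℝ} (hR : 0 < R) (h : NU U f)
    (hU : (closedBall (0:ℂ) R)ᶜ ⊆ U) {z : ℂ} (hz : z ∈ U) (hz2 : ‖z‖ ≤ R) : ‖f z‖ ≤ 5 * R := by
  refine h.omitted hR hU fun y hy hne => ?_
  have := h.inj (hU hy) hz hne
  rw [this, mem_closedBall, dist_zero_right] at hy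
  exact hy hz2

theorem NU.tail {U : Set ℂ} {f : ℂ → ℂ} {R : ℝ} (hR : 0 < R) (h : NU U f)
    (hU : (closedBall (0:ℂ) R)ᶜ ⊆ U) {z : ℂ} (hz : 2 * R < ‖z‖) : ‖f z - z‖ ≤ 24 * R ^ 2 / ‖z‖ := by
  have hk := kf_diff hR h hU
  have hsub : closedBall (0:ℂ) (1/2) ⊆ ball 0 1 := closedBall_subset_ball (by norm_num)
  have hb : ∀ ζ ∈ ball (0:ℂ) (1/2), ‖kf f R ζ‖ ≤ 12 * R := by
    intro ζ hζ
    refine Complex.norm_le_of_forall_mem_frontier_norm_le isBounded_ball
      (f := kf f R) (U := ball (0:ℂ) (1/2)) ?_ ?_ (subset_closure hζ)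
    · refine DifferentiableOn.diffContOnCl ?_
      rw [closure_ball _ (by norm_num)]
      exact hk.mono hsub
    · intro x hx
      rw [frontier_ball _ (by norm_num), mem_sphere_zero_iff_norm] at hx
      have h0 : x ≠ 0 := by
        intro h0
        rw [h0, norm_zero] at hx
        norm_num at hx
      simp only [kf, if_neg h0]
      have hn : ‖(R / x : ℂ)‖ = 2 * R := by
        rw [norm_div, Complex.norm_real, Real.norm_of_nonneg hR.le, hx]
        ring
      have hmem : (R / x : ℂ) ∈ U := by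
        apply hU
        rw [mem_compl_iff, mem_closedBall, dist_zero_right, hn]
        linarith
      have h1 : ‖f (R / x)‖ ≤ 5 * (2 * R) := by
        refine h.norm_le (by linarith) ?_ hmem hn.le
        exact (compl_subset_compl.2 (closedBall_subset_closedBall (by linarith))).trans hU
      calc ‖f (R / x) - R / x‖ ≤ ‖f (R / x)‖ + ‖(R / x : ℂ)‖ := norm_sub_le _ _
        _ ≤ 12 * R := by rw [hn]; linarith
  have hz0 : z ≠ 0 := by
    intro h0
    rw [h0, norm_zero] at hz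
    linarith
  have hzpos : 0 < ‖z‖ := norm_pos_iff.2 hz0
  have hR0 : (R : ℂ) ≠ 0 := by exact_mod_cast hR.ne'
  have hmem : (R / z : ℂ) ∈ ball (0:ℂ) (1/2) := by
    rw [mem_ball_zero_iff, norm_div, Complex.norm_real, Real.norm_of_nonneg hR.le,
      div_lt_iff₀ hzpos]
    linarith
  have h2 := Complex.dist_le_div_mul_dist_of_mapsTo_ball (f := kf f R) (c := 0) (R₁ := 1/2)
    (R₂ := 12 * R) (hk.mono (ball_subset_closedBall.trans hsub)) (fun x hx => by
      rw [mem_closedBall, kf_zero, dist_zero_right]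
      exact hb x hx) hmem
  rw [kf_zero, dist_zero_right, dist_zero_right] at h2
  have h3 : (R / z : ℂ) ≠ 0 := div_ne_zero hR0 hz0
  rw [kf, if_neg h3] at h2
  have h4 : (R : ℂ) / (R / z) = z := by field_simp
  rw [h4, norm_div, Complex.norm_real, Real.norm_of_nonneg hR.le] at h2
  refine h2.trans (le_of_eq ?_)
  field_simp
  ring

end Vale.Agent.P116.H906
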