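import Mathlib
import Vale.Agent.P116.H906.NU

/-!
Limits of univalent functions along ultrafilters.
-/

open Set Filter Topology Metric Bornology

namespace Vale.Agent.P116.H906

lemma lip_bound' {f : ℂ → ℂ} {z₀ : ℂ} {r M : ℝ} (hr : 0 < r)
    (hd : DifferentiableOn ℂ f (ball z₀ (2 * r)))
    (hb : ∀ z ∈ ball z₀ (2 * r), ‖f z‖ ≤ M)
    {y z : ℂ} (hy : y ∈ ball z₀ (r / 2)) (hz : z ∈ ball z₀ (r / 2)) :
    dist (f z) (f y) ≤ 2 * M / r * dist z y := by
  have hyU : ball y r ⊆ ball z₀ (2 * r) := by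
    refine (ball_subset_ball' ?_)
    rw [mem_ball] at hy
    linarith only [hr, hy]
  refine Complex.dist_le_div_mul_dist_of_mapsTo_ball (hd.mono hyU) ?_ ?_
  · intro x hx
    rw [mem_closedBall, dist_eq_norm]
    have h1 := hb x (hyU hx)
    have h2 := hb y (hyU (mem_ball_self hr))
    have := norm_sub_le (f x) (f y)
    linarith only [h1, h2, this]
  · rw [mem_ball] at *
    have := dist_triangle_right z y z₀
    linarith

/-- existence of pointwise limits, locally uniform, for eventually locally bounded families -/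
theorem exists_lim {α : Type*} (𝒰 : Ultrafilter α) {U : Set ℂ} (F : α → ℂ → ℂ)
    (hloc : ∀ z ∈ U, ∃ r > 0, ∃ M, ball z r ⊆ U ∧
      ∀ᶠ a in (𝒰 : Filter α), DifferentiableOn ℂ (F a) (ball z r) ∧ ∀ w ∈ ball z r, ‖F a w‖ ≤ M) :
    ∃ g : ℂ → ℂ, TendstoLocallyUniformlyOn F g (𝒰 : Filter α) U := by
  have hlim : ∀ z : ℂ, ∃ w : ℂ, z ∈ U → Tendsto (fun n => F n z) 𝒰 (𝓝 w) := by
    intro z
    by_cases hz : z ∈ U
    · obtain ⟨r, hr, M, -, hM⟩ := hloc z hz
      obtain ⟨w, -, hw⟩ := (isCompact_closedBall (0 : ℂ) M).ultrafilter_le_nhds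
        (𝒰.map (fun n => F n z)) (by
          rw [le_principal_iff, Ultrafilter.coe_map, Filter.mem_map]
          filter_upwards [hM] with a ha
          have := ha.2 z (mem_ball_self hr)
          simpa using this)
      exact ⟨w, fun _ => hw⟩
    · exact ⟨0, fun h => absurd h hz⟩
  choose g hg using hlim
  refine ⟨g, ?_⟩
  rw [Metric.tendstoLocallyUniformlyOn_iff]
  intro ε hε z₀ hz₀
  obtain ⟨r0, hr0, M', hball0, hM'⟩ := hloc z₀ hz₀
  obtain ⟨M, hM0, hMM⟩ : ∃ M : ℝ, 0 < M ∧ M' ≤ M := ⟨max M' 1, by positivity, le_max_left _ _⟩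
  have hM : ∀ᶠ a in (𝒰 : Filter α), DifferentiableOn ℂ (F a) (ball z₀ r0) ∧
      ∀ w ∈ ball z₀ r0, ‖F a w‖ ≤ M := by
    filter_upwards [hM'] with a ha
    exact ⟨ha.1, fun w hw => (ha.2 w hw).trans hMM⟩
  set r := r0 / 2 with hrdef
  have hr : 0 < r := by (clear * - hr0; positivity)
  have h2r : 2 * r = r0 := by rw [hrdef]; ring
  have hball : ball z₀ (2 * r) ⊆ U := by
    rw [h2r]; exact hball0
  have hhalf : ball z₀ (r / 2) ⊆ U := (ball_subset_ball (by linarith only [hr])).trans hball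
  rw [← h2r] at hM
  have hlipg : ∀ y ∈ ball z₀ (r / 2), ∀ z ∈ ball z₀ (r / 2),
      dist (g z) (g y) ≤ 2 * M / r * dist z y := by
    intro y hy z hz
    refine le_of_tendsto ((hg z (hhalf hz)).dist (hg y (hhalf hy))) ?_
    filter_upwards [hM] with n hn
    exact lip_bound' hr hn.1 hn.2 hy hz
  refine ⟨closedBall z₀ (r / 4), mem_nhdsWithin_of_mem_nhds (closedBall_mem_nhds _ (by positivity)),
    ?_⟩
  have hsub : closedBall z₀ (r / 4) ⊆ ball z₀ (r / 2) := closedBall_subset_ball (by linarith only [hr])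
  obtain ⟨t, ht, htf, htc⟩ := (isCompact_closedBall z₀ (r / 4)).finite_cover_balls
    (show 0 < ε * r / (8 * M) by (clear * - hε hr0 hM0; positivity))
  have hev : ∀ᶠ n in (𝒰 : Filter α), ∀ x ∈ t, dist (F n x) (g x) < ε / 4 := by
    rw [Filter.eventually_all_finite htf]
    intro x hx
    have hxU : x ∈ U := hhalf (hsub (ht hx))
    exact (hg x hxU).eventually (ball_mem_nhds _ (by positivity))
  filter_upwards [hev, hM] with n hn hMn z hz
  obtain ⟨x, hx, hzx⟩ := mem_iUnion₂.1 (htc hz)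
  have h1 := lip_bound' hr hMn.1 hMn.2 (hsub (ht hx)) (hsub hz)
  have h2 := hlipg x (hsub (ht hx)) z (hsub hz)
  have h3 := hn x hx
  rw [mem_ball] at hzx
  have h4 : 2 * M / r * dist z x ≤ ε / 4 := by
    calc 2 * M / r * dist z x ≤ 2 * M / r * (ε * r / (8 * M)) := by (clear * - hzx hr0 hM0; gcongr)
      _ = ε / 4 := by field_simp; ring
  calc dist (g z) (F n z) ≤ dist (g z) (g x) + dist (g x) (F n x) + dist (F n x) (F n z) :=
        dist_triangle4 _ _ _ _
    _ < ε := by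
        rw [dist_comm (g x), dist_comm (F n x) (F n z)]
        linarith only [hε, h1, h2, h3, h4]

/-- Hurwitz' theorem, local version -/
theorem hurwitz' {ι : Type*} {l : Filter ι} [l.NeBot] {b : ℂ} {s : ℝ} (hs : 0 < s)
    {F : ι → ℂ → ℂ} {g : ℂ → ℂ} (hF : TendstoLocallyUniformlyOn F g l (ball b s))
    (hd : ∀ᶠ n in l, DifferentiableOn ℂ (F n) (ball b s))
    (h0 : ∀ᶠ n in l, ∀ z ∈ ball b s, F n z ≠ 0) (hg : ¬ ∀ᶠ z in 𝓝 b, g z = 0) : g b ≠ 0 := by
  intro hgb
  set U := ball b s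
  have hU : IsOpen U := isOpen_ball
  have hb : b ∈ U := mem_ball_self hs
  have hgd : DifferentiableOn ℂ g U := hF.differentiableOn hd hU
  have hga : AnalyticAt ℂ g b := (hgd.analyticOnNhd hU) b hb
  have hne : ∀ᶠ z in 𝓝[≠] b, g z ≠ 0 :=
    (hga.eventually_eq_zero_or_eventually_ne_zero).resolve_left hg
  rw [eventually_nhdsWithin_iff] at hne
  obtain ⟨ρ0, hρ0, hρ⟩ := Metric.eventually_nhds_iff_ball.1 (hne.and (hU.mem_nhds hb))
  set ρ := ρ0 / 2 with hρdef
  have hρpos : 0 < ρ := by (clear * - hρ0; positivity)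
  have hcl : closedBall b ρ ⊆ ball b ρ0 := closedBall_subset_ball (by linarith)
  have hclU : closedBall b ρ ⊆ U := fun z hz => (hρ z (hcl hz)).2
  have hsphere : ∀ z ∈ sphere b ρ, g z ≠ 0 := by
    intro z hz
    refine (hρ z (hcl (sphere_subset_closedBall hz))).1 ?_
    intro h
    rw [mem_singleton_iff] at h
    rw [h, mem_sphere, dist_self] at hz
    linarith only [hρpos, hz]
  have hcomp : IsCompact (sphere b ρ) := isCompact_sphere _ _
  have hnon : (sphere b ρ).Nonempty := NormedSpace.sphere_nonempty.2 hρpos.le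
  have hcont : ContinuousOn (fun z => ‖g z‖) (sphere b ρ) :=
    (hgd.continuousOn.mono (sphere_subset_closedBall.trans hclU)).norm
  obtain ⟨z1, hz1, hmin⟩ := hcomp.exists_isMinOn hnon hcont
  set m := ‖g z1‖ with hm
  have hmpos : 0 < m := norm_pos_iff.2 (hsphere z1 hz1)
  have hunif : ∀ᶠ n in l, ∀ z ∈ closedBall b ρ, dist (g z) (F n z) < m / 2 := by
    have h1 := (tendstoLocallyUniformlyOn_iff_forall_isCompact hU).1 hF (closedBall b ρ) hclU
      (isCompact_closedBall b ρ)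
    exact Metric.tendstoUniformlyOn_iff.1 h1 (m / 2) (by (clear * - hmpos; positivity))
  obtain ⟨n, hn1, hn2, hn3⟩ := (hunif.and (hd.and h0)).exists
  have hinv : DiffContOnCl ℂ (fun z => (F n z)⁻¹) (ball b ρ) := by
    refine DifferentiableOn.diffContOnCl ?_
    rw [closure_ball _ hρpos.ne']
    exact (hn2.mono hclU).inv fun z hz => hn3 z (hclU hz)
  have hbd := Complex.norm_le_of_forall_mem_frontier_norm_le isBounded_ball hinv (C := 2 / m) (by
    intro z hz
    rw [frontier_ball _ hρpos.ne'] at hz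
    have h1 := hn1 z (sphere_subset_closedBall hz)
    have h2 : m ≤ ‖g z‖ := hmin hz
    have h3 : ‖g z‖ ≤ ‖F n z‖ + dist (g z) (F n z) := by
      rw [dist_eq_norm]
      have := norm_add_le (F n z) (g z - F n z)
      simpa only [ge_iff_le, add_sub_cancel] using this
    have h4 : m / 2 ≤ ‖F n z‖ := by linarith only [h1, h2, h3]
    rw [norm_inv, inv_eq_one_div, div_le_div_iff₀ (by linarith only [hmpos, h1, h2, h3]) hmpos]
    linarith only [h1, h2, h3]) (subset_closure (mem_ball_self hρpos))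
  have h5 := hn1 b (mem_closedBall_self hρpos.le)
  rw [hgb, dist_zero_left] at h5
  rw [norm_inv, inv_eq_one_div, div_le_div_iff₀
    (norm_pos_iff.2 (hn3 b hb)) hmpos] at hbd
  linarith only [hbd, h5]

/-- data of a family of univalent maps `F a` on `U a`, exhausting `U` along `𝒰` -/
structure Exh {α : Type*} (𝒰 : Filter α) (U : Set ℂ) (V : α → Set ℂ) (F : α → ℂ → ℂ) (R : ℝ) :
    Prop where
  open' : IsOpen U
  conn : IsPreconnected U
  rpos : 0 < R
  tail : (closedBall (0:ℂ) R)ᶜ ⊆ U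
  vtail : ∀ᶠ a in 𝒰, (closedBall (0:ℂ) R)ᶜ ⊆ V a
  nu : ∀ᶠ a in 𝒰, NU (V a) (F a)
  exh : ∀ z ∈ U, ∃ r > 0, ball z r ⊆ U ∧ ∀ᶠ a in 𝒰, ball z r ⊆ V a

variable {α : Type*} {𝒰 : Ultrafilter α} {U : Set ℂ} {V : α → Set ℂ} {F : α → ℂ → ℂ} {R : ℝ}

theorem Exh.exists_lim (h : Exh (𝒰 : Filter α) U V F R) :
    ∃ g : ℂ → ℂ, TendstoLocallyUniformlyOn F g (𝒰 : Filter α) U := by
  refine H906.exists_lim 𝒰 F fun z hz => ?_
  obtain ⟨r, hr, hr1, hr2⟩ := h.exh z hz
  have hR := h.rpos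
  refine ⟨r, hr, 5 * (R + ‖z‖ + r), hr1, ?_⟩
  filter_upwards [hr2, h.nu, h.vtail] with a h1 h2 h3
  refine ⟨h2.diff.mono h1, fun w hw => ?_⟩
  refine h2.norm_le (by positivity) ?_ (h1 hw) ?_
  · refine (compl_subset_compl.2 (closedBall_subset_closedBall ?_)).trans h3
    have := norm_nonneg z
    linarith
  · rw [mem_ball, dist_eq_norm] at hw
    have := norm_sub_norm_le w z
    linarith

theorem Exh.lim_diff (h : Exh (𝒰 : Filter α) U V F R) {g : ℂ → ℂ}
    (hg : TendstoLocallyUniformlyOn F g (𝒰 : Filter α) U) : DifferentiableOn ℂ g U := by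
  intro z hz
  obtain ⟨r, hr, hr1, hr2⟩ := h.exh z hz
  have h1 := (hg.mono hr1).differentiableOn
    (by filter_upwards [hr2, h.nu] with a h1 h2 using h2.diff.mono h1) isOpen_ball
  exact (h1.differentiableAt (ball_mem_nhds z hr)).differentiableWithinAt

theorem Exh.lim_norm (h : Exh (𝒰 : Filter α) U V F R) {g : ℂ → ℂ}
    (hg : TendstoLocallyUniformlyOn F g (𝒰 : Filter α) U) {z : ℂ} (hz : 2 * R < ‖z‖) :
    ‖g z - z‖ ≤ 24 * R ^ 2 / ‖z‖ := by
  have hR := h.rpos
  have hzU : z ∈ U := h.tail (by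
    rw [mem_compl_iff, mem_closedBall, dist_zero_right]
    linarith)
  have h1 := hg.tendsto_at hzU
  refine le_of_tendsto (h1.sub_const z).norm ?_
  filter_upwards [h.nu, h.vtail] with a h2 h3
  exact h2.tail hR h3 hz

theorem Exh.lim_tail (h : Exh (𝒰 : Filter α) U V F R) {g : ℂ → ℂ}
    (hg : TendstoLocallyUniformlyOn F g (𝒰 : Filter α) U) :
    Tendsto (fun z => g z - z) (cobounded ℂ) (𝓝 0) := by
  rw [tendsto_zero_iff_norm_tendsto_zero]
  have h1 : Tendsto (fun z : ℂ => 24 * R ^ 2 / ‖z‖) (cobounded ℂ) (𝓝 0) :=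
    tendsto_const_nhds.div_atTop tendsto_norm_cobounded_atTop
  refine tendsto_of_tendsto_of_tendsto_of_le_of_le' tendsto_const_nhds h1
    (Eventually.of_forall fun z => norm_nonneg _) ?_
  filter_upwards [tendsto_norm_cobounded_atTop.eventually_gt_atTop (2 * R)] with z hz
  exact h.lim_norm hg hz

lemma not_locally_const_of_tail {U : Set ℂ} (hU : IsOpen U) (hUc : IsPreconnected U) {R : ℝ}
    (htail : (closedBall (0:ℂ) R)ᶜ ⊆ U) {g : ℂ → ℂ} (hgd : DifferentiableOn ℂ g U)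
    (hgt : Tendsto (fun z => g z - z) (cobounded ℂ) (𝓝 0)) {b w : ℂ} (hb : b ∈ U) :
    ¬ ∀ᶠ z in 𝓝 b, g z - w = 0 := by
  intro hev
  have h1 : AnalyticOnNhd ℂ (fun z => g z - w) U := (hgd.sub_const w).analyticOnNhd hU
  have h2 : EqOn (fun z => g z - w) 0 U :=
    h1.eqOn_zero_of_preconnected_of_eventuallyEq_zero hUc hb hev
  have h3 : ∀ᶠ z in cobounded ℂ, ‖g z - z‖ < 1 := by
    have := hgt.norm
    rw [norm_zero] at this
    exact this.eventually_lt_const one_pos
  have h4 : ∀ᶠ z : ℂ in cobounded ℂ, max R (‖w‖ + 1) < ‖z‖ :=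
    tendsto_norm_cobounded_atTop.eventually_gt_atTop _
  obtain ⟨z, hz1, hz2⟩ := (h3.and h4).exists
  have hzU : z ∈ U := htail (by
    rw [mem_compl_iff, mem_closedBall, dist_zero_right, not_le]
    exact (le_max_left _ _).trans_lt hz2)
  have h5 : g z = w := by
    have := h2 hzU
    simpa [sub_eq_zero] using this
  rw [h5] at hz1
  have h6 := norm_sub_norm_le z w
  rw [norm_sub_rev] at hz1
  have h7 := (le_max_right R (‖w‖ + 1)).trans_lt hz2
  linarith

/-- omitted values stay omitted in the limit -/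
theorem Exh.omitted (h : Exh (𝒰 : Filter α) U V F R) {g : ℂ → ℂ}
    (hg : TendstoLocallyUniformlyOn F g (𝒰 : Filter α) U) {w : α → ℂ} {w₀ : ℂ}
    (hw : Tendsto w 𝒰 (𝓝 w₀)) (hom : ∀ᶠ a in (𝒰 : Filter α), w a ∉ F a '' (V a)) :
    w₀ ∉ g '' U := by
  rintro ⟨b, hb, rfl⟩
  obtain ⟨r, hr, hr1, hr2⟩ := h.exh b hb
  have h1 : TendstoLocallyUniformlyOn (fun a z => F a z - w a) (fun z => g z - g b) (𝒰 : Filter α)
      (ball b r) := by
    have hg1 := hg.mono hr1
    have hw1 : TendstoLocallyUniformlyOn (fun a (_ : ℂ) => w a) (fun _ => g b) (𝒰 : Filter α)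
        (ball b r) := by
      rw [Metric.tendstoLocallyUniformlyOn_iff]
      intro ε hε x hx
      refine ⟨univ, univ_mem, ?_⟩
      filter_upwards [hw.eventually (ball_mem_nhds _ hε)] with a ha y _
      rw [dist_comm]
      exact ha
    exact hg1.sub hw1
  have h2 := hurwitz' hr h1
    (by filter_upwards [hr2, h.nu] with a h1 h2 using (h2.diff.mono h1).sub_const _)
    (by
      filter_upwards [hr2, hom] with a h1 h2 z hz h3
      exact h2 ⟨z, h1 hz, sub_eq_zero.1 h3⟩)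
    (not_locally_const_of_tail h.open' h.conn h.tail (h.lim_diff hg) (h.lim_tail hg) hb)
  exact h2 (sub_self _)

theorem Exh.lim_inj (h : Exh (𝒰 : Filter α) U V F R) {g : ℂ → ℂ}
    (hg : TendstoLocallyUniformlyOn F g (𝒰 : Filter α) U) : InjOn g U := by
  intro x hx b hb hxb
  by_contra hne
  obtain ⟨r0, hr0, hr1', hr2'⟩ := h.exh b hb
  obtain ⟨s, hs, -, hs2⟩ := h.exh x hx
  obtain ⟨r, hr, hrr, hrx⟩ : ∃ r > 0, r ≤ r0 ∧ x ∉ ball b r := by
    refine ⟨min r0 (dist x b), lt_min hr0 (dist_pos.2 hne), min_le_left _ _, fun h => ?_⟩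
    rw [mem_ball] at h
    exact absurd (min_le_right r0 (dist x b)) (not_le.2 h)
  have hr1 := (ball_subset_ball (x := b) hrr).trans hr1'
  have hr2 : ∀ᶠ a in (𝒰 : Filter α), ball b r ⊆ V a := by
    filter_upwards [hr2'] with a ha using (ball_subset_ball hrr).trans ha
  have hgx := hg.tendsto_at hx
  have h1 : TendstoLocallyUniformlyOn (fun a z => F a z - F a x) (fun z => g z - g x)
      (𝒰 : Filter α) (ball b r) := by
    have hg1 := hg.mono hr1
    have hw1 : TendstoLocallyUniformlyOn (fun a (_ : ℂ) => F a x) (fun _ => g x) (𝒰 : Filter α)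
        (ball b r) := by
      rw [Metric.tendstoLocallyUniformlyOn_iff]
      intro ε hε _ _
      refine ⟨univ, univ_mem, ?_⟩
      filter_upwards [hgx.eventually (ball_mem_nhds _ hε)] with a ha y _
      rw [dist_comm]
      exact ha
    exact hg1.sub hw1
  have h2 := hurwitz' hr h1
    (by filter_upwards [hr2, h.nu] with a h1 h2 using (h2.diff.mono h1).sub_const _)
    (by
      filter_upwards [hr2, hs2, h.nu] with a h1 h2 h3 z hz h4
      have := h3.inj (h1 hz) (h2 (mem_ball_self hs)) (sub_eq_zero.1 h4)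
      exact hrx (this ▸ hz))
    (not_locally_const_of_tail h.open' h.conn h.tail (h.lim_diff hg) (h.lim_tail hg) hb)
  exact h2 (sub_eq_zero.2 hxb.symm)

theorem Exh.lim_nu (h : Exh (𝒰 : Filter α) U V F R) {g : ℂ → ℂ}
    (hg : TendstoLocallyUniformlyOn F g (𝒰 : Filter α) U) : NU U g :=
  ⟨h.lim_diff hg, h.lim_inj hg, h.lim_tail hg⟩

end Vale.Agent.P116.H906
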