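import Mathlib

/-!
Escaping to infinity off a set, filled sets, pushing connected sets through a homeomorphism with
holes.
-/

open Set Filter Topology Metric

namespace Vale.Agent.P116.H906

/-- `z` can be joined to infinity outside `A`. -/
def Esc (A : Set ℂ) (z : ℂ) : Prop :=
  ∃ C : Set ℂ, IsPreconnected C ∧ z ∈ C ∧ Disjoint C A ∧ ¬ Bornology.IsBounded C

lemma Esc.notMem {A : Set ℂ} {z : ℂ} (h : Esc A z) : z ∉ A := by
  obtain ⟨C, -, hz, hd, -⟩ := h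
  exact fun hA => (disjoint_left.1 hd) hz hA

lemma Esc.mono {A B : Set ℂ} {z : ℂ} (h : Esc A z) (hBA : B ⊆ A) : Esc B z := by
  obtain ⟨C, h1, hz, hd, h2⟩ := h
  exact ⟨C, h1, hz, hd.mono_right hBA, h2⟩

/-- the complement of a closed ball is preconnected -/
lemma isPreconnected_compl_closedBall (c : ℂ) {r : ℝ} (hr : 0 ≤ r) :
    IsPreconnected (closedBall c r)ᶜ := by
  have h1 : IsPreconnected (Ioi r ×ˢ sphere (0:ℂ) 1) :=
    isPreconnected_Ioi.prod (isPreconnected_sphere (by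
      rw [Complex.rank_real_complex]; norm_num) (0:ℂ) 1)
  have h2 : (fun p : ℝ × ℂ => c + p.1 • p.2) '' (Ioi r ×ˢ sphere (0:ℂ) 1) = (closedBall c r)ᶜ := by
    ext z
    constructor
    · rintro ⟨⟨ρ, u⟩, ⟨hρ, hu⟩, rfl⟩
      simp only [mem_Ioi] at hρ
      simp only [mem_sphere, dist_zero_right] at hu
      simp only [mem_compl_iff, mem_closedBall, dist_eq_norm, add_sub_cancel_left, norm_smul, hu,
        mul_one, Real.norm_eq_abs, not_le]
      rw [abs_of_pos (lt_of_le_of_lt hr hρ)]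
      exact hρ
    · intro hz
      simp only [mem_compl_iff, mem_closedBall, dist_eq_norm, not_le] at hz
      have hpos : 0 < ‖z - c‖ := lt_of_le_of_lt hr hz
      refine ⟨(‖z - c‖, (‖z - c‖⁻¹ : ℝ) • (z - c)), ⟨hz, ?_⟩, ?_⟩
      · simp only [mem_sphere, dist_zero_right, norm_smul, norm_inv, norm_norm]
        exact inv_mul_cancel₀ hpos.ne'
      · simp only [smul_smul]
        rw [mul_inv_cancel₀ hpos.ne', one_smul]
        ring
  rw [← h2]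
  exact h1.image _ (by fun_prop)

lemma not_isBounded_compl_closedBall (c : ℂ) (r : ℝ) : ¬ Bornology.IsBounded (closedBall c r)ᶜ := by
  intro h
  have h2 : Bornology.IsBounded (univ : Set ℂ) := by
    have := h.union (isBounded_closedBall (x := c) (r := r))
    rwa [compl_union_self] at this
  exact (NormedSpace.unbounded_univ ℝ ℂ) h2

lemma esc_of_notMem_closedBall {A : Set ℂ} {c z : ℂ} {r : ℝ} (hr : 0 ≤ r)
    (hA : A ⊆ closedBall c r) (hz : z ∉ closedBall c r) : Esc A z :=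
  ⟨(closedBall c r)ᶜ, isPreconnected_compl_closedBall c hr, hz,
    disjoint_compl_left.mono_right hA, not_isBounded_compl_closedBall c r⟩

/-- every point outside `A` escapes -/
def Full (A : Set ℂ) : Prop := ∀ z, z ∉ A → Esc A z

lemma inter_compl_ball_nonempty {C : Set ℂ} (hC : ¬ Bornology.IsBounded C) (c : ℂ) (r : ℝ) :
    (C ∩ (closedBall c r)ᶜ).Nonempty := by
  by_contra h
  rw [not_nonempty_iff_eq_empty, ← disjoint_iff_inter_eq_empty, disjoint_compl_right_iff_subset]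
    at h
  exact hC (isBounded_closedBall.subset h)

lemma Full.isPreconnected_compl {A : Set ℂ} (hA : Full A) (hb : Bornology.IsBounded A) :
    IsPreconnected Aᶜ := by
  obtain ⟨R, hR0, hR⟩ : ∃ R : ℝ, 0 ≤ R ∧ A ⊆ closedBall 0 R := by
    obtain ⟨R, hR⟩ := hb.subset_closedBall 0
    exact ⟨max R 0, le_max_right _ _, hR.trans (closedBall_subset_closedBall (le_max_left _ _))⟩
  have hE := isPreconnected_compl_closedBall (0:ℂ) hR0
  have hEA : (closedBall (0:ℂ) R)ᶜ ⊆ Aᶜ := compl_subset_compl.2 hR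
  obtain ⟨x, hx, -⟩ := inter_compl_ball_nonempty (not_isBounded_compl_closedBall (0:ℂ) R) 0 R
  refine isPreconnected_of_forall x fun y hy => ?_
  obtain ⟨C, h1, hz, hd, h2⟩ := hA y hy
  refine ⟨C ∪ (closedBall (0:ℂ) R)ᶜ, union_subset ?_ hEA, Or.inr hx, Or.inl hz, ?_⟩
  · exact hd.subset_compl_right
  · exact h1.union' (inter_compl_ball_nonempty h2 0 R) hE

lemma full_of_isPreconnected_compl {A : Set ℂ} (hA : IsPreconnected Aᶜ)
    (hb : Bornology.IsBounded A) : Full A := by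
  intro z hz
  refine ⟨Aᶜ, hA, hz, disjoint_compl_left, fun h => ?_⟩
  have h2 : Bornology.IsBounded (univ : Set ℂ) := by
    have := h.union hb
    rwa [compl_union_self] at this
  exact (NormedSpace.unbounded_univ ℝ ℂ) h2

/-- filled set -/
def fil (A : Set ℂ) : Set ℂ := {z | ¬ Esc A z}

lemma subset_fil (A : Set ℂ) : A ⊆ fil A := fun _ hz h => h.notMem hz

lemma fil_mono {A B : Set ℂ} (h : A ⊆ B) : fil A ⊆ fil B := fun _ hz hB => hz (hB.mono h)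

lemma full_fil (A : Set ℂ) : Full (fil A) := by
  intro z hz
  simp only [fil, mem_ofPred_eq, not_not] at hz
  obtain ⟨C, h1, hz, hd, h2⟩ := hz
  refine ⟨C, h1, hz, ?_, h2⟩
  rw [disjoint_left]
  intro w hw hw2
  exact hw2 ⟨C, h1, hw, hd, h2⟩

lemma isOpen_esc {A : Set ℂ} (hA : IsClosed A) : IsOpen {z | Esc A z} := by
  rw [Metric.isOpen_iff]
  intro z hz
  obtain ⟨δ, hδ, hb⟩ := Metric.isOpen_iff.1 hA.isOpen_compl z hz.notMem
  refine ⟨δ, hδ, fun w hw => ?_⟩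
  obtain ⟨C, h1, hz, hd, h2⟩ := hz
  refine ⟨C ∪ ball z δ, h1.union z hz (mem_ball_self hδ) (convex_ball z δ).isPreconnected,
    Or.inr hw, ?_, fun h => h2 (h.subset subset_union_left)⟩
  rw [disjoint_union_left]
  exact ⟨hd, disjoint_left.2 fun w hw => hb hw⟩

lemma isClosed_fil {A : Set ℂ} (hA : IsClosed A) : IsClosed (fil A) := by
  have := (isOpen_esc hA).isClosed_compl
  exact this

lemma fil_subset_closedBall {A : Set ℂ} {c : ℂ} {r : ℝ} (hr : 0 ≤ r) (hA : A ⊆ closedBall c r) :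
    fil A ⊆ closedBall c r := by
  intro z hz
  by_contra h
  exact hz (esc_of_notMem_closedBall hr hA h)

/-- a connected set meeting `V` and missing its frontier is inside `V` -/
lemma subset_of_frontier_disjoint {C V : Set ℂ} (hC : IsPreconnected C) (hne : (C ∩ V).Nonempty)
    (hf : Disjoint C (frontier V)) : C ⊆ V := by
  have hcov : C ⊆ interior V ∪ (closure V)ᶜ := by
    intro z hz
    by_cases h1 : z ∈ interior V
    · exact Or.inl h1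
    · right
      intro h2
      exact disjoint_left.1 hf hz ⟨h2, h1⟩
  have h1 : (C ∩ interior V).Nonempty := by
    obtain ⟨z, hz, hzV⟩ := hne
    refine ⟨z, hz, ?_⟩
    rcases hcov hz with h | h
    · exact h
    · exact absurd (subset_closure hzV) h
  have h2 : C ⊆ interior V := by
    refine hC.subset_left_of_subset_union isOpen_interior isClosed_closure.isOpen_compl ?_ hcov h1
    exact disjoint_left.2 fun z hz hz2 => hz2 (subset_closure (interior_subset hz))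
  exact h2.trans interior_subset

/-- Pushing a connected set through a map with holes: continuity on the part `O`, and the part
`Q i` is replaced by the connected set `D i`. -/
theorem push_isPreconnected {ι : Type*} {C O : Set ℂ} {h : ℂ → ℂ} {Q D : ι → Set ℂ}
    (hC : IsPreconnected C) (hcov : C ⊆ O ∪ ⋃ i, Q i)
    (hcont : ContinuousOn h (C ∩ O))
    (hOop : ∀ z ∈ C ∩ O, ∀ᶠ w in 𝓝[C] z, w ∈ O)
    (hQop : ∀ i, ∀ z ∈ C ∩ Q i, ∀ᶠ w in 𝓝[C] z, w ∈ O ∪ Q i)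
    (hOQ : ∀ i, Disjoint O (Q i)) (hQQ : Pairwise fun i j => Disjoint (Q i) (Q j))
    (hD : ∀ i, IsPreconnected (D i)) (hDne : ∀ i, (D i).Nonempty)
    (hlim : ∀ i, ∀ z ∈ C ∩ Q i, ∀ U, IsOpen U → D i ⊆ U → ∀ᶠ w in 𝓝[C ∩ O] z, h w ∈ U) :
    IsPreconnected (h '' (C ∩ O) ∪ ⋃ i ∈ {i | (C ∩ Q i).Nonempty}, D i) := by
  set Γ := h '' (C ∩ O) ∪ ⋃ i ∈ {i | (C ∩ Q i).Nonempty}, D i with hΓ
  rw [isPreconnected_iff_subset_of_disjoint]
  intro A B hA hB hAB hdisj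
  have hDΓ : ∀ i, (C ∩ Q i).Nonempty → D i ⊆ Γ := by
    intro i hi
    rw [hΓ]
    exact (subset_biUnion_of_mem (u := fun i => D i) (show i ∈ {i | (C ∩ Q i).Nonempty} from hi)).trans
      subset_union_right
  have hDAB : ∀ i, (C ∩ Q i).Nonempty → D i ⊆ A ∨ D i ⊆ B := by
    intro i hi
    refine isPreconnected_iff_subset_of_disjoint.1 (hD i) A B hA hB ((hDΓ i hi).trans hAB) ?_
    rw [eq_empty_iff_forall_notMem] at hdisj ⊢
    exact fun w hw => hdisj w ⟨hDΓ i hi hw.1, hw.2⟩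
  have hnot : ∀ w ∈ Γ, w ∈ A → w ∉ B := by
    intro w hw h1 h2
    rw [eq_empty_iff_forall_notMem] at hdisj
    exact hdisj w ⟨hw, h1, h2⟩
  -- pulled back sets
  have key : ∀ X : Set ℂ, IsOpen X → (∀ i, (C ∩ Q i).Nonempty → D i ⊆ X ∨ D i ⊆ Xᶜ) →
      ∀ z ∈ C, ((z ∈ O ∧ h z ∈ X) ∨ ∃ i, z ∈ Q i ∧ D i ⊆ X) →
        ∀ᶠ w in 𝓝[C] z, ((w ∈ O ∧ h w ∈ X) ∨ ∃ i, w ∈ Q i ∧ D i ⊆ X) := by
    intro X hX _ z hzC hz
    rcases hz with ⟨hzO, hzX⟩ | ⟨i, hzi, hDi⟩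
    · have h1 : ∀ᶠ w in 𝓝[C ∩ O] z, h w ∈ X :=
        (hcont z ⟨hzC, hzO⟩) (hX.mem_nhds hzX)
      have h2 := hOop z ⟨hzC, hzO⟩
      rw [eventually_nhdsWithin_iff] at h1 h2 ⊢
      filter_upwards [h1, h2] with w h1 h2 hwC
      exact Or.inl ⟨h2 hwC, h1 ⟨hwC, h2 hwC⟩⟩
    · have h1 := hlim i z ⟨hzC, hzi⟩ X hX hDi
      have h2 := hQop i z ⟨hzC, hzi⟩
      rw [eventually_nhdsWithin_iff] at h1 h2 ⊢
      filter_upwards [h1, h2] with w h1 h2 hwC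
      rcases h2 hwC with h3 | h3
      · exact Or.inl ⟨h3, h1 ⟨hwC, h3⟩⟩
      · exact Or.inr ⟨i, h3, hDi⟩
  set PA : Set ℂ := {z | (z ∈ O ∧ h z ∈ A) ∨ ∃ i, z ∈ Q i ∧ D i ⊆ A} with hPA
  set PB : Set ℂ := {z | (z ∈ O ∧ h z ∈ B) ∨ ∃ i, z ∈ Q i ∧ D i ⊆ B} with hPB
  have hopen : ∀ X : Set ℂ, IsOpen X →
      (∀ z ∈ C, ((z ∈ O ∧ h z ∈ X) ∨ ∃ i, z ∈ Q i ∧ D i ⊆ X) →
        ∀ᶠ w in 𝓝[C] z, ((w ∈ O ∧ h w ∈ X) ∨ ∃ i, w ∈ Q i ∧ D i ⊆ X)) →
      ∃ W, IsOpen W ∧ ∀ z ∈ C, (z ∈ W ↔ ((z ∈ O ∧ h z ∈ X) ∨ ∃ i, z ∈ Q i ∧ D i ⊆ X)) := by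
    intro X hX hk
    have : ∀ z : ℂ, ∃ W : Set ℂ, (z ∈ C → ((z ∈ O ∧ h z ∈ X) ∨ ∃ i, z ∈ Q i ∧ D i ⊆ X) →
        IsOpen W ∧ z ∈ W ∧ ∀ w ∈ W ∩ C, ((w ∈ O ∧ h w ∈ X) ∨ ∃ i, w ∈ Q i ∧ D i ⊆ X)) := by
      intro z
      by_cases hz : z ∈ C ∧ ((z ∈ O ∧ h z ∈ X) ∨ ∃ i, z ∈ Q i ∧ D i ⊆ X)
      · have := hk z hz.1 hz.2
        rw [eventually_nhdsWithin_iff, _root_.eventually_nhds_iff] at this
        obtain ⟨W, hW1, hW2, hW3⟩ := this
        exact ⟨W, fun _ _ => ⟨hW2, hW3, fun w hw => hW1 w hw.1 hw.2⟩⟩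
      · exact ⟨∅, fun h1 h2 => absurd ⟨h1, h2⟩ hz⟩
    choose W hW using this
    refine ⟨⋃ z ∈ {z | z ∈ C ∧ ((z ∈ O ∧ h z ∈ X) ∨ ∃ i, z ∈ Q i ∧ D i ⊆ X)}, W z,
      isOpen_biUnion fun z hz => (hW z hz.1 hz.2).1, fun z hz => ⟨fun hzW => ?_, fun hzX => ?_⟩⟩
    · obtain ⟨y, hy, hzy⟩ := mem_iUnion₂.1 hzW
      exact (hW y hy.1 hy.2).2.2 z ⟨hzy, hz⟩
    · exact mem_iUnion₂.2 ⟨z, ⟨hz, hzX⟩, (hW z hz hzX).2.1⟩
  obtain ⟨WA, hWA, hWA2⟩ := hopen A hA (key A hA (fun i hi => by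
    rcases hDAB i hi with h1 | h1
    · exact Or.inl h1
    · exact Or.inr fun w hw hwA => hnot w (hDΓ i hi hw) hwA (h1 hw)))
  obtain ⟨WB, hWB, hWB2⟩ := hopen B hB (key B hB (fun i hi => by
    rcases hDAB i hi with h1 | h1
    · exact Or.inr fun w hw hwB => hnot w (hDΓ i hi hw) (h1 hw) hwB
    · exact Or.inl h1))
  have hCW : C ⊆ WA ∪ WB := by
    intro z hz
    rcases hcov hz with hzO | hzQ
    · have hw : h z ∈ Γ := Or.inl ⟨z, ⟨hz, hzO⟩, rfl⟩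
      rcases hAB hw with h1 | h1
      · exact Or.inl ((hWA2 z hz).2 (Or.inl ⟨hzO, h1⟩))
      · exact Or.inr ((hWB2 z hz).2 (Or.inl ⟨hzO, h1⟩))
    · obtain ⟨i, hi⟩ := mem_iUnion.1 hzQ
      rcases hDAB i ⟨z, hz, hi⟩ with h1 | h1
      · exact Or.inl ((hWA2 z hz).2 (Or.inr ⟨i, hi, h1⟩))
      · exact Or.inr ((hWB2 z hz).2 (Or.inr ⟨i, hi, h1⟩))
  have hCWe : C ∩ (WA ∩ WB) = ∅ := by
    rw [eq_empty_iff_forall_notMem]
    rintro z ⟨hz, hzA, hzB⟩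
    rw [hWA2 z hz] at hzA
    rw [hWB2 z hz] at hzB
    rcases hzA with ⟨h1, h2⟩ | ⟨i, h1, h2⟩ <;> rcases hzB with ⟨h3, h4⟩ | ⟨j, h3, h4⟩
    · exact hnot (h z) (Or.inl ⟨z, ⟨hz, h1⟩, rfl⟩) h2 h4
    · exact disjoint_left.1 (hOQ j) h1 h3
    · exact disjoint_left.1 (hOQ i) h3 h1
    · have hij : i = j := by
        by_contra hne
        exact disjoint_left.1 (hQQ hne) h1 h3
      subst hij
      obtain ⟨w, hw⟩ := hDne i
      exact hnot w (hDΓ i ⟨z, hz, h1⟩ hw) (h2 hw) (h4 hw)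
  rcases isPreconnected_iff_subset_of_disjoint.1 hC WA WB hWA hWB hCW hCWe with h1 | h1
  · left
    rw [hΓ]
    rintro w (⟨z, ⟨hz, hzO⟩, rfl⟩ | hw)
    · rcases (hWA2 z hz).1 (h1 hz) with ⟨_, h3⟩ | ⟨i, h3, _⟩
      · exact h3
      · exact absurd h3 (disjoint_left.1 (hOQ i) hzO)
    · obtain ⟨i, ⟨z, hz, hzi⟩, hw⟩ := mem_iUnion₂.1 hw
      rcases (hWA2 z hz).1 (h1 hz) with ⟨h3, _⟩ | ⟨j, h3, h4⟩
      · exact absurd hzi (disjoint_left.1 (hOQ i) h3)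
      · have hij : i = j := by
          by_contra hne
          exact disjoint_left.1 (hQQ hne) hzi h3
        subst hij
        exact h4 hw
  · right
    rw [hΓ]
    rintro w (⟨z, ⟨hz, hzO⟩, rfl⟩ | hw)
    · rcases (hWB2 z hz).1 (h1 hz) with ⟨_, h3⟩ | ⟨i, h3, _⟩
      · exact h3
      · exact absurd h3 (disjoint_left.1 (hOQ i) hzO)
    · obtain ⟨i, ⟨z, hz, hzi⟩, hw⟩ := mem_iUnion₂.1 hw
      rcases (hWB2 z hz).1 (h1 hz) with ⟨h3, _⟩ | ⟨j, h3, h4⟩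
      · exact absurd hzi (disjoint_left.1 (hOQ i) h3)
      · have hij : i = j := by
          by_contra hne
          exact disjoint_left.1 (hQQ hne) hzi h3
        subst hij
        exact h4 hw

end Vale.Agent.P116.H906
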