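import Mathlib
import Vale.Agent.P116.H906.Esc
import Vale.Agent.P116.H906.Lim

/-!
Conformal maps of finitely connected domains onto circle domains: the interface, and the
correspondence of sets.
-/

open Set Filter Topology Metric Bornology

namespace Vale.Agent.P116.H906

/-- admissible finite families of holes -/
structure Adm (S : Set (Set ℂ)) : Prop where
  fin : S.Finite
  cpt : ∀ P ∈ S, IsCompact P
  conn : ∀ P ∈ S, IsConnected P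
  nontriv : ∀ P ∈ S, P.Nontrivial
  disj : ∀ P ∈ S, ∀ Q ∈ S, P ≠ Q → Disjoint P Q
  full : Full (⋃₀ S)

/-- `f` maps the complement of the holes in `S` onto the complement of disjoint closed disks -/
structure CMap (S : Set (Set ℂ)) (f : ℂ → ℂ) (c : Set ℂ → ℂ) (r : Set ℂ → ℝ) : Prop where
  nu : NU (⋃₀ S)ᶜ f
  rpos : ∀ P ∈ S, 0 < r P
  disj : ∀ P ∈ S, ∀ Q ∈ S, P ≠ Q → Disjoint (closedBall (c P) (r P)) (closedBall (c Q) (r Q))
  image : f '' (⋃₀ S)ᶜ = (⋃ P ∈ S, closedBall (c P) (r P))ᶜ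
  lim : ∀ P ∈ S, ∀ x ∈ P,
    Tendsto (fun z => infDist (f z) (closedBall (c P) (r P))) (𝓝[(⋃₀ S)ᶜ] x) (𝓝 0)

/-- Koebe's theorem for finitely connected domains -/
def FK : Prop := ∀ S : Set (Set ℂ), Adm S → ∃ f c r, CMap S f c r

/-- image of a set, with holes -/
def Tm (S : Set (Set ℂ)) (f : ℂ → ℂ) (c : Set ℂ → ℂ) (r : Set ℂ → ℝ) (Γ : Set ℂ) : Set ℂ :=
  f '' (Γ ∩ (⋃₀ S)ᶜ) ∪ ⋃ P ∈ {P | P ∈ S ∧ (Γ ∩ P).Nonempty}, closedBall (c P) (r P)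

/-- preimage of a set, with holes -/
def Tp (S : Set (Set ℂ)) (f : ℂ → ℂ) (c : Set ℂ → ℂ) (r : Set ℂ → ℝ) (Δ : Set ℂ) : Set ℂ :=
  {z | (z ∉ ⋃₀ S ∧ f z ∈ Δ) ∨ ∃ P ∈ S, z ∈ P ∧ (Δ ∩ closedBall (c P) (r P)).Nonempty}

lemma Adm.isCompact {S : Set (Set ℂ)} (h : Adm S) : IsCompact (⋃₀ S) :=
  h.fin.isCompact_sUnion h.cpt

lemma Adm.isOpen_compl {S : Set (Set ℂ)} (h : Adm S) : IsOpen (⋃₀ S)ᶜ :=
  h.isCompact.isClosed.isOpen_compl

lemma Adm.bdd {S : Set (Set ℂ)} (h : Adm S) : ∃ R > 0, ⋃₀ S ⊆ closedBall (0:ℂ) R := by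
  obtain ⟨R, hR⟩ := h.isCompact.isBounded.subset_closedBall 0
  exact ⟨max R 1, by positivity, hR.trans (closedBall_subset_closedBall (le_max_left _ _))⟩

lemma Adm.evt {S : Set (Set ℂ)} (h : Adm S) {P : Set ℂ} (hP : P ∈ S) {z : ℂ} (hz : z ∈ P) :
    ∀ᶠ w in 𝓝 z, w ∈ (⋃₀ S)ᶜ ∪ P := by
  have h1 : IsClosed (⋃₀ (S \ {P})) :=
    ((h.fin.subset sdiff_subset).isCompact_sUnion fun Q hQ => h.cpt Q hQ.1).isClosed
  have h2 : z ∉ ⋃₀ (S \ {P}) := by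
    rintro ⟨Q, ⟨hQ, hne⟩, hzQ⟩
    exact disjoint_left.1 (h.disj Q hQ P hP hne) hzQ hz
  filter_upwards [h1.isOpen_compl.mem_nhds h2] with w hw
  by_cases hwP : w ∈ P
  · exact Or.inr hwP
  · left
    rintro ⟨Q, hQ, hwQ⟩
    refine hw ⟨Q, ⟨hQ, fun hQP => hwP ?_⟩, hwQ⟩
    rw [mem_singleton_iff] at hQP
    rw [← hQP]
    exact hwQ

section

variable {S : Set (Set ℂ)} {f : ℂ → ℂ} {c : Set ℂ → ℂ} {r : Set ℂ → ℝ}

lemma CMap.contOn (h : CMap S f c r) : ContinuousOn f (⋃₀ S)ᶜ := h.nu.diff.continuousOn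

lemma CMap.disksClosed (hS : Adm S) (_h : CMap S f c r) :
    IsClosed (⋃ P ∈ S, closedBall (c P) (r P)) :=
  hS.fin.isClosed_biUnion fun _ _ => isClosed_closedBall

lemma CMap.notMem (h : CMap S f c r) {z : ℂ} (hz : z ∉ ⋃₀ S) {P : Set ℂ} (hP : P ∈ S) :
    f z ∉ closedBall (c P) (r P) := by
  have h1 : f z ∈ f '' (⋃₀ S)ᶜ := ⟨z, hz, rfl⟩
  rw [h.image] at h1
  exact fun h2 => h1 (mem_iUnion₂.2 ⟨P, hP, h2⟩)

lemma CMap.exists_pre (h : CMap S f c r) {w : ℂ} (hw : ∀ P ∈ S, w ∉ closedBall (c P) (r P)) :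
    ∃ z, z ∉ ⋃₀ S ∧ f z = w := by
  have h1 : w ∈ (⋃ P ∈ S, closedBall (c P) (r P))ᶜ := by
    intro h2
    obtain ⟨P, hP, h3⟩ := mem_iUnion₂.1 h2
    exact hw P hP h3
  rw [← h.image] at h1
  obtain ⟨z, hz, hzw⟩ := h1
  exact ⟨z, hz, hzw⟩

lemma CMap.lim_open (h : CMap S f c r) {P : Set ℂ} (hP : P ∈ S) {x : ℂ} (hx : x ∈ P)
    {W : Set ℂ} (hW : IsOpen W) (hPW : closedBall (c P) (r P) ⊆ W) :
    ∀ᶠ z in 𝓝[(⋃₀ S)ᶜ] x, f z ∈ W := by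
  obtain ⟨δ, hδ, hδW⟩ := (isCompact_closedBall (c P) (r P)).exists_thickening_subset_open hW hPW
  have h1 : ∀ᶠ z in 𝓝[(⋃₀ S)ᶜ] x, infDist (f z) (closedBall (c P) (r P)) < δ :=
    (h.lim P hP x hx).eventually (gt_mem_nhds hδ)
  filter_upwards [h1] with z hz
  refine hδW ((mem_thickening_iff_infDist_lt ⟨c P, mem_closedBall_self (h.rpos P hP).le⟩).2 hz)

/-- inverse boundary correspondence, along ultrafilters -/
lemma CMap.corr (hS : Adm S) (h : CMap S f c r) {β : Type*} (𝓥 : Ultrafilter β) {z : β → ℂ}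
    (hz : ∀ᶠ b in (𝓥 : Filter β), z b ∉ ⋃₀ S) {w₀ : ℂ}
    (hw : Tendsto (fun b => f (z b)) 𝓥 (𝓝 w₀)) :
    ∃ z₀, Tendsto z 𝓥 (𝓝 z₀) ∧
      ((z₀ ∉ ⋃₀ S ∧ f z₀ = w₀) ∨ ∃ P ∈ S, z₀ ∈ P ∧ w₀ ∈ closedBall (c P) (r P)) := by
  -- boundedness
  obtain ⟨M, hM⟩ : ∃ M : ℝ, ∀ y, M < ‖y‖ → ‖f y - y‖ < 1 := by
    have h1 : ∀ᶠ y in cobounded ℂ, ‖f y - y‖ < 1 := by
      have := h.nu.norm.norm
      rw [norm_zero] at this
      exact this.eventually_lt_const one_pos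
    rw [← comap_norm_atTop, eventually_comap] at h1
    obtain ⟨M, hM⟩ := (eventually_gt_atTop (0:ℝ)).exists_forall_of_atTop.imp fun a h => h
    obtain ⟨M, hM⟩ := eventually_atTop.1 h1
    exact ⟨M, fun y hy => hM _ hy.le y rfl⟩
  have hbd : ∀ᶠ b in (𝓥 : Filter β), z b ∈ closedBall (0:ℂ) (max M (‖w₀‖ + 2)) := by
    filter_upwards [hw.eventually (ball_mem_nhds w₀ one_pos)] with b hb
    rw [mem_closedBall, dist_zero_right]
    by_contra hcon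
    rw [not_le, max_lt_iff] at hcon
    have h2 := hM _ hcon.1
    replace hb : dist (f (z b)) w₀ < 1 := hb
    rw [dist_eq_norm] at hb
    have h3 : ‖z b‖ ≤ ‖f (z b) - z b‖ + ‖f (z b) - w₀‖ + ‖w₀‖ := by
      have e : z b = -(f (z b) - z b) + (f (z b) - w₀) + w₀ := by ring
      calc ‖z b‖ = ‖-(f (z b) - z b) + (f (z b) - w₀) + w₀‖ := by rw [← e]
        _ ≤ ‖-(f (z b) - z b) + (f (z b) - w₀)‖ + ‖w₀‖ := norm_add_le _ _
        _ ≤ ‖-(f (z b) - z b)‖ + ‖f (z b) - w₀‖ + ‖w₀‖ := by gcongr; exact norm_add_le _ _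
        _ = _ := by rw [norm_neg]
    linarith [hcon.2]
  obtain ⟨z₀, -, hz₀⟩ := (isCompact_closedBall (0 : ℂ) (max M (‖w₀‖ + 2))).ultrafilter_le_nhds
    (𝓥.map z) (by
      rw [le_principal_iff, Ultrafilter.coe_map, Filter.mem_map]
      exact hbd)
  have hz₀' : Tendsto z 𝓥 (𝓝 z₀) := hz₀
  refine ⟨z₀, hz₀', ?_⟩
  have hzw : Tendsto z 𝓥 (𝓝[(⋃₀ S)ᶜ] z₀) := tendsto_nhdsWithin_iff.2 ⟨hz₀', hz⟩
  by_cases hmem : z₀ ∈ ⋃₀ S
  · right
    obtain ⟨P, hP, hzP⟩ := hmem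
    refine ⟨P, hP, hzP, ?_⟩
    have h1 := (h.lim P hP z₀ hzP).comp hzw
    have h2 : Tendsto (fun b => infDist (f (z b)) (closedBall (c P) (r P))) 𝓥
        (𝓝 (infDist w₀ (closedBall (c P) (r P)))) :=
      ((continuous_infDist_pt _).tendsto w₀).comp hw
    have h3 := tendsto_nhds_unique h1 h2
    rw [isClosed_closedBall.mem_iff_infDist_zero ⟨c P, mem_closedBall_self (h.rpos P hP).le⟩]
    exact h3.symm
  · left
    refine ⟨hmem, ?_⟩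
    have h1 : Tendsto (fun b => f (z b)) 𝓥 (𝓝 (f z₀)) :=
      (h.contOn z₀ hmem).tendsto.comp hzw
    exact tendsto_nhds_unique h1 hw

/-- images of connected sets -/
lemma CMap.push (hS : Adm S) (h : CMap S f c r) {Γ : Set ℂ} (hΓ : IsPreconnected Γ) :
    IsPreconnected (Tm S f c r Γ) := by
  have key := push_isPreconnected (ι := {P // P ∈ S}) (C := Γ) (O := (⋃₀ S)ᶜ) (h := f)
    (Q := fun P => P.1) (D := fun P => closedBall (c P.1) (r P.1)) hΓ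
    (by
      intro z _
      by_cases hz : z ∈ ⋃₀ S
      · obtain ⟨P, hP, hzP⟩ := hz
        exact Or.inr (mem_iUnion.2 ⟨⟨P, hP⟩, hzP⟩)
      · exact Or.inl hz)
    (h.contOn.mono inter_subset_right)
    (fun z hz => mem_nhdsWithin_of_mem_nhds (hS.isOpen_compl.mem_nhds hz.2))
    (fun P z hz => mem_nhdsWithin_of_mem_nhds (hS.evt P.2 hz.2))
    (fun P => disjoint_compl_left_iff_subset.2 (subset_sUnion_of_mem P.2))
    (fun P Q hPQ => hS.disj P.1 P.2 Q.1 Q.2 fun h => hPQ (Subtype.ext h))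
    (fun P => (convex_closedBall _ _).isPreconnected)
    (fun P => ⟨c P.1, mem_closedBall_self (h.rpos P.1 P.2).le⟩)
    (fun P z hz W hW hPW => by
      have h1 := h.lim_open P.2 hz.2 hW hPW
      exact h1.filter_mono (nhdsWithin_mono _ inter_subset_right))
  convert key using 1
  simp only [Tm]
  congr 1
  ext w
  simp only [mem_iUnion, mem_ofPred_eq, Subtype.exists, exists_prop]
  constructor
  · rintro ⟨P, ⟨hP, hne⟩, hw⟩
    exact ⟨P, hP, hne, hw⟩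
  · rintro ⟨P, hP, hne, hw⟩
    exact ⟨P, ⟨hP, hne⟩, hw⟩

lemma CMap.diskEvt (hS : Adm S) (h : CMap S f c r) {P : Set ℂ} (hP : P ∈ S) {w : ℂ}
    (hw : w ∈ closedBall (c P) (r P)) :
    ∀ᶠ v in 𝓝 w, v ∈ (⋃ P ∈ S, closedBall (c P) (r P))ᶜ ∪ closedBall (c P) (r P) := by
  have h1 : IsClosed (⋃ Q ∈ S \ {P}, closedBall (c Q) (r Q)) :=
    (hS.fin.subset sdiff_subset).isClosed_biUnion fun _ _ => isClosed_closedBall
  have h2 : w ∉ ⋃ Q ∈ S \ {P}, closedBall (c Q) (r Q) := by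
    intro h2
    obtain ⟨Q, ⟨hQ, hne⟩, hwQ⟩ := mem_iUnion₂.1 h2
    exact disjoint_left.1 (h.disj Q hQ P hP hne) hwQ hw
  filter_upwards [h1.isOpen_compl.mem_nhds h2] with v hv
  by_cases hvP : v ∈ closedBall (c P) (r P)
  · exact Or.inr hvP
  · left
    intro h3
    obtain ⟨Q, hQ, hvQ⟩ := mem_iUnion₂.1 h3
    refine hv (mem_iUnion₂.2 ⟨Q, ⟨hQ, fun hQP => hvP ?_⟩, hvQ⟩)
    rw [mem_singleton_iff] at hQP
    rw [← hQP]
    exact hvQ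

/-- preimages of connected sets -/
lemma CMap.pull (hS : Adm S) (h : CMap S f c r) {Δ : Set ℂ} (hΔ : IsPreconnected Δ) :
    IsPreconnected (Tp S f c r Δ) := by
  classical
  set O' : Set ℂ := (⋃ P ∈ S, closedBall (c P) (r P))ᶜ with hO'
  have hpre : ∀ w ∈ O', ∃ z, z ∉ ⋃₀ S ∧ f z = w := by
    intro w hw
    exact h.exists_pre fun P hP hwP => hw (mem_iUnion₂.2 ⟨P, hP, hwP⟩)
  choose! g hg1 hg2 using hpre
  have hgf : ∀ z ∉ ⋃₀ S, f z ∈ O' ∧ g (f z) = z := by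
    intro z hz
    have h1 : f z ∈ O' := by
      rw [hO', ← h.image]
      exact ⟨z, hz, rfl⟩
    exact ⟨h1, h.nu.inj (hg1 _ h1) hz (hg2 _ h1)⟩
  have hO'o : IsOpen O' := (h.disksClosed hS).isOpen_compl
  have key := push_isPreconnected (ι := {P // P ∈ S}) (C := Δ) (O := O') (h := g)
    (D := fun P => P.1) (Q := fun P => closedBall (c P.1) (r P.1)) hΔ
    (by
      intro z _
      by_cases hz : z ∈ O'
      · exact Or.inl hz
      · rw [hO', notMem_compl_iff] at hz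
        obtain ⟨P, hP, hzP⟩ := mem_iUnion₂.1 hz
        exact Or.inr (mem_iUnion.2 ⟨⟨P, hP⟩, hzP⟩))
    (by
      intro w hw
      refine ContinuousWithinAt.mono (t := Δ ∩ O') ?_ subset_rfl
      rw [ContinuousWithinAt, tendsto_iff_ultrafilter]
      intro 𝓥 h𝓥
      have h1 : ∀ᶠ v in (𝓥 : Filter ℂ), v ∈ O' := by
        have : ∀ᶠ v in 𝓝[Δ ∩ O'] w, v ∈ O' := by
          filter_upwards [self_mem_nhdsWithin] with v hv using hv.2
        exact h𝓥 this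
      have h2 : Tendsto (fun v => f (g v)) (𝓥 : Filter ℂ) (𝓝 w) := by
        have : Tendsto (fun v : ℂ => v) (𝓥 : Filter ℂ) (𝓝 w) := h𝓥.trans nhdsWithin_le_nhds
        refine this.congr' ?_
        filter_upwards [h1] with v hv using (hg2 v hv).symm
      obtain ⟨z₀, hz₀, h3⟩ := h.corr hS 𝓥 (z := g)
        (by filter_upwards [h1] with v hv using hg1 v hv) h2
      rcases h3 with ⟨h4, h5⟩ | ⟨P, hP, h4, h5⟩
      · have h6 := (hgf z₀ h4).2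
        rw [h5] at h6
        rw [h6]
        exact hz₀
      · exact absurd (mem_iUnion₂.2 ⟨P, hP, h5⟩) hw.2)
    (fun z hz => mem_nhdsWithin_of_mem_nhds (hO'o.mem_nhds hz.2))
    (fun P z hz => mem_nhdsWithin_of_mem_nhds (h.diskEvt hS P.2 hz.2))
    (fun P => disjoint_compl_left_iff_subset.2
      (subset_biUnion_of_mem (u := fun P => closedBall (c P) (r P)) P.2))
    (fun P Q hPQ => h.disj P.1 P.2 Q.1 Q.2 fun h => hPQ (Subtype.ext h))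
    (fun P => (hS.conn P.1 P.2).isPreconnected)
    (fun P => (hS.conn P.1 P.2).nonempty)
    (fun P w hw W hW hPW => by
      by_contra hcon
      rw [not_eventually] at hcon
      have hne : (𝓝[Δ ∩ O'] w ⊓ 𝓟 {v | g v ∉ W}).NeBot :=
        frequently_mem_iff_neBot.1 hcon
      set 𝓥 := Ultrafilter.of (𝓝[Δ ∩ O'] w ⊓ 𝓟 {v | g v ∉ W}) with h𝓥
      have h𝓥le : (𝓥 : Filter ℂ) ≤ 𝓝[Δ ∩ O'] w ⊓ 𝓟 {v | g v ∉ W} := Ultrafilter.of_le _
      have h𝓥1 : (𝓥 : Filter ℂ) ≤ 𝓝[Δ ∩ O'] w := h𝓥le.trans inf_le_left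
      have h𝓥2 : ∀ᶠ v in (𝓥 : Filter ℂ), g v ∉ W := by
        have := h𝓥le.trans inf_le_right
        rwa [le_principal_iff] at this
      have h1 : ∀ᶠ v in (𝓥 : Filter ℂ), v ∈ O' := by
        have : ∀ᶠ v in 𝓝[Δ ∩ O'] w, v ∈ O' := by
          filter_upwards [self_mem_nhdsWithin] with v hv using hv.2
        exact h𝓥1 this
      have h2 : Tendsto (fun v => f (g v)) (𝓥 : Filter ℂ) (𝓝 w) := by
        have : Tendsto (fun v : ℂ => v) (𝓥 : Filter ℂ) (𝓝 w) := h𝓥1.trans nhdsWithin_le_nhds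
        refine this.congr' ?_
        filter_upwards [h1] with v hv using (hg2 v hv).symm
      obtain ⟨z₀, hz₀, h3⟩ := h.corr hS 𝓥 (z := g)
        (by filter_upwards [h1] with v hv using hg1 v hv) h2
      have h6 : z₀ ∉ W := by
        intro hz₀W
        obtain ⟨v, hv1, hv2⟩ := (h𝓥2.and (hz₀.eventually (hW.mem_nhds hz₀W))).exists
        exact hv1 hv2
      rcases h3 with ⟨h4, h5⟩ | ⟨P', hP', h4, h5⟩
      · exact h.notMem h4 P.2 (h5 ▸ hw.2)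
      · by_cases hPP : P' = P.1
        · exact h6 (hPW (hPP ▸ h4))
        · exact disjoint_left.1 (h.disj P' hP' P.1 P.2 hPP) h5 hw.2)
  convert key using 1
  ext z
  simp only [Tp, mem_ofPred_eq, mem_union, mem_image, mem_iUnion, Subtype.exists, exists_prop]
  constructor
  · rintro (⟨h1, h2⟩ | ⟨P, hP, hzP, hne⟩)
    · exact Or.inl ⟨f z, ⟨h2, (hgf z h1).1⟩, (hgf z h1).2⟩
    · exact Or.inr ⟨P, hP, hne, hzP⟩
  · rintro (⟨w, ⟨hw1, hw2⟩, rfl⟩ | ⟨P, hP, hne, hzP⟩)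
    · exact Or.inl ⟨hg1 w hw2, by rw [hg2 w hw2]; exact hw1⟩
    · exact Or.inr ⟨P, hP, hzP, hne⟩

/-- the preimage of an unbounded set is unbounded -/
lemma CMap.pull_unbdd (hS : Adm S) (h : CMap S f c r) {Δ : Set ℂ} (hΔ : ¬ Bornology.IsBounded Δ) :
    ¬ Bornology.IsBounded (Tp S f c r Δ) := by
  intro hb
  obtain ⟨R₀, hR₀, hS'⟩ := hS.bdd
  obtain ⟨R₁, hR₁⟩ := hb.subset_closedBall 0
  have hD : Bornology.IsBounded (⋃ P ∈ S, closedBall (c P) (r P)) :=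
    (Bornology.isBounded_biUnion hS.fin).2 fun _ _ => isBounded_closedBall
  refine hΔ ((hD.union (isBounded_closedBall (x := (0:ℂ)) (r := 5 * max R₀ R₁))).subset ?_)
  intro w hw
  by_cases hwD : ∀ P ∈ S, w ∉ closedBall (c P) (r P)
  · right
    obtain ⟨z, hz, rfl⟩ := h.exists_pre hwD
    have hz1 : z ∈ closedBall (0:ℂ) R₁ := hR₁ (Or.inl ⟨hz, hw⟩)
    rw [mem_closedBall, dist_zero_right] at hz1 ⊢
    refine h.nu.norm_le (lt_max_of_lt_left hR₀) ?_ hz (hz1.trans (le_max_right _ _))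
    exact compl_subset_compl.2 (hS'.trans (closedBall_subset_closedBall (le_max_left _ _)))
  · left
    push Not at hwD
    obtain ⟨P, hP, hwP⟩ := hwD
    exact mem_iUnion₂.2 ⟨P, hP, hwP⟩

lemma frontier_inter_of_connected {C V : Set ℂ} (hC : IsPreconnected C) (h1 : (C ∩ V).Nonempty)
    (h2 : ¬ C ⊆ V) : (C ∩ frontier V).Nonempty := by
  by_contra h
  rw [not_nonempty_iff_eq_empty, ← disjoint_iff_inter_eq_empty] at h
  exact h2 (subset_of_frontier_disjoint hC h1 h)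

/-- a connected set in the image plane meeting `Tm V` and missing `Tm (frontier V)` is inside
`Tm V` -/
lemma CMap.subset_Tm (hS : Adm S) (h : CMap S f c r) {Δ V : Set ℂ} (hΔ : IsPreconnected Δ)
    (h1 : (Δ ∩ Tm S f c r V).Nonempty) (h2 : Disjoint Δ (Tm S f c r (frontier V))) :
    Δ ⊆ Tm S f c r V := by
  have hpull := h.pull hS hΔ
  have hsub : Tp S f c r Δ ⊆ V := by
    refine subset_of_frontier_disjoint hpull ?_ ?_
    · obtain ⟨w, hwΔ, hw | hw⟩ := h1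
      · obtain ⟨z, ⟨hzV, hz⟩, rfl⟩ := hw
        exact ⟨z, Or.inl ⟨hz, hwΔ⟩, hzV⟩
      · obtain ⟨P, ⟨hP, z, hzV, hzP⟩, hwP⟩ := mem_iUnion₂.1 hw
        exact ⟨z, Or.inr ⟨P, hP, hzP, w, hwΔ, hwP⟩, hzV⟩
    · rw [disjoint_left]
      rintro z (⟨hz, hzΔ⟩ | ⟨P, hP, hzP, w, hwΔ, hwP⟩) hzf
      · exact disjoint_left.1 h2 hzΔ (Or.inl ⟨z, ⟨hzf, hz⟩, rfl⟩)
      · exact disjoint_left.1 h2 hwΔ (Or.inr (mem_iUnion₂.2 ⟨P, ⟨hP, z, hzf, hzP⟩, hwP⟩))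
  intro w hw
  by_cases hwD : ∀ P ∈ S, w ∉ closedBall (c P) (r P)
  · obtain ⟨z, hz, rfl⟩ := h.exists_pre hwD
    exact Or.inl ⟨z, ⟨hsub (Or.inl ⟨hz, hw⟩), hz⟩, rfl⟩
  · push Not at hwD
    obtain ⟨P, hP, hwP⟩ := hwD
    obtain ⟨z, hz⟩ := (hS.conn P hP).nonempty
    exact Or.inr (mem_iUnion₂.2 ⟨P, ⟨hP, z, hsub (Or.inr ⟨P, hP, hz, w, hw, hwP⟩), hz⟩, hwP⟩)

/-- if the image of the frontier is in a closed ball then so is the image of the inside -/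
lemma CMap.Tm_subset_closedBall (hS : Adm S) (h : CMap S f c r) {V : Set ℂ}
    (hV : Bornology.IsBounded V) {y : ℂ} {s : ℝ} (hs : 0 ≤ s)
    (h2 : Tm S f c r (frontier V) ⊆ closedBall y s) :
    Tm S f c r V ⊆ closedBall y s := by
  intro w hw
  by_contra hcon
  have hΔ := isPreconnected_compl_closedBall y hs
  have hpull := h.pull hS hΔ
  have hsub := h.subset_Tm hS (V := V) hΔ ⟨w, hcon, hw⟩ (disjoint_compl_left.mono_right h2)
  have hsubV : Tp S f c r (closedBall y s)ᶜ ⊆ V := by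
    refine subset_of_frontier_disjoint hpull ?_ ?_
    · rcases hw with hw | hw
      · obtain ⟨z, ⟨hzV, hz⟩, rfl⟩ := hw
        exact ⟨z, Or.inl ⟨hz, hcon⟩, hzV⟩
      · obtain ⟨P, ⟨hP, z, hzV, hzP⟩, hwP⟩ := mem_iUnion₂.1 hw
        exact ⟨z, Or.inr ⟨P, hP, hzP, w, hcon, hwP⟩, hzV⟩
    · rw [disjoint_left]
      rintro z (⟨hz, hzΔ⟩ | ⟨P, hP, hzP, v, hvΔ, hvP⟩) hzf
      · exact hzΔ (h2 (Or.inl ⟨z, ⟨hzf, hz⟩, rfl⟩))
      · exact hvΔ (h2 (Or.inr (mem_iUnion₂.2 ⟨P, ⟨hP, z, hzf, hzP⟩, hvP⟩)))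
  exact h.pull_unbdd hS (not_isBounded_compl_closedBall y s) (hV.subset hsubV)

/-- points outside `V` are not mapped into `Tm V`, if `V` is compatible with the holes -/
lemma CMap.notMem_Tm (h : CMap S f c r) {V : Set ℂ} {z : ℂ} (hz : z ∉ ⋃₀ S)
    (hzV : z ∉ V) : f z ∉ Tm S f c r V := by
  rintro (⟨y, ⟨hyV, hy⟩, hyz⟩ | hw)
  · exact hzV (h.nu.inj hy hz hyz ▸ hyV)
  · obtain ⟨P, ⟨hP, -⟩, hwP⟩ := mem_iUnion₂.1 hw
    exact h.notMem hz hP hwP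

lemma Tm_mono {Γ Γ' : Set ℂ} (h : Γ ⊆ Γ') : Tm S f c r Γ ⊆ Tm S f c r Γ' := by
  rintro w (⟨z, ⟨hz, hz2⟩, rfl⟩ | hw)
  · exact Or.inl ⟨z, ⟨h hz, hz2⟩, rfl⟩
  · obtain ⟨P, ⟨hP, z, hz, hzP⟩, hwP⟩ := mem_iUnion₂.1 hw
    exact Or.inr (mem_iUnion₂.2 ⟨P, ⟨hP, z, h hz, hzP⟩, hwP⟩)

lemma Tm_union {Γ Γ' : Set ℂ} : Tm S f c r (Γ ∪ Γ') = Tm S f c r Γ ∪ Tm S f c r Γ' := by
  apply Subset.antisymm
  · rintro w (⟨z, ⟨hz | hz, hz2⟩, rfl⟩ | hw)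
    · exact Or.inl (Or.inl ⟨z, ⟨hz, hz2⟩, rfl⟩)
    · exact Or.inr (Or.inl ⟨z, ⟨hz, hz2⟩, rfl⟩)
    · obtain ⟨P, ⟨hP, z, hz | hz, hzP⟩, hwP⟩ := mem_iUnion₂.1 hw
      · exact Or.inl (Or.inr (mem_iUnion₂.2 ⟨P, ⟨hP, z, hz, hzP⟩, hwP⟩))
      · exact Or.inr (Or.inr (mem_iUnion₂.2 ⟨P, ⟨hP, z, hz, hzP⟩, hwP⟩))
  · exact union_subset (Tm_mono subset_union_left) (Tm_mono subset_union_right)

lemma Tm_univ (h : CMap S f c r) (hS : Adm S) : Tm S f c r univ = univ := by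
  rw [eq_univ_iff_forall]
  intro w
  by_cases hwD : ∀ P ∈ S, w ∉ closedBall (c P) (r P)
  · obtain ⟨z, hz, rfl⟩ := h.exists_pre hwD
    exact Or.inl ⟨z, ⟨mem_univ _, hz⟩, rfl⟩
  · push Not at hwD
    obtain ⟨P, hP, hwP⟩ := hwD
    obtain ⟨z, hz⟩ := (hS.conn P hP).nonempty
    exact Or.inr (mem_iUnion₂.2 ⟨P, ⟨hP, z, mem_univ _, hz⟩, hwP⟩)

/-- bound for the image -/
lemma CMap.Tm_bound (hS : Adm S) (h : CMap S f c r) {R : ℝ} (hR : 0 < R)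
    (hSR : ⋃₀ S ⊆ closedBall (0:ℂ) R) : Tm S f c r (ball 0 R) ⊆ closedBall (0:ℂ) (5 * R) := by
  have hU : (closedBall (0:ℂ) R)ᶜ ⊆ (⋃₀ S)ᶜ := compl_subset_compl.2 hSR
  rintro w (⟨z, ⟨hzV, hz⟩, rfl⟩ | hw)
  · rw [mem_closedBall, dist_zero_right]
    refine h.nu.norm_le hR hU hz ?_
    simpa using (mem_ball_zero_iff.1 hzV).le
  · obtain ⟨P, ⟨hP, -⟩, hwP⟩ := mem_iUnion₂.1 hw
    rw [mem_closedBall, dist_zero_right]
    refine h.nu.omitted hR hU fun z hz hzw => ?_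
    exact h.notMem (hU hz) hP (hzw ▸ hwP)

end

end Vale.Agent.P116.H906
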