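import Mathlib
import Vale.Agent.P116.H906.Pomp
import Vale.Agent.P116.H906.Esc

/-!
Primitives in the complement of a connected compact set.
-/

open Filter Topology MeasureTheory Set Metric
open scoped ContDiff Real

namespace Vale.Agent.P116.H906

open Pomp

lemma pompeiu_at {ψ : ℂ → ℂ} (h : ContDiff ℝ 1 ψ) (hs : HasCompactSupport ψ) (z : ℂ) :
    ∫ w : ℂ, (w - z)⁻¹ * db ψ w = - (2 * π) * ψ z := by
  have h1 : ContDiff ℝ 1 (fun w => ψ (w + z)) := h.comp (contDiff_id.add contDiff_const)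
  have h2 : HasCompactSupport (fun w => ψ (w + z)) :=
    hs.comp_homeomorph (Homeomorph.addRight z)
  have h3 := pompeiu h1 h2
  have h4 : ∀ w, db (fun w => ψ (w + z)) w = db ψ (w + z) := by
    intro w
    simp only [db, fderiv_comp_add_right]
  simp only [h4, zero_add] at h3
  rw [← h3, ← integral_add_right_eq_self (fun w => (w - z)⁻¹ * db ψ w) z]
  simp

lemma db_mul {a b : ℂ → ℂ} {w : ℂ} (ha : DifferentiableAt ℝ a w) (hb : DifferentiableAt ℝ b w) :
    db (fun w => a w * b w) w = a w * db b w + db a w * b w := by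
  have h1 : fderiv ℝ (fun w => a w * b w) w = a w • fderiv ℝ b w + b w • fderiv ℝ a w :=
    fderiv_fun_mul ha hb
  simp only [db, h1, _root_.add_apply, _root_.smul_apply, smul_eq_mul]
  ring

lemma db_analytic {h : ℂ → ℂ} {w : ℂ} (hd : DifferentiableAt ℂ h w) : db h w = 0 := by
  have h1 : fderiv ℝ h w = (fderiv ℂ h w).restrictScalars ℝ := hd.fderiv_restrictScalars ℝ
  simp only [db, h1, ContinuousLinearMap.coe_restrictScalars']
  have h2 : fderiv ℂ h w Complex.I = Complex.I * fderiv ℂ h w 1 := by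
    have := (fderiv ℂ h w).map_smul Complex.I 1
    rwa [smul_eq_mul, mul_one, smul_eq_mul] at this
  rw [h2, ← mul_assoc, Complex.I_mul_I]
  ring

lemma db_of_eventuallyEq {a b : ℂ → ℂ} {w : ℂ} (h : a =ᶠ[𝓝 w] b) : db a w = db b w := by
  simp only [db, h.fderiv_eq]

lemma norm_db_le (ψ : ℂ → ℂ) (w : ℂ) : ‖db ψ w‖ ≤ 2 * ‖fderiv ℝ ψ w‖ := by
  have h1 : ‖fderiv ℝ ψ w 1‖ ≤ ‖fderiv ℝ ψ w‖ := by
    have := (fderiv ℝ ψ w).le_opNorm 1
    simpa using this
  have h2 : ‖fderiv ℝ ψ w Complex.I‖ ≤ ‖fderiv ℝ ψ w‖ := by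
    have := (fderiv ℝ ψ w).le_opNorm Complex.I
    simpa using this
  calc ‖db ψ w‖ ≤ ‖fderiv ℝ ψ w 1‖ + ‖Complex.I * fderiv ℝ ψ w Complex.I‖ := norm_add_le _ _
    _ = ‖fderiv ℝ ψ w 1‖ + ‖fderiv ℝ ψ w Complex.I‖ := by rw [norm_mul, Complex.norm_I, one_mul]
    _ ≤ _ := by linarith

lemma continuous_db {ψ : ℂ → ℂ} (h : ContDiff ℝ 1 ψ) : Continuous (db ψ) := by
  have h1 : Continuous (fderiv ℝ ψ) := h.continuous_fderiv (by simp)
  unfold db
  exact (h1.clm_apply continuous_const).add (continuous_const.mul (h1.clm_apply continuous_const))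

/-- cutoffs at infinity -/
lemma exists_cutoff : ∃ C : ℝ, 0 ≤ C ∧ ∀ R : ℝ, 0 < R → ∃ κ : ℂ → ℂ, ContDiff ℝ 1 κ ∧
    (∀ w, ‖w‖ < R → κ w = 1) ∧ (∀ w, 2 * R < ‖w‖ → κ w = 0) ∧ (∀ w, ‖κ w‖ ≤ 1) ∧
    ∀ w, ‖db κ w‖ ≤ C / R := by
  let f : ContDiffBump (0:ℂ) := ⟨1, 2, one_pos, one_lt_two⟩
  set φ : ℂ → ℂ := fun w => ((f w : ℝ) : ℂ) with hφ
  have hφc : ContDiff ℝ 1 φ := Complex.ofRealCLM.contDiff.comp f.contDiff
  have hφs : HasCompactSupport φ := by
    refine HasCompactSupport.intro (isCompact_closedBall (0:ℂ) 2) fun w hw => ?_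
    have : f w = 0 := f.zero_of_le_dist (by
      rw [mem_closedBall, not_le] at hw
      exact hw.le)
    simp [hφ, this]
  have hd : Continuous (fderiv ℝ φ) := hφc.continuous_fderiv (by simp)
  obtain ⟨C, hC⟩ := hd.bounded_above_of_compact_support (hφs.fderiv (𝕜 := ℝ))
  have hC0 : 0 ≤ C := (norm_nonneg _).trans (hC 0)
  refine ⟨2 * C, by positivity, fun R hR => ⟨fun w => φ ((R⁻¹ : ℝ) • w), ?_, ?_, ?_, ?_, ?_⟩⟩
  · have h1 : ContDiff ℝ 1 (fun w : ℂ => (R⁻¹ : ℝ) • w) := contDiff_id.const_smul (R⁻¹ : ℝ)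
    exact hφc.comp h1
  · intro w hw
    have : f ((R⁻¹ : ℝ) • w) = 1 := f.one_of_mem_closedBall (by
      rw [mem_closedBall, dist_zero_right, norm_smul, norm_inv, Real.norm_of_nonneg hR.le]
      change R⁻¹ * ‖w‖ ≤ 1
      rw [inv_mul_le_iff₀ hR]
      linarith)
    change ((f ((R⁻¹ : ℝ) • w) : ℝ) : ℂ) = 1
    rw [this, Complex.ofReal_one]
  · intro w hw
    have : f ((R⁻¹ : ℝ) • w) = 0 := f.zero_of_le_dist (by
      rw [dist_zero_right, norm_smul, norm_inv, Real.norm_of_nonneg hR.le]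
      change 2 ≤ R⁻¹ * ‖w‖
      rw [le_inv_mul_iff₀ hR]
      linarith)
    change ((f ((R⁻¹ : ℝ) • w) : ℝ) : ℂ) = 0
    rw [this, Complex.ofReal_zero]
  · intro w
    rw [hφ]
    simp only [Complex.norm_real]
    rw [Real.norm_of_nonneg f.nonneg]
    exact f.le_one
  · intro w
    refine (norm_db_le _ _).trans ?_
    have h1 : fderiv ℝ (fun w => φ ((R⁻¹ : ℝ) • w)) w = R⁻¹ • fderiv ℝ φ ((R⁻¹ : ℝ) • w) := by
      rw [fderiv_comp_smul]
    rw [h1, norm_smul, norm_inv, Real.norm_of_nonneg hR.le, div_eq_inv_mul]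
    have := hC ((R⁻¹ : ℝ) • w)
    have hRi : 0 ≤ R⁻¹ := by positivity
    nlinarith [mul_le_mul_of_nonneg_left this hRi]

/-- representation of a function vanishing at infinity by its cut-off derivative -/
lemma cauchy_rep {P : Set ℂ} (hP : IsCompact P) {h : ℂ → ℂ} (hd : DifferentiableOn ℂ h Pᶜ)
    {C₀ R₀ : ℝ} (hR₀ : 0 < R₀) (hinf : ∀ z, R₀ < ‖z‖ → ‖h z‖ ≤ C₀ / ‖z‖ ^ 2)
    {χ : ℂ → ℂ} (hχ : ContDiff ℝ 1 χ) (hχP : ∀ z ∈ P, ∀ᶠ w in 𝓝 z, χ w = 0)
    (hχ1 : ∀ z, R₀ < ‖z‖ → χ z = 1) {z : ℂ} (hz : ∀ᶠ w in 𝓝 z, χ w = 1) :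
    h z = (2 * π : ℂ)⁻¹ * ∫ w : ℂ, (z - w)⁻¹ * (db χ w * h w) := by
  have hC₀ : 0 ≤ C₀ := by
    have h1 := hinf ((R₀ + 1 : ℝ) : ℂ) (by
      rw [Complex.norm_real, Real.norm_of_nonneg (by positivity)]
      linarith)
    have h2 := (norm_nonneg _).trans h1
    rw [Complex.norm_real, Real.norm_of_nonneg (by positivity)] at h2
    by_contra hneg
    rw [not_le] at hneg
    have : C₀ / (R₀ + 1) ^ 2 < 0 := div_neg_of_neg_of_pos hneg (by positivity)
    linarith
  set H : ℂ → ℂ := fun w => χ w * h w with hH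
  have hHc : ContDiff ℝ 1 H := by
    rw [contDiff_iff_contDiffAt]
    intro w
    by_cases hw : w ∈ P
    · have : H =ᶠ[𝓝 w] fun _ => 0 := by
        filter_upwards [hχP w hw] with x hx
        simp [hH, hx]
      exact contDiffAt_const.congr_of_eventuallyEq this
    · refine hχ.contDiffAt.mul ?_
      have h1 : AnalyticAt ℂ h w := hd.analyticAt (hP.isClosed.isOpen_compl.mem_nhds hw)
      exact (h1.contDiffAt (n := 1)).restrict_scalars ℝ
  have hdbH : ∀ w, db H w = db χ w * h w := by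
    intro w
    by_cases hw : w ∈ P
    · have h1 : H =ᶠ[𝓝 w] fun _ => 0 := by
        filter_upwards [hχP w hw] with x hx
        simp [hH, hx]
      have h2 : χ =ᶠ[𝓝 w] fun _ => 0 := hχP w hw
      rw [db_of_eventuallyEq h1, db_of_eventuallyEq h2]
      simp [db]
    · have h1 : DifferentiableAt ℂ h w := hd.differentiableAt (hP.isClosed.isOpen_compl.mem_nhds hw)
      rw [hH, db_mul (hχ.differentiable (by simp) w) (h1.restrictScalars ℝ), db_analytic h1]
      ring
  have hdbH0 : ∀ w, R₀ < ‖w‖ → db H w = 0 := by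
    intro w hw
    have h2 : χ =ᶠ[𝓝 w] fun _ => 1 := by
      filter_upwards [(isOpen_lt continuous_const continuous_norm).mem_nhds hw] with x hx
      exact hχ1 x hx
    rw [hdbH, db_of_eventuallyEq h2]
    simp [db]
  have hdbHz : ∀ᶠ w in 𝓝 z, db H w = 0 := by
    filter_upwards [eventually_eventually_nhds.2 hz] with w hw
    have h2 : χ =ᶠ[𝓝 w] fun _ => 1 := hw
    rw [hdbH, db_of_eventuallyEq h2]
    simp [db]
  obtain ⟨Cκ, hCκ0, hκ⟩ := exists_cutoff
  -- integrability
  have hint : ∀ g : ℂ → ℂ, Continuous g → HasCompactSupport g → (∀ᶠ w in 𝓝 z, g w = 0) →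
      Integrable (fun w => (w - z)⁻¹ * g w) := by
    intro g hg hgs hg0
    have hc : Continuous (fun w => (w - z)⁻¹ * g w) := by
      rw [continuous_iff_continuousAt]
      intro w
      by_cases hwz : w = z
      · have : (fun w => (w - z)⁻¹ * g w) =ᶠ[𝓝 w] fun _ => 0 := by
          rw [hwz]
          filter_upwards [hg0] with x hx
          simp [hx]
        exact continuousAt_const.congr this.symm
      · exact ((continuousAt_id.sub continuousAt_const).inv₀ (sub_ne_zero.2 hwz)).mul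
          hg.continuousAt
    exact hc.integrable_of_hasCompactSupport hgs.mul_left
  have hest : ∀ R, max R₀ (2 * ‖z‖ + 1) < R →
      ‖h z - (2 * π : ℂ)⁻¹ * ∫ w : ℂ, (z - w)⁻¹ * (db χ w * h w)‖ ≤
        (C₀ / R ^ 2 * (Cκ / R) * (2 / R)) * (16 * R ^ 2) := by
    intro R hR
    have hRR₀ := (le_max_left _ _).trans_lt hR
    have hRz := (le_max_right R₀ (2 * ‖z‖ + 1)).trans_lt hR
    have hz0 := norm_nonneg z
    have hR0 : 0 < R := by linarith
    obtain ⟨κ, hκc, hκ1, hκ0, hκb, hκd⟩ := hκ R hR0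
    have hψc : ContDiff ℝ 1 (fun w => κ w * H w) := hκc.mul hHc
    have hκs : HasCompactSupport κ := by
      refine HasCompactSupport.intro (isCompact_closedBall (0:ℂ) (2 * R)) fun w hw => ?_
      rw [mem_closedBall, dist_zero_right, not_le] at hw
      exact hκ0 w hw
    have hψs : HasCompactSupport (fun w => κ w * H w) := hκs.mul_right
    have hp := pompeiu_at hψc hψs z
    have hψz : κ z * H z = h z := by
      rw [hκ1 z (by linarith), hH]
      simp only
      rw [hz.self_of_nhds]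
      ring
    have hdbκ1 : ∀ w, ‖w‖ < R → db κ w = 0 := by
      intro w hw
      have h2 : κ =ᶠ[𝓝 w] fun _ => 1 := by
        filter_upwards [(isOpen_lt continuous_norm continuous_const).mem_nhds hw] with x hx
        exact hκ1 x hx
      rw [db_of_eventuallyEq h2]
      simp [db]
    have hdbκ2 : ∀ w, 2 * R < ‖w‖ → db κ w = 0 := by
      intro w hw
      have h2 : κ =ᶠ[𝓝 w] fun _ => 0 := by
        filter_upwards [(isOpen_lt continuous_const continuous_norm).mem_nhds hw] with x hx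
        exact hκ0 x hx
      rw [db_of_eventuallyEq h2]
      simp [db]
    have hsplit : ∀ w, (w - z)⁻¹ * db (fun w => κ w * H w) w =
        (w - z)⁻¹ * db H w + (w - z)⁻¹ * (db κ w * H w) := by
      intro w
      rw [db_mul (hκc.differentiable (by simp) w) (hHc.differentiable (by simp) w)]
      by_cases hw : ‖w‖ < R
      · rw [hκ1 w hw]
        ring
      · rw [hdbH0 w (by linarith)]
        ring
    simp only [hsplit] at hp
    have hHs : HasCompactSupport (db H) := by
      refine HasCompactSupport.intro (isCompact_closedBall (0:ℂ) R₀) fun w hw => ?_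
      rw [mem_closedBall, dist_zero_right, not_le] at hw
      exact hdbH0 w hw
    have hκHs : HasCompactSupport (fun w => db κ w * H w) := by
      refine HasCompactSupport.intro (isCompact_closedBall (0:ℂ) (2 * R)) fun w hw => ?_
      rw [mem_closedBall, dist_zero_right, not_le] at hw
      rw [hdbκ2 w hw, zero_mul]
    have hi1 := hint (db H) (continuous_db hHc) hHs hdbHz
    have hi2 := hint (fun w => db κ w * H w) ((continuous_db hκc).mul hHc.continuous) hκHs (by
      filter_upwards [(isOpen_lt continuous_norm continuous_const).mem_nhds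
        (show ‖z‖ < R by linarith)] with x hx
      rw [hdbκ1 x hx, zero_mul])
    rw [integral_add hi1 hi2, hψz] at hp
    have hneg : ∫ w : ℂ, (z - w)⁻¹ * (db χ w * h w) = - ∫ w : ℂ, (w - z)⁻¹ * db H w := by
      rw [← integral_neg]
      congr 1
      ext w
      rw [hdbH w, ← neg_sub w z, inv_neg]
      ring
    have hpi : (2 * π : ℂ) ≠ 0 := by
      simp [Real.pi_ne_zero]
    have e1 : h z - (2 * π : ℂ)⁻¹ * ∫ w : ℂ, (z - w)⁻¹ * (db χ w * h w) =
        - (2 * π : ℂ)⁻¹ * ∫ w : ℂ, (w - z)⁻¹ * (db κ w * H w) := by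
      rw [hneg]
      have : ∫ w : ℂ, (w - z)⁻¹ * (db κ w * H w) =
          - (2 * π) * h z - ∫ w : ℂ, (w - z)⁻¹ * db H w := by
        rw [← hp]
        ring
      rw [this]
      field_simp
      ring
    rw [e1, norm_mul, norm_neg]
    have hpin : ‖(2 * π : ℂ)⁻¹‖ ≤ 1 := by
      rw [norm_inv, norm_mul, Complex.norm_real, Real.norm_of_nonneg Real.pi_pos.le]
      simp only [Complex.norm_ofNat]
      exact inv_le_one_of_one_le₀ (by linarith [Real.pi_gt_three])
    have hibd : ‖∫ w : ℂ, (w - z)⁻¹ * (db κ w * H w)‖ ≤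
        (C₀ / R ^ 2 * (Cκ / R) * (2 / R)) * (16 * R ^ 2) := by
      have hsupp : ∫ w : ℂ, (w - z)⁻¹ * (db κ w * H w) =
          ∫ w in closedBall (0:ℂ) (2 * R), (w - z)⁻¹ * (db κ w * H w) := by
        refine (setIntegral_eq_integral_of_forall_compl_eq_zero fun w hw => ?_).symm
        rw [mem_closedBall, dist_zero_right, not_le] at hw
        rw [hdbκ2 w hw]
        ring
      rw [hsupp]
      have hbd : ∀ w ∈ closedBall (0:ℂ) (2 * R), ‖(w - z)⁻¹ * (db κ w * H w)‖ ≤
          C₀ / R ^ 2 * (Cκ / R) * (2 / R) := by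
        intro w _
        by_cases hw : ‖w‖ < R
        · rw [hdbκ1 w hw]
          simp only [zero_mul, mul_zero, norm_zero]
          positivity
        · rw [not_lt] at hw
          rw [norm_mul, norm_mul, norm_inv]
          have h1 : ‖w - z‖⁻¹ ≤ 2 / R := by
            rw [inv_eq_one_div, div_le_div_iff₀ _ hR0]
            · have := norm_sub_norm_le w z
              linarith
            · have := norm_sub_norm_le w z
              linarith
          have h2 : ‖H w‖ ≤ C₀ / R ^ 2 := by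
            rw [hH]
            simp only
            rw [hχ1 w (by linarith), one_mul]
            refine (hinf w (by linarith)).trans ?_
            gcongr
          have h3 := hκd w
          calc ‖w - z‖⁻¹ * (‖db κ w‖ * ‖H w‖) ≤ (2 / R) * ((Cκ / R) * (C₀ / R ^ 2)) := by
                gcongr
            _ = _ := by ring
      have hvol : volume (closedBall (0:ℂ) (2 * R)) < ⊤ :=
        (isCompact_closedBall (0:ℂ) (2 * R)).measure_lt_top
      have h5 := norm_setIntegral_le_of_norm_le_const hvol hbd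
      refine h5.trans ?_
      gcongr
      rw [measureReal_def, Complex.volume_closedBall, ENNReal.toReal_mul, ENNReal.toReal_pow,
        ENNReal.toReal_ofReal (by positivity)]
      simp only [ENNReal.coe_toReal, NNReal.coe_real_pi]
      have : (2 * R) ^ 2 * π ≤ (2 * R) ^ 2 * 4 := by
        gcongr
        exact Real.pi_le_four
      linarith
    calc ‖(2 * π : ℂ)⁻¹‖ * ‖∫ w : ℂ, (w - z)⁻¹ * (db κ w * H w)‖
        ≤ 1 * ‖∫ w : ℂ, (w - z)⁻¹ * (db κ w * H w)‖ := by gcongr
      _ ≤ _ := by rw [one_mul]; exact hibd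
  -- limit
  have hlim : Tendsto (fun R : ℝ => (C₀ / R ^ 2 * (Cκ / R) * (2 / R)) * (16 * R ^ 2)) atTop
      (𝓝 0) := by
    have h1 : Tendsto (fun R : ℝ => 32 * C₀ * Cκ * (R⁻¹ * R⁻¹)) atTop (𝓝 (32 * C₀ * Cκ * (0 * 0))) :=
      (tendsto_inv_atTop_zero.mul tendsto_inv_atTop_zero).const_mul _
    rw [mul_zero, mul_zero] at h1
    refine h1.congr' ?_
    filter_upwards [eventually_gt_atTop 0] with R hR
    field_simp
    ring
  have h6 : ‖h z - (2 * π : ℂ)⁻¹ * ∫ w : ℂ, (z - w)⁻¹ * (db χ w * h w)‖ ≤ 0 := by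
    refine ge_of_tendsto hlim ?_
    filter_upwards [eventually_gt_atTop (max R₀ (2 * ‖z‖ + 1))] with R hR using hest R hR
  exact sub_eq_zero.1 (norm_le_zero_iff.1 h6)

end Vale.Agent.P116.H906
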