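import Mathlib
import Vale.Agent.P116.H906.Prim

/-!
Primitives in the complement of a connected compact set, continued.
-/

open Filter Topology MeasureTheory Set Metric
open scoped ContDiff Real

namespace Vale.Agent.P116.H906

open Pomp

lemma ratio_mem {P : Set ℂ} {p z w : ℂ} {ε : ℝ} (hε : 0 < ε) (hp : p ∈ P)
    (hz : 2 * ε < infDist z P) (hw : dist w p ≤ ε) :
    z - p ≠ 0 ∧ z - w ≠ 0 ∧ ε ≤ ‖z - w‖ ∧ (z - w) / (z - p) ∈ Complex.slitPlane ∧
      ‖Complex.log ((z - w) / (z - p))‖ ≤ 1 := by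
  have h1 : 2 * ε < ‖z - p‖ := by
    rw [← dist_eq_norm]
    exact hz.trans_le (infDist_le_dist_of_mem hp)
  have hpos : 0 < ‖z - p‖ := by linarith
  have h0 : z - p ≠ 0 := norm_pos_iff.1 hpos
  have h2 : ε ≤ ‖z - w‖ := by
    rw [dist_eq_norm] at hw
    have : ‖z - p‖ ≤ ‖z - w‖ + ‖w - p‖ := by
      have := norm_add_le (z - w) (w - p)
      rwa [sub_add_sub_cancel] at this
    linarith
  have h3 : z - w ≠ 0 := norm_pos_iff.1 (by linarith)
  have h4 : (z - w) / (z - p) = 1 + (p - w) / (z - p) := by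
    field_simp
    ring
  have h5 : ‖(p - w) / (z - p)‖ ≤ 1 / 2 := by
    rw [norm_div, div_le_iff₀ hpos]
    rw [dist_comm, dist_eq_norm] at hw
    linarith
  refine ⟨h0, h3, h2, ?_, ?_⟩
  · rw [h4]
    refine Complex.mem_slitPlane_of_norm_lt_one ?_
    linarith
  · rw [h4]
    refine (Complex.norm_log_one_add_half_le_self h5).trans ?_
    linarith

lemma hasDerivAt_log_ratio {p z w : ℂ} (h0 : z - p ≠ 0) (h1 : z - w ≠ 0)
    (h2 : (z - w) / (z - p) ∈ Complex.slitPlane) :
    HasDerivAt (fun z => Complex.log ((z - w) / (z - p))) ((z - w)⁻¹ - (z - p)⁻¹) z := by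
  have h3 : HasDerivAt (fun z => (z - w) / (z - p))
      ((1 * (z - p) - (z - w) * 1) / (z - p) ^ 2) z :=
    ((hasDerivAt_id z).sub_const w).fun_div ((hasDerivAt_id z).sub_const p) h0
  have h4 := h3.clog h2
  refine h4.congr_deriv ?_
  field_simp

/-- chains of logarithms -/
lemma chain_log {P : Set ℂ} (hc : IsPreconnected P) {ε : ℝ} (hε : 0 < ε) {p p' : ℂ} (hp : p ∈ P)
    (hp' : p' ∈ P) : ∃ L : ℂ → ℂ, ∀ z, 2 * ε < infDist z P →
      HasDerivAt L ((z - p)⁻¹ - (z - p')⁻¹) z := by
  refine hc.induction₂ (fun p p' => ∃ L : ℂ → ℂ, ∀ z, 2 * ε < infDist z P →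
      HasDerivAt L ((z - p)⁻¹ - (z - p')⁻¹) z) ?_ ?_ ?_ hp hp'
  · intro x hx
    filter_upwards [self_mem_nhdsWithin, mem_nhdsWithin_of_mem_nhds (ball_mem_nhds x hε)]
      with y hy hyx
    refine ⟨fun z => Complex.log ((z - x) / (z - y)), fun z hz => ?_⟩
    obtain ⟨h1, h2, -, h3, -⟩ := ratio_mem hε hy hz (w := x) (by
      rw [dist_comm]
      exact (mem_ball.1 hyx).le)
    exact hasDerivAt_log_ratio h1 h2 h3
  · rintro x y z hx hy hz ⟨L, hL⟩ ⟨L', hL'⟩
    refine ⟨fun w => L w + L' w, fun w hw => ?_⟩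
    exact ((hL w hw).fun_add (hL' w hw)).congr_deriv (by ring)
  · rintro x y hx hy ⟨L, hL⟩
    refine ⟨fun w => - L w, fun w hw => ?_⟩
    exact ((hL w hw).fun_neg).congr_deriv (by ring)

/-- primitive for the part of the measure in one disk -/
lemma prim_piece {P : Set ℂ} (hc : IsPreconnected P) {ε : ℝ} (hε : 0 < ε) {p p₀ : ℂ} (hp : p ∈ P)
    (hp₀ : p₀ ∈ P) {m : ℂ → ℂ} (hm : Continuous m) (hms : HasCompactSupport m) {E : Set ℂ}
    (hE : MeasurableSet E) (hEp : E ⊆ ball p ε) :
    ∃ A : ℂ → ℂ, ∀ z, 2 * ε < infDist z P →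
      HasDerivAt A (∫ w in E, m w * ((z - w)⁻¹ - (z - p₀)⁻¹)) z := by
  obtain ⟨L, hL⟩ := chain_log hc hε hp hp₀
  have hmi : Integrable m (volume.restrict E) := (hm.integrable_of_hasCompactSupport hms).restrict
  refine ⟨fun z => (∫ w in E, m w * Complex.log ((z - w) / (z - p))) +
    (∫ w in E, m w) * L z, fun z₀ hz₀ => ?_⟩
  have hnhds : {z | 2 * ε < infDist z P} ∈ 𝓝 z₀ :=
    (isOpen_lt continuous_const (continuous_infDist_pt P)).mem_nhds hz₀
  have hdist : ∀ w ∈ E, dist w p ≤ ε := fun w hw => (mem_ball.1 (hEp hw)).le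
  have hcontlog : ∀ z, 2 * ε < infDist z P →
      ContinuousOn (fun w => m w * Complex.log ((z - w) / (z - p))) E := by
    intro z hz
    refine hm.continuousOn.mul ?_
    refine ContinuousOn.clog ?_ fun w hw => (ratio_mem hε hp hz (hdist w hw)).2.2.2.1
    exact (continuous_const.sub continuous_id).continuousOn.div_const _
  have h1 := hasDerivAt_integral_of_dominated_loc_of_deriv_le (μ := volume.restrict E)
    (F := fun z w => m w * Complex.log ((z - w) / (z - p)))
    (F' := fun z w => m w * ((z - w)⁻¹ - (z - p)⁻¹)) (x₀ := z₀)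
    (bound := fun w => ‖m w‖ * (2 / ε)) hnhds
    (by
      filter_upwards [hnhds] with z hz
      exact (hcontlog z hz).aestronglyMeasurable hE)
    (by
      refine Integrable.mono' hmi.norm ((hcontlog z₀ hz₀).aestronglyMeasurable hE) ?_
      filter_upwards [ae_restrict_mem hE] with w hw
      rw [norm_mul]
      have := (ratio_mem hε hp hz₀ (hdist w hw)).2.2.2.2
      have h0 := norm_nonneg (m w)
      nlinarith)
    (by
      refine ContinuousOn.aestronglyMeasurable ?_ hE
      refine hm.continuousOn.mul (ContinuousOn.sub ?_ continuousOn_const)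
      exact (continuous_const.sub continuous_id).continuousOn.inv₀
        fun w hw => (ratio_mem hε hp hz₀ (hdist w hw)).2.1)
    (by
      filter_upwards [ae_restrict_mem hE] with w hw z hz
      rw [norm_mul]
      obtain ⟨h2, h3, h4, -, -⟩ := ratio_mem hε hp hz (hdist w hw)
      have h5 : ε ≤ ‖z - p‖ := (ratio_mem hε hp hz (w := p) (by rw [dist_self]; exact hε.le)).2.2.1
      have h6 : ‖(z - w)⁻¹ - (z - p)⁻¹‖ ≤ 2 / ε := by
        refine (norm_sub_le _ _).trans ?_
        rw [norm_inv, norm_inv]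
        have e1 : ‖z - w‖⁻¹ ≤ ε⁻¹ := inv_anti₀ hε h4
        have e2 : ‖z - p‖⁻¹ ≤ ε⁻¹ := inv_anti₀ hε h5
        rw [div_eq_mul_inv]
        linarith
      gcongr)
    (hmi.norm.mul_const _)
    (by
      filter_upwards [ae_restrict_mem hE] with w hw z hz
      obtain ⟨h2, h3, -, h4, -⟩ := ratio_mem hε hp hz (hdist w hw)
      exact (hasDerivAt_log_ratio h2 h3 h4).const_mul _)
  have h2 := (hL z₀ hz₀).const_mul (∫ w in E, m w)
  refine (h1.2.fun_add h2).congr_deriv ?_
  rw [← integral_mul_const, ← integral_add h1.1 (hmi.mul_const _)]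
  congr 1
  ext w
  ring

/-- primitive for the whole measure -/
lemma prim_measure {P : Set ℂ} (hc : IsPreconnected P) {ε : ℝ} (hε : 0 < ε) {p₀ : ℂ}
    (hp₀ : p₀ ∈ P) {m : ℂ → ℂ} (hm : Continuous m) (hms : HasCompactSupport m)
    (hmW : ∀ w ∈ tsupport m, infDist w P < ε) :
    ∃ A : ℂ → ℂ, ∀ z, 2 * ε < infDist z P →
      HasDerivAt A (∫ w, m w * ((z - w)⁻¹ - (z - p₀)⁻¹)) z := by
  have hfin : ∀ t : Finset ℂ, (∀ p ∈ t, p ∈ P) → ∀ E : Set ℂ, MeasurableSet E →
      E ⊆ ⋃ p ∈ t, ball p ε → ∃ A : ℂ → ℂ, ∀ z, 2 * ε < infDist z P →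
      Integrable (fun w => m w * ((z - w)⁻¹ - (z - p₀)⁻¹)) (volume.restrict E) ∧
      HasDerivAt A (∫ w in E, m w * ((z - w)⁻¹ - (z - p₀)⁻¹)) z := by
    classical
    intro t
    induction t using Finset.induction_on with
    | empty =>
      intro _ E _ hE
      have : E = ∅ := by
        rw [← subset_empty_iff]
        simpa using hE
      refine ⟨fun _ => 0, fun z _ => ?_⟩
      rw [this]
      simp only [Measure.restrict_empty, integral_zero_measure, integrable_zero_measure, true_and]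
      exact hasDerivAt_const z 0
    | insert p t hpt ih =>
      intro ht E hE hEt
      obtain ⟨A₁, hA₁⟩ := prim_piece hc hε (ht p (Finset.mem_insert_self _ _)) hp₀ hm hms
        (hE.inter (measurableSet_ball (x := p) (ε := ε))) inter_subset_right
      obtain ⟨A₂, hA₂⟩ := ih (fun q hq => ht q (Finset.mem_insert_of_mem hq)) (E \ ball p ε)
        (hE.diff measurableSet_ball) (by
          rintro w ⟨hw, hwp⟩
          obtain ⟨q, hq, hwq⟩ := mem_iUnion₂.1 (hEt hw)
          rcases Finset.mem_insert.1 hq with h | h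
          · exact absurd (h ▸ hwq) hwp
          · exact mem_iUnion₂.2 ⟨q, h, hwq⟩)
      refine ⟨fun z => A₁ z + A₂ z, fun z hz => ?_⟩
      have hpP := ht p (Finset.mem_insert_self _ _)
      have hi1 : Integrable (fun w => m w * ((z - w)⁻¹ - (z - p₀)⁻¹))
          (volume.restrict (E ∩ ball p ε)) := by
        have hmi : Integrable m (volume.restrict (E ∩ ball p ε)) :=
          (hm.integrable_of_hasCompactSupport hms).restrict
        have hEm : MeasurableSet (E ∩ ball p ε) := hE.inter measurableSet_ball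
        refine Integrable.mono' (hmi.norm.mul_const (2 / ε)) ?_ ?_
        · refine ContinuousOn.aestronglyMeasurable ?_ hEm
          refine hm.continuousOn.mul (ContinuousOn.sub ?_ continuousOn_const)
          exact (continuous_const.sub continuous_id).continuousOn.inv₀
            fun w hw => (ratio_mem hε hpP hz (mem_ball.1 hw.2).le).2.1
        · filter_upwards [ae_restrict_mem hEm] with w hw
          rw [norm_mul]
          obtain ⟨h2, h3, h4, -, -⟩ := ratio_mem hε hpP hz (mem_ball.1 hw.2).le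
          have h5 : ε ≤ ‖z - p₀‖ :=
            (ratio_mem hε hp₀ hz (w := p₀) (by rw [dist_self]; exact hε.le)).2.2.1
          have h6 : ‖(z - w)⁻¹ - (z - p₀)⁻¹‖ ≤ 2 / ε := by
            refine (norm_sub_le _ _).trans ?_
            rw [norm_inv, norm_inv]
            have e1 : ‖z - w‖⁻¹ ≤ ε⁻¹ := inv_anti₀ hε h4
            have e2 : ‖z - p₀‖⁻¹ ≤ ε⁻¹ := inv_anti₀ hε h5
            rw [div_eq_mul_inv]
            linarith
          gcongr
      obtain ⟨hi2, hd2⟩ := hA₂ z hz
      have hEu : E = (E ∩ ball p ε) ∪ (E \ ball p ε) := (inter_union_sdiff E _).symm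
      have hdis : Disjoint (E ∩ ball p ε) (E \ ball p ε) :=
        disjoint_sdiff_right.mono_left inter_subset_right
      have hint : Integrable (fun w => m w * ((z - w)⁻¹ - (z - p₀)⁻¹)) (volume.restrict E) := by
        rw [hEu]
        exact IntegrableOn.union hi1 hi2
      refine ⟨hint, ?_⟩
      refine ((hA₁ z hz).fun_add hd2).congr_deriv ?_
      conv_rhs => rw [hEu]
      exact (setIntegral_union hdis (hE.diff measurableSet_ball) hi1 hi2).symm
  obtain ⟨t, htP, htc⟩ : ∃ t : Finset ℂ, (∀ p ∈ t, p ∈ P) ∧ tsupport m ⊆ ⋃ p ∈ t, ball p ε := by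
    obtain ⟨t, ht, hcov⟩ := IsCompact.elim_finite_subcover_image (b := P)
      (c := fun p => ball p ε) (show IsCompact (tsupport m) from hms)
      (fun p _ => isOpen_ball) (by
        intro w hw
        obtain ⟨p, hp, hpw⟩ := (infDist_lt_iff ⟨p₀, hp₀⟩).1 (hmW w hw)
        exact mem_iUnion₂.2 ⟨p, hp, hpw⟩)
    refine ⟨hcov.1.toFinset, fun p hp => ht (by simpa using hp), ?_⟩
    simpa using hcov.2
  obtain ⟨A, hA⟩ := hfin t htP (⋃ p ∈ t, ball p ε)
    (t.measurableSet_biUnion fun _ _ => measurableSet_ball) subset_rfl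
  refine ⟨A, fun z hz => ?_⟩
  have h1 := (hA z hz).2
  rwa [setIntegral_eq_integral_of_forall_compl_eq_zero] at h1
  intro w hw
  have : w ∉ tsupport m := fun h => hw (htc h)
  rw [image_eq_zero_of_notMem_tsupport this, zero_mul]

end Vale.Agent.P116.H906
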