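import Mathlib
import Vale.Agent.P116.H906.Prim2

/-!
Primitives and square roots in the complement of a connected compact set.
-/

open Filter Topology MeasureTheory Set Metric
open scoped ContDiff Real Manifold

namespace Vale.Agent.P116.H906

open Pomp

/-- smooth cutoff near a compact set -/
lemma exists_cut {P : Set ℂ} (hP : IsCompact P) {ε : ℝ} (hε : 0 < ε) (hne : P.Nonempty) :
    ∃ χ : ℂ → ℂ, ContDiff ℝ 1 χ ∧ (∀ z ∈ P, ∀ᶠ w in 𝓝 z, χ w = 0) ∧
      ∀ z, ε ≤ infDist z P → χ z = 1 := by
  obtain ⟨f, hf0, hf1, -⟩ := exists_contMDiffMap_zero_one_of_isClosed (n := 1) 𝓘(ℝ, ℂ)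
    (s := cthickening (ε / 4) P) (t := {z | ε / 2 ≤ infDist z P}) isClosed_cthickening
    (isClosed_le continuous_const (continuous_infDist_pt P)) (by
      rw [disjoint_left]
      intro z hz hz2
      have h1 : infDist z P ≤ ε / 4 := by
        rw [mem_cthickening_iff] at hz
        rw [infDist]
        exact ENNReal.toReal_le_of_le_ofReal (by positivity) hz
      have h2 : ε / 2 ≤ infDist z P := hz2
      linarith)
  refine ⟨fun z => ((f z : ℝ) : ℂ), ?_, ?_, ?_⟩
  · have h1 : ContDiff ℝ 1 (fun z => f z) := f.contMDiff.contDiff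
    exact Complex.ofRealCLM.contDiff.comp h1
  · intro z hz
    have : thickening (ε / 4) P ∈ 𝓝 z :=
      isOpen_thickening.mem_nhds (self_subset_thickening (by positivity) P hz)
    filter_upwards [this] with w hw
    have := hf0 (thickening_subset_cthickening _ _ hw)
    simp only [Pi.zero_apply] at this
    change ((f w : ℝ) : ℂ) = 0
    rw [this, Complex.ofReal_zero]
  · intro z hz
    have := hf1 (show ε / 2 ≤ infDist z P by linarith)
    simp only [Pi.one_apply] at this
    change ((f z : ℝ) : ℂ) = 1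
    rw [this, Complex.ofReal_one]

/-- primitive outside a neighbourhood -/
lemma prim_eps {P : Set ℂ} (hP : IsCompact P) (hc : IsConnected P) {h : ℂ → ℂ}
    (hd : DifferentiableOn ℂ h Pᶜ) {C₀ R₀ : ℝ} (hR₀ : 0 < R₀)
    (hinf : ∀ z, R₀ < ‖z‖ → ‖h z‖ ≤ C₀ / ‖z‖ ^ 2) {ε : ℝ} (hε : 0 < ε) :
    ∃ A : ℂ → ℂ, ∀ z, 2 * ε < infDist z P → HasDerivAt A (h z) z := by
  obtain ⟨p₀, hp₀⟩ := hc.nonempty
  obtain ⟨χ, hχ, hχP, hχ1⟩ := exists_cut hP (show 0 < ε / 2 by positivity) hc.nonempty
  -- large radius
  obtain ⟨R₁, hR₁⟩ := hP.isBounded.subset_closedBall 0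
  set R₂ : ℝ := max R₀ (R₁ + ε) with hR₂
  have hR₂0 : 0 < R₂ := lt_max_of_lt_left hR₀
  have hχ1' : ∀ z, R₂ < ‖z‖ → χ z = 1 := by
    intro z hz
    refine hχ1 z ?_
    rw [le_infDist hc.nonempty]
    intro p hp
    have h1 := hR₁ hp
    rw [mem_closedBall, dist_zero_right] at h1
    rw [dist_eq_norm]
    have := norm_sub_norm_le z p
    have := le_max_right R₀ (R₁ + ε)
    linarith
  have hinf' : ∀ z, R₂ < ‖z‖ → ‖h z‖ ≤ C₀ / ‖z‖ ^ 2 :=
    fun z hz => hinf z ((le_max_left _ _).trans_lt hz)
  set m : ℂ → ℂ := fun w => db χ w * h w with hm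
  -- `m` is continuous
  have hmc : Continuous m := by
    rw [continuous_iff_continuousAt]
    intro w
    by_cases hw : w ∈ P
    · have h1 : m =ᶠ[𝓝 w] fun _ => 0 := by
        filter_upwards [eventually_eventually_nhds.2 (hχP w hw)] with x hx
        have h2 : χ =ᶠ[𝓝 x] fun _ => 0 := hx
        simp only [hm]
        rw [db_of_eventuallyEq h2]
        simp [db]
      exact continuousAt_const.congr h1.symm
    · exact (continuous_db hχ).continuousAt.mul
        (hd.differentiableAt (hP.isClosed.isOpen_compl.mem_nhds hw)).continuousAt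
  have hm0 : ∀ w, ε / 2 < infDist w P → m w = 0 := by
    intro w hw
    have h2 : χ =ᶠ[𝓝 w] fun _ => 1 := by
      filter_upwards [(isOpen_lt continuous_const (continuous_infDist_pt P)).mem_nhds hw] with x hx
      exact hχ1 x (le_of_lt hx)
    simp only [hm]
    rw [db_of_eventuallyEq h2]
    simp [db]
  have hts : ∀ w ∈ tsupport m, infDist w P ≤ ε / 2 := by
    intro w hw
    have h1 : Function.support m ⊆ {w | infDist w P ≤ ε / 2} := by
      intro x hx
      by_contra h
      exact hx (hm0 x (not_le.1 h))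
    exact closure_minimal h1 (isClosed_le (continuous_infDist_pt P) continuous_const) hw
  have hms : HasCompactSupport m := by
    refine HasCompactSupport.intro (isCompact_closedBall (0:ℂ) R₂) fun w hw => ?_
    rw [mem_closedBall, dist_zero_right, not_le] at hw
    have h2 : χ =ᶠ[𝓝 w] fun _ => 1 := by
      filter_upwards [(isOpen_lt continuous_const continuous_norm).mem_nhds hw] with x hx
      exact hχ1' x hx
    simp only [hm]
    rw [db_of_eventuallyEq h2]
    simp [db]
  have hmi : Integrable m := hmc.integrable_of_hasCompactSupport hms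
  have hrep : ∀ z, ε / 2 < infDist z P → h z = (2 * π : ℂ)⁻¹ * ∫ w : ℂ, (z - w)⁻¹ * m w := by
    intro z hz
    refine cauchy_rep hP hd hR₂0 hinf' hχ hχP hχ1' ?_
    filter_upwards [(isOpen_lt continuous_const (continuous_infDist_pt P)).mem_nhds hz] with x hx
    exact hχ1 x (le_of_lt hx)
  have hpi : (2 * π : ℂ) ≠ 0 := by simp [Real.pi_ne_zero]
  have hmsupp : ∀ w, R₂ < ‖w‖ → m w = 0 := by
    intro w hw
    have h2 : χ =ᶠ[𝓝 w] fun _ => 1 := by
      filter_upwards [(isOpen_lt continuous_const continuous_norm).mem_nhds hw] with x hx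
      exact hχ1' x hx
    simp only [hm]
    rw [db_of_eventuallyEq h2]
    simp [db]
  -- total mass
  have hmass : ∫ w : ℂ, m w = 0 := by
    have hest : ∀ t : ℝ, 2 * R₂ + 1 < t → ‖(2 * π : ℂ)⁻¹ * ∫ w : ℂ, m w‖ ≤
        C₀ / t + (∫ w : ℂ, ‖m w‖) * (2 * R₂ / t) := by
      intro t ht
      have ht0 : 0 < t := by linarith
      set z : ℂ := (t : ℂ) with hz
      have hzn : ‖z‖ = t := by rw [hz, Complex.norm_real, Real.norm_of_nonneg ht0.le]
      have hz0 : z ≠ 0 := by
        rw [← norm_pos_iff, hzn]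
        exact ht0
      have hzP : ε / 2 < infDist z P := by
        have h3 : ε ≤ infDist z P := by
          rw [le_infDist hc.nonempty]
          intro p hp
          have h1 := hR₁ hp
          rw [mem_closedBall, dist_zero_right] at h1
          rw [dist_eq_norm]
          have := norm_sub_norm_le z p
          have := le_max_right R₀ (R₁ + ε)
          rw [hzn] at *
          linarith
        linarith
      have h1 := hrep z hzP
      have hi : Integrable (fun w => (z - w)⁻¹ * m w) := by
        refine Continuous.integrable_of_hasCompactSupport ?_ hms.mul_left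
        rw [continuous_iff_continuousAt]
        intro w
        by_cases hwz : w = z
        · have : (fun w => (z - w)⁻¹ * m w) =ᶠ[𝓝 w] fun _ => 0 := by
            rw [hwz]
            filter_upwards [(isOpen_lt continuous_const continuous_norm).mem_nhds
              (show R₂ < ‖z‖ by rw [hzn]; linarith)] with x hx
            rw [hmsupp x hx, mul_zero]
          exact continuousAt_const.congr this.symm
        · exact ((continuousAt_const.sub continuousAt_id).inv₀
            (sub_ne_zero.2 (Ne.symm hwz))).mul hmc.continuousAt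
      have h2 : ∫ w : ℂ, m w = z * (∫ w : ℂ, (z - w)⁻¹ * m w) -
          ∫ w : ℂ, (z * ((z - w)⁻¹ * m w) - m w) := by
        rw [integral_sub (hi.const_mul z) hmi, integral_const_mul]
        ring
      have h3 : (2 * π : ℂ)⁻¹ * ∫ w : ℂ, m w = z * h z -
          (2 * π : ℂ)⁻¹ * ∫ w : ℂ, (z * ((z - w)⁻¹ * m w) - m w) := by
        rw [h2, h1]
        ring
      rw [h3]
      refine (norm_sub_le _ _).trans (add_le_add ?_ ?_)
      · rw [norm_mul, hzn]
        have := hinf' z (by rw [hzn]; linarith)
        rw [hzn] at this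
        calc t * ‖h z‖ ≤ t * (C₀ / t ^ 2) := by gcongr
          _ = C₀ / t := by field_simp
      · rw [norm_mul]
        have hpin : ‖(2 * π : ℂ)⁻¹‖ ≤ 1 := by
          rw [norm_inv, norm_mul, Complex.norm_real, Real.norm_of_nonneg Real.pi_pos.le]
          simp only [Complex.norm_ofNat]
          exact inv_le_one_of_one_le₀ (by linarith [Real.pi_gt_three])
        have hbd : ‖∫ w : ℂ, (z * ((z - w)⁻¹ * m w) - m w)‖ ≤ (∫ w : ℂ, ‖m w‖) * (2 * R₂ / t) := by
          rw [← integral_mul_const]
          refine norm_integral_le_of_norm_le (hmi.norm.mul_const _) (Eventually.of_forall fun w => ?_)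
          by_cases hw : R₂ < ‖w‖
          · rw [hmsupp w hw]
            simp
          · rw [not_lt] at hw
            have hzw : t / 2 ≤ ‖z - w‖ := by
              have := norm_sub_norm_le z w
              rw [hzn] at this
              linarith
            have hzw0 : z - w ≠ 0 := norm_pos_iff.1 (by linarith)
            have e : z * ((z - w)⁻¹ * m w) - m w = m w * (w / (z - w)) := by
              field_simp
              ring
            rw [e, norm_mul, norm_div]
            have : ‖w‖ / ‖z - w‖ ≤ 2 * R₂ / t := by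
              rw [div_le_div_iff₀ (by linarith) ht0]
              nlinarith [norm_nonneg w]
            gcongr
        calc ‖(2 * π : ℂ)⁻¹‖ * ‖∫ w : ℂ, (z * ((z - w)⁻¹ * m w) - m w)‖
            ≤ 1 * ‖∫ w : ℂ, (z * ((z - w)⁻¹ * m w) - m w)‖ := by gcongr
          _ ≤ _ := by rw [one_mul]; exact hbd
    have hlim : Tendsto (fun t : ℝ => C₀ / t + (∫ w : ℂ, ‖m w‖) * (2 * R₂ / t)) atTop (𝓝 0) := by
      have h1 : Tendsto (fun t : ℝ => C₀ / t) atTop (𝓝 0) := tendsto_const_nhds.div_atTop tendsto_id
      have h2 : Tendsto (fun t : ℝ => 2 * R₂ / t) atTop (𝓝 0) :=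
        tendsto_const_nhds.div_atTop tendsto_id
      have h3 := h1.add (h2.const_mul (∫ w : ℂ, ‖m w‖))
      rw [mul_zero, add_zero] at h3
      exact h3
    have h6 : ‖(2 * π : ℂ)⁻¹ * ∫ w : ℂ, m w‖ ≤ 0 := by
      refine ge_of_tendsto hlim ?_
      filter_upwards [eventually_gt_atTop (2 * R₂ + 1)] with t ht using hest t ht
    have h7 := norm_le_zero_iff.1 h6
    rcases mul_eq_zero.1 h7 with h8 | h8
    · exact absurd h8 (inv_ne_zero hpi)
    · exact h8
  obtain ⟨A, hA⟩ := prim_measure hc.isPreconnected hε hp₀ hmc hms (fun w hw =>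
    (hts w hw).trans_lt (by linarith))
  refine ⟨fun z => (2 * π : ℂ)⁻¹ * A z, fun z hz => ?_⟩
  refine ((hA z hz).const_mul _).congr_deriv ?_
  have hi : Integrable (fun w => (z - w)⁻¹ * m w) := by
    refine Continuous.integrable_of_hasCompactSupport ?_ hms.mul_left
    rw [continuous_iff_continuousAt]
    intro w
    by_cases hwz : w = z
    · have : (fun w => (z - w)⁻¹ * m w) =ᶠ[𝓝 w] fun _ => 0 := by
        rw [hwz]
        filter_upwards [(isOpen_lt continuous_const (continuous_infDist_pt P)).mem_nhds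
          (show ε / 2 < infDist z P by linarith)] with x hx
        rw [hm0 x hx, mul_zero]
      exact continuousAt_const.congr this.symm
    · exact ((continuousAt_const.sub continuousAt_id).inv₀
        (sub_ne_zero.2 (Ne.symm hwz))).mul hmc.continuousAt
  have e : ∀ w, m w * ((z - w)⁻¹ - (z - p₀)⁻¹) = (z - w)⁻¹ * m w - m w * (z - p₀)⁻¹ := by
    intro w
    ring
  simp only [e]
  rw [integral_sub hi (hmi.mul_const _), integral_mul_const, hmass, zero_mul, sub_zero]
  exact (hrep z (by linarith)).symm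

/-- **Primitives** in the complement of a connected compact full set -/
theorem exists_primitive {P : Set ℂ} (hP : IsCompact P) (hc : IsConnected P) (hf : Full P)
    {h : ℂ → ℂ} (hd : DifferentiableOn ℂ h Pᶜ) {C₀ R₀ : ℝ} (hR₀ : 0 < R₀)
    (hinf : ∀ z, R₀ < ‖z‖ → ‖h z‖ ≤ C₀ / ‖z‖ ^ 2) :
    ∃ A : ℂ → ℂ, ∀ z ∈ Pᶜ, HasDerivAt A (h z) z := by
  have hUo : IsOpen Pᶜ := hP.isClosed.isOpen_compl
  have hUc : IsPreconnected Pᶜ := hf.isPreconnected_compl hP.isBounded
  have hpc : Pᶜ.Nonempty := by
    obtain ⟨R, hR⟩ := hP.isBounded.subset_closedBall 0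
    refine ⟨((max R 0 + 1 : ℝ) : ℂ), fun hmem => ?_⟩
    have h1 := hR hmem
    rw [mem_closedBall, dist_zero_right, Complex.norm_real, Real.norm_of_nonneg (by positivity)] at h1
    linarith [le_max_left R 0]
  obtain ⟨z₁, hz₁⟩ := hpc
  have hpath : IsPathConnected Pᶜ := hUo.isConnected_iff_isPathConnected.1 ⟨⟨z₁, hz₁⟩, hUc⟩
  have hpos : 0 < infDist z₁ P := (hP.isClosed.notMem_iff_infDist_pos hc.nonempty).1 hz₁
  set e : ℕ → ℝ := fun n => infDist z₁ P / (4 * (n + 1)) with he
  have he0 : ∀ n, 0 < e n := fun n => by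
    simp only [he]
    positivity
  have he1 : ∀ n, 2 * e n < infDist z₁ P := by
    intro n
    simp only [he]
    have h1 : (0:ℝ) < 4 * (n + 1) := by positivity
    rw [← mul_div_assoc, div_lt_iff₀ h1]
    nlinarith [(Nat.cast_nonneg n : (0:ℝ) ≤ n)]
  have hanti : ∀ m n, m ≤ n → e n ≤ e m := by
    intro m n hmn
    simp only [he]
    have : (m : ℝ) ≤ n := by exact_mod_cast hmn
    gcongr
  set D : ℕ → Set ℂ := fun n => {z | 2 * e n < infDist z P} with hD
  have hDo : ∀ n, IsOpen (D n) := fun n => isOpen_lt continuous_const (continuous_infDist_pt P)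
  set Co : ℕ → Set ℂ := fun n => connectedComponentIn (D n) z₁ with hCo
  have hCoo : ∀ n, IsOpen (Co n) := fun n => (hDo n).connectedComponentIn
  have hz₁C : ∀ n, z₁ ∈ Co n := fun n => mem_connectedComponentIn (he1 n)
  have hmono : ∀ m n, m ≤ n → Co m ⊆ Co n := by
    intro m n hmn
    refine connectedComponentIn_mono _ fun z hz => ?_
    have : 2 * e m < infDist z P := hz
    have := hanti m n hmn
    change 2 * e n < infDist z P
    linarith
  have hex : ∀ z ∈ Pᶜ, ∃ n, z ∈ Co n := by
    intro z hz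
    obtain ⟨γ, hγ⟩ := hpath.joinedIn z₁ hz₁ z hz
    have hcomp : IsCompact (range γ) := isCompact_range γ.continuous
    obtain ⟨y, hy, hmin⟩ := hcomp.exists_isMinOn (range_nonempty γ)
      (continuous_infDist_pt P).continuousOn
    have hyP : y ∈ Pᶜ := by
      obtain ⟨t, rfl⟩ := hy
      exact hγ t
    have hy0 : 0 < infDist y P := (hP.isClosed.notMem_iff_infDist_pos hc.nonempty).1 hyP
    obtain ⟨n, hn⟩ := exists_nat_gt (infDist z₁ P / infDist y P)
    refine ⟨n, ?_⟩
    have hsub : range γ ⊆ D n := by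
      intro w hw
      have h1 : infDist y P ≤ infDist w P := hmin hw
      change 2 * e n < infDist w P
      refine lt_of_lt_of_le ?_ h1
      simp only [he]
      have h2 : (0:ℝ) < 4 * (n + 1) := by positivity
      rw [← mul_div_assoc, div_lt_iff₀ h2]
      rw [div_lt_iff₀ hy0] at hn
      nlinarith [(Nat.cast_nonneg n : (0:ℝ) ≤ n)]
    exact (isPreconnected_range γ.continuous).subset_connectedComponentIn ⟨0, γ.source⟩ hsub
      ⟨1, γ.target⟩
  have hprim : ∀ n, ∃ A : ℂ → ℂ, A z₁ = 0 ∧ ∀ z ∈ D n, HasDerivAt A (h z) z := by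
    intro n
    obtain ⟨A, hA⟩ := prim_eps hP hc hd hR₀ hinf (he0 n)
    refine ⟨fun z => A z - A z₁, sub_self _, fun z hz => (hA z hz).sub_const _⟩
  choose A hA0 hA using hprim
  have hCD : ∀ n, Co n ⊆ D n := fun n => connectedComponentIn_subset _ _
  have hagree : ∀ m n, m ≤ n → EqOn (A m) (A n) (Co m) := by
    intro m n hmn
    have h1 : ∀ z ∈ Co m, HasDerivAt (fun z => A m z - A n z) 0 z := by
      intro z hz
      have h2 := (hA m z (hCD m hz)).fun_sub (hA n z (hCD n (hmono m n hmn hz)))
      exact h2.congr_deriv (sub_self _)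
    have h3 : EqOn (fun z => A m z - A n z) (fun _ => 0) (Co m) := by
      have hpre : IsPreconnected (Co m) := isPreconnected_connectedComponentIn
      intro z hz
      have h4 := (hCoo m).is_const_of_deriv_eq_zero (f := fun z => A m z - A n z) hpre
        (fun w hw => (h1 w hw).differentiableAt.differentiableWithinAt)
        (fun w hw => (h1 w hw).deriv) hz (hz₁C m)
      simp only at h4 ⊢
      rw [h4, hA0, hA0, sub_zero]
    intro z hz
    exact sub_eq_zero.1 (h3 hz)
  classical
  choose! N hN using hex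
  refine ⟨fun z => A (N z) z, fun z hz => ?_⟩
  have hzN := hN z hz
  have hev : (fun w => A (N w) w) =ᶠ[𝓝 z] A (N z) := by
    filter_upwards [(hCoo (N z)).mem_nhds hzN, hUo.mem_nhds hz] with w hw hwP
    have hwN := hN w hwP
    rcases le_total (N w) (N z) with h1 | h1
    · exact hagree _ _ h1 hwN
    · exact (hagree _ _ h1 hw).symm
  exact (hA (N z) z (hCD _ hzN)).congr_of_eventuallyEq hev

end Vale.Agent.P116.H906
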