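import Mathlib
import Vale.Agent.P116.H906.Prim3
import Vale.Agent.P116.H906.CMap

/-!
The exterior Riemann map of a full continuum.
-/

open Filter Topology Set Metric Bornology
open scoped Real ComplexConjugate

namespace Vale.Agent.P116.H906

/-- chart at infinity -/
lemma chart_inf {U : Set ℂ} {R : ℝ} {a : ℂ} (hR : 0 < R) (hU : (closedBall (0:ℂ) R)ᶜ ⊆ U)
    {H : ℂ → ℂ} (hd : DifferentiableOn ℂ H U) (hlim : Tendsto H (cobounded ℂ) (𝓝 a)) :
    ∃ G : ℂ → ℂ, DifferentiableOn ℂ G (ball 0 R⁻¹) ∧ G 0 = a ∧ ∀ ζ, ζ ≠ 0 → G ζ = H ζ⁻¹ := by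
  classical
  refine ⟨fun ζ => if ζ = 0 then a else H ζ⁻¹, ?_, by simp, fun ζ hζ => by simp [hζ]⟩
  have hmem : ball (0:ℂ) R⁻¹ ∈ 𝓝 (0:ℂ) := ball_mem_nhds _ (inv_pos.2 hR)
  rw [← Complex.differentiableOn_compl_singleton_and_continuousAt_iff hmem]
  constructor
  · intro ζ hζ
    have h0 : ζ ≠ 0 := hζ.2
    have hm : ζ⁻¹ ∈ (closedBall (0:ℂ) R)ᶜ := by
      have h1 := hζ.1
      rw [mem_ball_zero_iff, lt_inv_comm₀ (norm_pos_iff.2 h0) hR] at h1
      rw [mem_compl_iff, mem_closedBall, dist_zero_right, norm_inv, not_le]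
      exact h1
    have hev : (fun ζ => if ζ = 0 then a else H ζ⁻¹) =ᶠ[𝓝 ζ] fun ζ => H ζ⁻¹ := by
      filter_upwards [isOpen_ne.mem_nhds h0] with x hx
      rw [if_neg hx]
    refine DifferentiableAt.differentiableWithinAt ?_
    rw [hev.differentiableAt_iff]
    have h2 : DifferentiableAt ℂ H ζ⁻¹ :=
      (hd.mono hU).differentiableAt (isClosed_closedBall.isOpen_compl.mem_nhds hm)
    exact h2.comp ζ (differentiableAt_inv h0)
  · rw [continuousAt_iff_punctured_nhds]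
    simp only [if_true]
    refine (hlim.comp tendsto_inv₀_nhdsNE_zero).congr' ?_
    filter_upwards [self_mem_nhdsWithin] with ζ hζ
    rw [if_neg (show ¬ ζ = 0 from hζ)]
    rfl

lemma deriv_decay {U : Set ℂ} {R : ℝ} {a : ℂ} (hR : 0 < R) (hU : (closedBall (0:ℂ) R)ᶜ ⊆ U)
    {H : ℂ → ℂ} (hd : DifferentiableOn ℂ H U) (hlim : Tendsto H (cobounded ℂ) (𝓝 a)) :
    ∃ C R₀ : ℝ, 0 < R₀ ∧ ∀ z, R₀ < ‖z‖ → ‖deriv H z‖ ≤ C / ‖z‖ ^ 2 := by
  obtain ⟨G, hG, hG0, hGH⟩ := chart_inf hR hU hd hlim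
  have hdc : ContinuousAt (deriv G) 0 :=
    ((hG.analyticOnNhd isOpen_ball).deriv.continuousOn).continuousAt
      (ball_mem_nhds _ (inv_pos.2 hR))
  have h1 : ∀ᶠ ζ in 𝓝 (0:ℂ), ‖deriv G ζ‖ < ‖deriv G 0‖ + 1 :=
    hdc.norm.eventually (gt_mem_nhds (by linarith))
  obtain ⟨δ, hδ, hδ1⟩ := Metric.eventually_nhds_iff.1 h1
  refine ⟨‖deriv G 0‖ + 1, max R δ⁻¹, lt_max_of_lt_left hR, fun z hz => ?_⟩
  have hzR := (le_max_left R δ⁻¹).trans_lt hz
  have hzδ := (le_max_right R δ⁻¹).trans_lt hz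
  have hz0 : z ≠ 0 := by
    rw [← norm_pos_iff]
    linarith
  have hzi : z⁻¹ ∈ ball (0:ℂ) R⁻¹ := by
    rw [mem_ball_zero_iff, norm_inv]
    exact inv_strictAnti₀ hR hzR
  have hev : H =ᶠ[𝓝 z] fun z => G z⁻¹ := by
    filter_upwards [isOpen_ne.mem_nhds hz0] with x hx
    rw [hGH _ (inv_ne_zero hx), inv_inv]
  have h2 : HasDerivAt (fun z => G z⁻¹) (deriv G z⁻¹ * (-(z ^ 2)⁻¹)) z :=
    ((hG.differentiableAt (isOpen_ball.mem_nhds hzi)).hasDerivAt).comp z (hasDerivAt_inv hz0)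
  rw [hev.deriv_eq, h2.deriv, norm_mul, norm_neg, norm_inv, norm_pow, ← div_eq_mul_inv]
  have h3 : ‖deriv G z⁻¹‖ < ‖deriv G 0‖ + 1 := by
    apply hδ1
    rw [dist_zero_right, norm_inv]
    exact inv_lt_of_inv_lt₀ hδ hzδ
  gcongr

lemma compl_nonempty {P : Set ℂ} (hP : IsCompact P) : ∃ R : ℝ, 0 < R ∧
    (closedBall (0:ℂ) R)ᶜ ⊆ Pᶜ := by
  obtain ⟨R, hR⟩ := hP.isBounded.subset_closedBall 0
  exact ⟨max R 1, by positivity, compl_subset_compl.2
    (hR.trans (closedBall_subset_closedBall (le_max_left _ _)))⟩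

/-- **Square roots** in the complement of a full continuum -/
theorem exists_sqrt {P : Set ℂ} (hP : IsCompact P) (hc : IsConnected P) (hf : Full P)
    {H : ℂ → ℂ} (hd : DifferentiableOn ℂ H Pᶜ) (h0 : ∀ z ∈ Pᶜ, H z ≠ 0)
    (hlim : Tendsto H (cobounded ℂ) (𝓝 1)) :
    ∃ q : ℂ → ℂ, DifferentiableOn ℂ q Pᶜ ∧ (∀ z ∈ Pᶜ, q z ^ 2 = H z) ∧
      Tendsto q (cobounded ℂ) (𝓝 1) := by
  obtain ⟨R, hR, hU⟩ := compl_nonempty hP
  have hUo : IsOpen Pᶜ := hP.isClosed.isOpen_compl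
  have hUc : IsPreconnected Pᶜ := hf.isPreconnected_compl hP.isBounded
  obtain ⟨C, R₀, hR₀, hC⟩ := deriv_decay hR hU hd hlim
  have h1 : ∀ᶠ z in cobounded ℂ, 1 / 2 < ‖H z‖ := by
    have h2 := hlim.norm
    rw [norm_one] at h2
    exact h2.eventually (lt_mem_nhds (by norm_num))
  rw [← comap_norm_atTop, eventually_comap] at h1
  obtain ⟨R₁, hR₁⟩ := eventually_atTop.1 h1
  set h : ℂ → ℂ := fun z => deriv H z / H z with hh
  have hhd : DifferentiableOn ℂ h Pᶜ := ((hd.deriv hUo)).div hd h0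
  have hinf : ∀ z, max R₀ R₁ < ‖z‖ → ‖h z‖ ≤ (2 * C) / ‖z‖ ^ 2 := by
    intro z hz
    have hz0 := (le_max_left R₀ R₁).trans_lt hz
    have hz1 := (le_max_right R₀ R₁).trans_lt hz
    have h3 := hC z hz0
    have h4 := hR₁ ‖z‖ hz1.le z rfl
    have h5 : 0 < ‖z‖ ^ 2 := by
      have : 0 < ‖z‖ := hR₀.trans hz0
      positivity
    rw [hh]
    simp only
    rw [norm_div, div_le_iff₀ (by linarith)]
    have h6 : 0 ≤ C / ‖z‖ ^ 2 := (norm_nonneg _).trans h3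
    calc ‖deriv H z‖ ≤ C / ‖z‖ ^ 2 := h3
      _ ≤ (C / ‖z‖ ^ 2) * (2 * ‖H z‖) := by
        have : 1 ≤ 2 * ‖H z‖ := by linarith
        exact le_mul_of_one_le_right h6 this
      _ = 2 * C / ‖z‖ ^ 2 * ‖H z‖ := by ring
  obtain ⟨A, hA⟩ := exists_primitive hP hc hf hhd (lt_max_of_lt_left hR₀) hinf
  -- `H exp (-A)` is constant
  have hder : ∀ z ∈ Pᶜ, HasDerivAt (fun z => H z * Complex.exp (-A z)) 0 z := by
    intro z hz
    have h3 := (hd.differentiableAt (hUo.mem_nhds hz)).hasDerivAt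
    have h4 := (hA z hz).fun_neg.cexp
    refine (h3.fun_mul h4).congr_deriv ?_
    have := h0 z hz
    rw [hh]
    field_simp
    ring
  obtain ⟨z₁, hz₁⟩ : (Pᶜ).Nonempty := by
    refine ⟨((R + 1 : ℝ) : ℂ), hU ?_⟩
    rw [mem_compl_iff, mem_closedBall, dist_zero_right, Complex.norm_real,
      Real.norm_of_nonneg (by linarith)]
    linarith
  set κ := H z₁ * Complex.exp (-A z₁) with hκ
  have hconst : ∀ z ∈ Pᶜ, H z = κ * Complex.exp (A z) := by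
    intro z hz
    have h3 := hUo.is_const_of_deriv_eq_zero (f := fun z => H z * Complex.exp (-A z)) hUc
      (fun w hw => (hder w hw).differentiableAt.differentiableWithinAt)
      (fun w hw => (hder w hw).deriv) hz hz₁
    rw [hκ, ← h3, mul_assoc, ← Complex.exp_add, neg_add_cancel, Complex.exp_zero, mul_one]
  obtain ⟨κ', hκ'⟩ : ∃ κ', κ = κ' ^ 2 := by
    obtain ⟨x, hx⟩ := IsAlgClosed.exists_pow_nat_eq κ (show 0 < 2 by norm_num)
    exact ⟨x, hx.symm⟩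
  set q₀ : ℂ → ℂ := fun z => κ' * Complex.exp (A z / 2) with hq₀
  have hAd : DifferentiableOn ℂ A Pᶜ := fun z hz => (hA z hz).differentiableAt.differentiableWithinAt
  have hq₀d : DifferentiableOn ℂ q₀ Pᶜ := (hAd.div_const 2).cexp.const_mul κ'
  have hq₀2 : ∀ z ∈ Pᶜ, q₀ z ^ 2 = H z := by
    intro z hz
    rw [hconst z hz, hq₀, hκ']
    simp only
    rw [mul_pow, ← Complex.exp_nat_mul]
    congr 2
    push_cast
    ring
  -- the limit
  obtain ⟨a, ha⟩ : ∃ a, Tendsto q₀ (cobounded ℂ) (𝓝 a) := by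
    have h3 : ∀ᶠ ζ : ℂ in 𝓝[≠] 0, DifferentiableAt ℂ (fun ζ => q₀ ζ⁻¹) ζ := by
      filter_upwards [self_mem_nhdsWithin, tendsto_inv₀_nhdsNE_zero.eventually
        (tendsto_norm_cobounded_atTop.eventually_gt_atTop R)] with ζ hζ hζ2
      have hm : ζ⁻¹ ∈ Pᶜ := hU (by
        rw [mem_compl_iff, mem_closedBall, dist_zero_right, not_le]
        exact hζ2)
      exact (hq₀d.differentiableAt (hUo.mem_nhds hm)).comp ζ (differentiableAt_inv hζ)
    have h4 : IsBoundedUnder (· ≤ ·) (𝓝[≠] (0:ℂ)) fun ζ : ℂ => ‖q₀ ζ⁻¹ - q₀ (0:ℂ)⁻¹‖ := by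
      have h5 : ∀ᶠ ζ : ℂ in 𝓝[≠] 0, ‖H ζ⁻¹‖ < 2 := by
        have h2 := hlim.norm
        rw [norm_one] at h2
        exact tendsto_inv₀_nhdsNE_zero.eventually (h2.eventually (gt_mem_nhds (by norm_num)))
      refine ⟨2 + ‖q₀ (0:ℂ)⁻¹‖, ?_⟩
      rw [eventually_map]
      filter_upwards [h5, self_mem_nhdsWithin, tendsto_inv₀_nhdsNE_zero.eventually
        (tendsto_norm_cobounded_atTop.eventually_gt_atTop R)] with ζ hζ _ hζ2
      have hm : ζ⁻¹ ∈ Pᶜ := hU (by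
        rw [mem_compl_iff, mem_closedBall, dist_zero_right, not_le]
        exact hζ2)
      have h6 : ‖q₀ ζ⁻¹‖ ^ 2 < 2 := by rw [← norm_pow, hq₀2 _ hm]; exact hζ
      have h7 : ‖q₀ ζ⁻¹‖ ≤ 2 := by nlinarith [norm_nonneg (q₀ ζ⁻¹)]
      refine (norm_sub_le _ _).trans ?_
      linarith
    have h5 := Complex.tendsto_limUnder_of_differentiable_on_punctured_nhds_of_bounded_under h3 h4
    refine ⟨_, (h5.comp tendsto_inv₀_cobounded').congr fun z => ?_⟩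
    simp only [Function.comp, inv_inv]
  have ha2 : a ^ 2 = 1 := by
    have h3 : Tendsto (fun z => q₀ z ^ 2) (cobounded ℂ) (𝓝 (a ^ 2)) := ha.pow 2
    refine tendsto_nhds_unique (h3.congr' ?_) hlim
    filter_upwards [tendsto_norm_cobounded_atTop.eventually_gt_atTop R] with z hz
    exact hq₀2 z (hU (by
        rw [mem_compl_iff, mem_closedBall, dist_zero_right, not_le]
        exact hz))
  refine ⟨fun z => a * q₀ z, hq₀d.const_mul a, fun z hz => ?_, ?_⟩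
  · rw [mul_pow, ha2, one_mul, hq₀2 z hz]
  · have h3 := ha.const_mul a
    rwa [← sq, ha2] at h3

end Vale.Agent.P116.H906
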