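import Mathlib
import Vale.Agent.P116.H906.Ext

/-!
The exterior Riemann map of a full continuum, continued.
-/

open Filter Topology Set Metric Bornology
open scoped Real ComplexConjugate

namespace Vale.Agent.P116.H906

/-! ### Moebius maps of the disc -/

/-- the Moebius map `(z - w) / (1 - conj w * z)` -/
noncomputable def mob (w z : ℂ) : ℂ := (z - w) / (1 - conj w * z)

theorem mob_den {w z : ℂ} (hw : ‖w‖ < 1) (hz : ‖z‖ < 1) : 1 - conj w * z ≠ 0 := by
  intro h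
  have h1 : conj w * z = 1 := by linear_combination -h
  have h2 : ‖conj w * z‖ = 1 := by rw [h1]; simp
  rw [norm_mul, RCLike.norm_conj] at h2
  have := mul_lt_one_of_nonneg_of_lt_one_left (norm_nonneg w) hw hz.le
  linarith only [h2, this]

theorem mob_norm {w z : ℂ} (hw : ‖w‖ < 1) (hz : ‖z‖ < 1) : ‖mob w z‖ < 1 := by
  unfold mob
  have h0 := mob_den hw hz
  rw [norm_div, div_lt_one (norm_pos_iff.2 h0)]
  have h1 : ‖z - w‖ ^ 2 < ‖1 - conj w * z‖ ^ 2 := by
    have e1 : ‖1 - conj w * z‖ ^ 2 - ‖z - w‖ ^ 2 = (1 - ‖w‖ ^ 2) * (1 - ‖z‖ ^ 2) := by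
      rw [← Complex.normSq_eq_norm_sq, ← Complex.normSq_eq_norm_sq, ← Complex.normSq_eq_norm_sq,
        ← Complex.normSq_eq_norm_sq]
      simp only [Complex.normSq_apply, Complex.sub_re, Complex.sub_im, Complex.mul_re,
        Complex.mul_im, Complex.one_re, Complex.one_im, Complex.conj_re, Complex.conj_im]
      ring
    have h2 : 0 < (1 - ‖w‖ ^ 2) * (1 - ‖z‖ ^ 2) := by
      apply mul_pos
      · nlinarith only [hw, norm_nonneg w]
      · nlinarith only [hz, norm_nonneg z]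
    linarith only [e1, h2]
  exact lt_of_pow_lt_pow_left₀ 2 (norm_nonneg _) h1

theorem mob_inj {w z z' : ℂ} (hw : ‖w‖ < 1) (hz : ‖z‖ < 1) (hz' : ‖z'‖ < 1)
    (h : mob w z = mob w z') : z = z' := by
  unfold mob at h
  rw [div_eq_div_iff (mob_den hw hz) (mob_den hw hz')] at h
  have h1 : (z - z') * (1 - conj w * w) = 0 := by linear_combination h
  have h2 : (1 - conj w * w) ≠ 0 := mob_den hw hw
  have h3 := (mul_eq_zero.1 h1).resolve_right h2
  exact sub_eq_zero.1 h3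

/-- normalisation at infinity -/
lemma exists_sub_lim {U : Set ℂ} {R : ℝ} (hR : 0 < R) (hU : (closedBall (0:ℂ) R)ᶜ ⊆ U)
    {F : ℂ → ℂ} (hd : DifferentiableOn ℂ F U)
    (hlim : Tendsto (fun z => F z / z) (cobounded ℂ) (𝓝 1)) :
    ∃ κ : ℂ, Tendsto (fun z => F z - z) (cobounded ℂ) (𝓝 κ) := by
  have hd' : DifferentiableOn ℂ (fun z => F z / z) (closedBall (0:ℂ) R)ᶜ := by
    refine (hd.mono hU).div differentiableOn_id fun z hz h0 => ?_
    rw [h0] at hz
    exact hz (mem_closedBall_self hR.le)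
  obtain ⟨G, hG, hG0, hGH⟩ := chart_inf hR subset_rfl hd' hlim
  have h1 : HasDerivAt G (deriv G 0) 0 :=
    (hG.differentiableAt (ball_mem_nhds _ (inv_pos.2 hR))).hasDerivAt
  rw [hasDerivAt_iff_tendsto_slope] at h1
  refine ⟨deriv G 0, (h1.comp tendsto_inv₀_cobounded').congr' ?_⟩
  filter_upwards [tendsto_norm_cobounded_atTop.eventually_gt_atTop 0] with z hz
  have hz0 : z ≠ 0 := norm_pos_iff.1 hz
  simp only [Function.comp, slope_def_field, hG0, hGH _ (inv_ne_zero hz0), inv_inv, sub_zero]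
  field_simp

lemma nu_of_ratio {P : Set ℂ} (hP : IsCompact P) {F : ℂ → ℂ} (hd : DifferentiableOn ℂ F Pᶜ)
    (hinj : InjOn F Pᶜ) (hlim : Tendsto (fun z => F z / z) (cobounded ℂ) (𝓝 1)) :
    ∃ κ : ℂ, NU Pᶜ (fun z => F z - κ) := by
  obtain ⟨R, hR, hU⟩ := compl_nonempty hP
  obtain ⟨κ, hκ⟩ := exists_sub_lim hR hU hd hlim
  refine ⟨κ, hd.sub_const κ, fun z hz w hw h => hinj hz hw (sub_left_injective h), ?_⟩
  have := hκ.sub_const κ
  rw [sub_self] at this
  refine this.congr fun z => by ring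

lemma NU.ratio {U : Set ℂ} {f : ℂ → ℂ} (h : NU U f) (c : ℂ) :
    Tendsto (fun z => (f z - c) / z) (cobounded ℂ) (𝓝 1) := by
  have h1 : Tendsto (fun z : ℂ => z⁻¹) (cobounded ℂ) (𝓝 0) := tendsto_inv₀_cobounded
  have h2 : Tendsto (fun z => 1 + (f z - z - c) * z⁻¹) (cobounded ℂ) (𝓝 (1 + (0 - c) * 0)) :=
    tendsto_const_nhds.add ((h.norm.sub_const c).mul h1)
  rw [mul_zero, add_zero] at h2
  refine h2.congr' ?_
  filter_upwards [tendsto_norm_cobounded_atTop.eventually_gt_atTop 0] with z hz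
  have hz0 : z ≠ 0 := norm_pos_iff.1 hz
  field_simp
  ring

lemma NU.tendsto_inv {U : Set ℂ} {f : ℂ → ℂ} (h : NU U f) (c : ℂ) :
    Tendsto (fun z => (f z - c)⁻¹) (cobounded ℂ) (𝓝 0) := by
  have h1 : Tendsto (fun z : ℂ => z⁻¹) (cobounded ℂ) (𝓝 0) := tendsto_inv₀_cobounded
  have h2 := ((h.ratio c).inv₀ one_ne_zero).mul h1
  rw [mul_zero] at h2
  refine h2.congr' ?_
  filter_upwards [tendsto_norm_cobounded_atTop.eventually_gt_atTop 0] with z hz
  have hz0 : z ≠ 0 := norm_pos_iff.1 hz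
  rw [inv_div, div_mul_eq_mul_div, mul_inv_cancel₀ hz0, one_div]

/-- opening up: a first omitted disk -/
lemma open_up {P : Set ℂ} (hP : IsCompact P) (hc : IsConnected P) (hf : Full P)
    (hnt : P.Nontrivial) : ∃ (F : ℂ → ℂ) (c : ℂ) (r : ℝ), 0 < r ∧ NU Pᶜ F ∧
      ∀ z ∈ Pᶜ, r < ‖F z - c‖ := by
  obtain ⟨b, hb, c, hcP, hbc⟩ := hnt
  have hUo : IsOpen Pᶜ := hP.isClosed.isOpen_compl
  obtain ⟨R, hR, hU⟩ := compl_nonempty hP
  have hne : ∀ z ∈ Pᶜ, z - c ≠ 0 := fun z hz h => hz (sub_eq_zero.1 h ▸ hcP)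
  have hneb : ∀ z ∈ Pᶜ, z - b ≠ 0 := fun z hz h => hz (sub_eq_zero.1 h ▸ hb)
  have hcb : c - b ≠ 0 := sub_ne_zero.2 (Ne.symm hbc)
  set H : ℂ → ℂ := fun z => (z - b) / (z - c) with hH
  have hHd : DifferentiableOn ℂ H Pᶜ :=
    (differentiableOn_id.sub_const b).div (differentiableOn_id.sub_const c) hne
  have hid : NU Pᶜ (fun z : ℂ => z) := ⟨differentiableOn_id, injOn_id _, by simp⟩
  have hHlim : Tendsto H (cobounded ℂ) (𝓝 1) := by
    have h1 := (hid.ratio b).div (hid.ratio c) one_ne_zero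
    rw [div_one] at h1
    refine h1.congr' ?_
    filter_upwards [tendsto_norm_cobounded_atTop.eventually_gt_atTop 0] with z hz
    have hz0 : z ≠ 0 := norm_pos_iff.1 hz
    simp only [Pi.div_apply, hH]
    rw [div_div_div_cancel_right₀ hz0]
  obtain ⟨q, hqd, hq2, hqlim⟩ := exists_sqrt hP hc hf hHd
    (fun z hz => div_ne_zero (hneb z hz) (hne z hz)) hHlim
  have hHinj : ∀ z ∈ Pᶜ, ∀ w ∈ Pᶜ, H z = H w → z = w := by
    intro z hz w hw h
    rw [hH] at h
    simp only at h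
    rw [div_eq_div_iff (hne z hz) (hne w hw)] at h
    have h1 : (c - b) * (z - w) = 0 := by linear_combination -h
    exact sub_eq_zero.1 ((mul_eq_zero.1 h1).resolve_left hcb)
  have hH1 : ∀ z ∈ Pᶜ, H z ≠ 1 := by
    intro z hz h
    rw [hH] at h
    simp only at h
    rw [div_eq_one_iff_eq (hne z hz)] at h
    exact hcb (by linear_combination h)
  have hH0 : ∀ z ∈ Pᶜ, H z ≠ 0 := fun z hz => div_ne_zero (hneb z hz) (hne z hz)
  have hq1 : ∀ z ∈ Pᶜ, q z - 1 ≠ 0 := by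
    intro z hz h
    apply hH1 z hz
    rw [← hq2 z hz, sub_eq_zero.1 h, one_pow]
  -- asymptotics of `q - 1`
  have hzq : Tendsto (fun z => (z * (q z - 1))) (cobounded ℂ) (𝓝 ((c - b) / 2)) := by
    have h1 : Tendsto (fun z => (c - b) * ((z - c) / z)⁻¹ * (q z + 1)⁻¹) (cobounded ℂ)
        (𝓝 ((c - b) * 1⁻¹ * (1 + 1)⁻¹)) :=
      (((hid.ratio c).inv₀ one_ne_zero).const_mul (c - b)).mul
        ((hqlim.add_const 1).inv₀ (by norm_num))
    have h2 : (c - b) * 1⁻¹ * (1 + 1)⁻¹ = (c - b) / 2 := by norm_num; ring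
    rw [h2] at h1
    refine h1.congr' ?_
    have hq10 : ∀ᶠ z in cobounded ℂ, q z + 1 ≠ 0 := by
      have := hqlim.add_const 1
      exact this.eventually_ne (by norm_num)
    filter_upwards [tendsto_norm_cobounded_atTop.eventually_gt_atTop R, hq10] with z hz hq10
    have hzP : z ∈ Pᶜ := hU (by
      rw [mem_compl_iff, mem_closedBall, dist_zero_right, not_le]
      exact hz)
    have hz0 : z ≠ 0 := norm_pos_iff.1 (hR.trans hz)
    have h3 := hne z hzP
    have h4 : (q z - 1) * (q z + 1) * (z - c) = c - b := by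
      have h5 := hq2 z hzP
      rw [hH] at h5
      simp only at h5
      have : (q z - 1) * (q z + 1) = (z - b) / (z - c) - 1 := by rw [← h5]; ring
      rw [this]
      field_simp
      ring
    rw [inv_div]
    field_simp
    linear_combination -h4
  -- the map
  set k : ℂ := (c - b) / 2 with hk
  have hk0 : k ≠ 0 := div_ne_zero hcb two_ne_zero
  have hFd : DifferentiableOn ℂ (fun z => k / (q z - 1)) Pᶜ :=
    (differentiableOn_const _).div (hqd.sub_const 1) hq1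
  have hFinj : InjOn (fun z => k / (q z - 1)) Pᶜ := by
    intro z hz w hw h
    simp only at h
    rw [div_eq_div_iff (hq1 z hz) (hq1 w hw)] at h
    have h1 := mul_left_cancel₀ hk0 h
    apply hHinj z hz w hw
    rw [← hq2 z hz, ← hq2 w hw]
    have : q z = q w := by linear_combination -h1
    rw [this]
  have hFlim : Tendsto (fun z => (k / (q z - 1)) / z) (cobounded ℂ) (𝓝 1) := by
    have h1 := (hzq.inv₀ hk0).const_mul k
    rw [mul_inv_cancel₀ hk0] at h1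
    refine h1.congr' ?_
    filter_upwards [tendsto_norm_cobounded_atTop.eventually_gt_atTop 0] with z hz
    rw [div_div, mul_comm z, div_eq_mul_inv]
  obtain ⟨κ, hκ⟩ := nu_of_ratio hP hFd hFinj hFlim
  -- `q` omits a neighbourhood of `-1`
  obtain ⟨η, hη, hηq⟩ : ∃ η > 0, ∀ z ∈ Pᶜ, η ≤ ‖q z + 1‖ := by
    obtain ⟨Q, hQ, hQ0, hQq⟩ := chart_inf hR hU hqd hqlim
    have hQd : HasDerivAt Q k 0 := by
      rw [hasDerivAt_iff_tendsto_slope]
      refine (hzq.comp tendsto_inv₀_nhdsNE_zero).congr' ?_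
      filter_upwards [self_mem_nhdsWithin] with ζ hζ
      have hζ0 : ζ ≠ 0 := hζ
      simp only [Function.comp, slope_def_field, hQ0, hQq ζ hζ0, sub_zero]
      field_simp
    have hQa : AnalyticAt ℂ Q 0 := hQ.analyticAt (ball_mem_nhds _ (inv_pos.2 hR))
    have hopen : 𝓝 (Q 0) ≤ map Q (𝓝 0) := by
      rcases hQa.eventually_constant_or_nhds_le_map_nhds with h | h
      · exfalso
        have h1 : HasDerivAt Q 0 0 := by
          have : Q =ᶠ[𝓝 0] fun _ => Q 0 := h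
          exact (hasDerivAt_const (0:ℂ) (Q 0)).congr_of_eventuallyEq this
        exact hk0 (hQd.unique h1)
      · exact h
    have hball : Q '' ball 0 R⁻¹ ∈ 𝓝 (Q 0) := hopen (image_mem_map (ball_mem_nhds _ (inv_pos.2 hR)))
    rw [hQ0] at hball
    obtain ⟨η, hη, hsub⟩ := Metric.mem_nhds_iff.1 hball
    refine ⟨η, hη, fun z hz => ?_⟩
    by_contra hlt
    rw [not_le] at hlt
    have h1 : - q z ∈ ball (1:ℂ) η := by
      rw [mem_ball, dist_eq_norm, ← norm_neg]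
      have : -(-q z - 1) = q z + 1 := by ring
      rw [this]
      exact hlt
    obtain ⟨ζ, hζ, hζq⟩ := hsub h1
    by_cases hζ0 : ζ = 0
    · rw [hζ0, hQ0] at hζq
      apply hH1 z hz
      rw [← hq2 z hz]
      have : q z = -1 := by linear_combination hζq
      rw [this]
      ring
    · rw [hQq ζ hζ0] at hζq
      have hζP : ζ⁻¹ ∈ Pᶜ := hU (by
        rw [mem_compl_iff, mem_closedBall, dist_zero_right, norm_inv, not_le]
        rw [mem_ball_zero_iff, lt_inv_comm₀ (norm_pos_iff.2 hζ0) hR] at hζ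
        exact hζ)
      have h3 : ζ⁻¹ = z := by
        apply hHinj _ hζP _ hz
        rw [← hq2 _ hζP, ← hq2 z hz, hζq]
        ring
      rw [h3] at hζq
      have h4 : q z = 0 := by linear_combination (1/2) * hζq
      apply hH0 z hz
      rw [← hq2 z hz, h4]
      ring
  clear_value k
  refine ⟨fun z => k / (q z - 1) - κ, -(k / 2) - κ, ‖k‖ / 2 * (η / (η + 2)) / 2, ?_, hκ, ?_⟩
  · have := norm_pos_iff.2 hk0
    positivity
  · intro z hz
    have h1 := hηq z hz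
    have hkn := norm_pos_iff.2 hk0
    have h2 : k / (q z - 1) - κ - (-(k / 2) - κ) = k / 2 * ((q z + 1) / (q z - 1)) := by
      have := hq1 z hz
      field_simp
      ring
    have hk2 : ‖k / 2‖ = ‖k‖ / 2 := by rw [norm_div k 2, Complex.norm_ofNat]
    rw [h2, norm_mul, hk2, norm_div]
    have h3 : 0 < ‖q z - 1‖ := norm_pos_iff.2 (hq1 z hz)
    have h4 : ‖q z - 1‖ ≤ ‖q z + 1‖ + 2 := by
      have e : q z - 1 = (q z + 1) - 2 := by ring
      rw [e]
      refine (norm_sub_le _ _).trans ?_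
      simp
    have h5 : η / (η + 2) ≤ ‖q z + 1‖ / ‖q z - 1‖ := by
      rw [div_le_div_iff₀ (by positivity) h3]
      nlinarith
    have h6 : 0 < η / (η + 2) := by positivity
    have h7 : 0 < ‖k‖ / 2 := by positivity
    have h8 : ‖k‖ / 2 * (η / (η + 2)) ≤ ‖k‖ / 2 * (‖q z + 1‖ / ‖q z - 1‖) :=
      mul_le_mul_of_nonneg_left h5 h7.le
    have h9 : 0 < ‖k‖ / 2 * (η / (η + 2)) := mul_pos h7 h6
    linarith

/-- Koebe's osculation step -/
lemma osculate {P : Set ℂ} (hP : IsCompact P) (hc : IsConnected P) (hf : Full P)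
    {f : ℂ → ℂ} (hfn : NU Pᶜ f) {c : ℂ} {r : ℝ} (hr : 0 < r) (hfr : ∀ z ∈ Pᶜ, r < ‖f z - c‖)
    {b : ℂ} (hb : r < ‖b - c‖) (hfb : ∀ z ∈ Pᶜ, f z ≠ b) :
    ∃ (F : ℂ → ℂ) (c' : ℂ) (r' : ℝ), r < r' ∧ NU Pᶜ F ∧ ∀ z ∈ Pᶜ, r' < ‖F z - c'‖ := by
  obtain ⟨R, hR, hU⟩ := compl_nonempty hP
  have hfc : ∀ z ∈ Pᶜ, f z - c ≠ 0 := fun z hz => norm_pos_iff.1 (hr.trans (hfr z hz))
  have hbc : b - c ≠ 0 := norm_pos_iff.1 (hr.trans hb)
  have hrC : (r : ℂ) ≠ 0 := by exact_mod_cast hr.ne'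
  set φ : ℂ → ℂ := fun z => r / (f z - c) with hφ
  have hφd : DifferentiableOn ℂ φ Pᶜ := (differentiableOn_const _).div (hfn.diff.sub_const c) hfc
  have hφ1 : ∀ z ∈ Pᶜ, ‖φ z‖ < 1 := by
    intro z hz
    rw [hφ]
    simp only
    rw [norm_div, Complex.norm_real, Real.norm_of_nonneg hr.le,
      div_lt_one (norm_pos_iff.2 (hfc z hz))]
    exact hfr z hz
  have hφ0 : ∀ z ∈ Pᶜ, φ z ≠ 0 := fun z hz => div_ne_zero hrC (hfc z hz)
  have hφinj : ∀ z ∈ Pᶜ, ∀ w ∈ Pᶜ, φ z = φ w → z = w := by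
    intro z hz w hw h
    rw [hφ] at h
    simp only at h
    rw [div_eq_div_iff (hfc z hz) (hfc w hw)] at h
    have h1 := mul_left_cancel₀ hrC h
    exact hfn.inj hz hw (by linear_combination -h1)
  set β : ℂ := r / (b - c) with hβ
  have hβ1 : ‖β‖ < 1 := by
    rw [hβ, norm_div, Complex.norm_real, Real.norm_of_nonneg hr.le, div_lt_one (norm_pos_iff.2 hbc)]
    exact hb
  have hβ0 : β ≠ 0 := div_ne_zero hrC hbc
  have hφβ : ∀ z ∈ Pᶜ, φ z - β ≠ 0 := by
    intro z hz h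
    have h1 : φ z = β := sub_eq_zero.1 h
    rw [hφ, hβ] at h1
    simp only at h1
    rw [div_eq_div_iff (hfc z hz) hbc] at h1
    have h2 := mul_left_cancel₀ hrC h1
    exact hfb z hz (by linear_combination -h2)
  have hφlim : Tendsto φ (cobounded ℂ) (𝓝 0) := by
    have := (hfn.tendsto_inv c).const_mul (r:ℂ)
    rw [mul_zero] at this
    exact this
  have hzφ : Tendsto (fun z => z * φ z) (cobounded ℂ) (𝓝 r) := by
    have h1 := ((hfn.ratio c).inv₀ one_ne_zero).const_mul (r:ℂ)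
    rw [inv_one, mul_one] at h1
    refine h1.congr fun z => ?_
    rw [inv_div, hφ]
    simp only
    ring
  set ψ : ℂ → ℂ := fun z => mob β (φ z) with hψ
  have hden : ∀ z ∈ Pᶜ, 1 - conj β * φ z ≠ 0 := fun z hz => mob_den hβ1 (hφ1 z hz)
  have hψd : DifferentiableOn ℂ ψ Pᶜ :=
    (hφd.sub_const β).div ((hφd.const_mul (conj β)).const_sub 1) hden
  have hψ1 : ∀ z ∈ Pᶜ, ‖ψ z‖ < 1 := fun z hz => mob_norm hβ1 (hφ1 z hz)
  have hψ0 : ∀ z ∈ Pᶜ, ψ z ≠ 0 := fun z hz => div_ne_zero (hφβ z hz) (hden z hz)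
  have hψlim : Tendsto ψ (cobounded ℂ) (𝓝 (-β)) := by
    have h1 : Tendsto ψ (cobounded ℂ) (𝓝 ((0 - β) / (1 - conj β * 0))) :=
      (hφlim.sub_const β).div ((hφlim.const_mul (conj β)).const_sub 1) (by simp)
    simpa using h1
  obtain ⟨s, hsd, hs2, hslim⟩ := exists_sqrt hP hc hf (H := fun z => ψ z / (-β))
    (hψd.div_const _) (fun z hz => div_ne_zero (hψ0 z hz) (neg_ne_zero.2 hβ0)) (by
      have := hψlim.div_const (-β)
      rwa [div_self (neg_ne_zero.2 hβ0)] at this)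
  obtain ⟨γ, hγ⟩ := IsAlgClosed.exists_pow_nat_eq (-β) (show 0 < 2 by norm_num)
  have hγ0 : γ ≠ 0 := by
    rintro rfl
    apply hβ0
    have : (0:ℂ) = -β := by rw [← hγ]; ring
    rw [← neg_eq_zero]
    exact this.symm
  have hγn : ‖γ‖ ^ 2 = ‖β‖ := by rw [← norm_pow, hγ, norm_neg]
  have hγ1 : ‖γ‖ < 1 := by nlinarith [norm_nonneg γ]
  have hγpos : 0 < ‖γ‖ := norm_pos_iff.2 hγ0
  set σ : ℂ → ℂ := fun z => γ * s z with hσ
  have hσd : DifferentiableOn ℂ σ Pᶜ := hsd.const_mul γ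
  have hσ2 : ∀ z ∈ Pᶜ, σ z ^ 2 = ψ z := by
    intro z hz
    rw [hσ]
    simp only
    rw [mul_pow, hγ, hs2 z hz]
    field_simp
  have hσ1 : ∀ z ∈ Pᶜ, ‖σ z‖ < 1 := by
    intro z hz
    have h1 : ‖σ z‖ ^ 2 < 1 := by
      rw [← norm_pow, hσ2 z hz]
      exact hψ1 z hz
    nlinarith [norm_nonneg (σ z)]
  have hσlim : Tendsto σ (cobounded ℂ) (𝓝 γ) := by
    have := hslim.const_mul γ
    rwa [mul_one] at this
  set τ : ℂ → ℂ := fun z => mob γ (σ z) with hτ
  have hdenτ : ∀ z ∈ Pᶜ, 1 - conj γ * σ z ≠ 0 := fun z hz => mob_den hγ1 (hσ1 z hz)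
  have hτd : DifferentiableOn ℂ τ Pᶜ :=
    (hσd.sub_const γ).div ((hσd.const_mul (conj γ)).const_sub 1) hdenτ
  have hτ1 : ∀ z ∈ Pᶜ, ‖τ z‖ < 1 := fun z hz => mob_norm hγ1 (hσ1 z hz)
  have hβn : (1 - conj β * β) ≠ 0 := mob_den hβ1 hβ1
  have hψβ : ∀ z ∈ Pᶜ, ψ z + β = φ z * (1 - conj β * β) / (1 - conj β * φ z) := by
    intro z hz
    rw [hψ]
    simp only [mob]
    rw [div_add' _ _ _ (hden z hz)]
    congr 1
    ring
  have hτ0 : ∀ z ∈ Pᶜ, τ z ≠ 0 := by
    intro z hz h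
    have h1 : σ z - γ = 0 := by
      rw [hτ] at h
      simp only [mob] at h
      exact (div_eq_zero_iff.1 h).resolve_right (hdenτ z hz)
    have h2 : ψ z + β = 0 := by
      rw [← hσ2 z hz, sub_eq_zero.1 h1, hγ]
      ring
    rw [hψβ z hz, div_eq_zero_iff] at h2
    rcases h2 with h2 | h2
    · rcases mul_eq_zero.1 h2 with h3 | h3
      · exact hφ0 z hz h3
      · exact hβn h3
    · exact hden z hz h2
  have hτinj : ∀ z ∈ Pᶜ, ∀ w ∈ Pᶜ, τ z = τ w → z = w := by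
    intro z hz w hw h
    have h1 : σ z = σ w := mob_inj hγ1 (hσ1 z hz) (hσ1 w hw) h
    have h2 : ψ z = ψ w := by rw [← hσ2 z hz, ← hσ2 w hw, h1]
    have h3 : φ z = φ w := mob_inj hβ1 (hφ1 z hz) (hφ1 w hw) h2
    exact hφinj z hz w hw h3
  -- asymptotics
  set L : ℂ := r * (1 - conj β * β) / (2 * γ * (1 - conj γ * γ)) with hL
  have hγn' : (1 - conj γ * γ) ≠ 0 := mob_den hγ1 hγ1
  have hL0 : L ≠ 0 :=
    div_ne_zero (mul_ne_zero hrC hβn) (mul_ne_zero (mul_ne_zero two_ne_zero hγ0) hγn')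
  have hzτ : Tendsto (fun z => z * τ z) (cobounded ℂ) (𝓝 L) := by
    have h1 : Tendsto (fun z => (z * φ z) * (1 - conj β * β) / (1 - conj β * φ z) /
        ((σ z + γ) * (1 - conj γ * σ z))) (cobounded ℂ)
        (𝓝 (r * (1 - conj β * β) / (1 - conj β * 0) / ((γ + γ) * (1 - conj γ * γ)))) := by
      refine ((hzφ.mul_const _).div ((hφlim.const_mul (conj β)).const_sub 1) (by simp)).div
        ((hσlim.add_const γ).mul ((hσlim.const_mul (conj γ)).const_sub 1)) ?_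
      exact mul_ne_zero (by rw [← two_mul]; exact mul_ne_zero two_ne_zero hγ0) hγn'
    have h2 : r * (1 - conj β * β) / (1 - conj β * 0) / ((γ + γ) * (1 - conj γ * γ)) = L := by
      rw [hL, mul_zero, sub_zero, div_one, ← two_mul]
    rw [h2] at h1
    refine h1.congr' ?_
    have hσγ : ∀ᶠ z in cobounded ℂ, σ z + γ ≠ 0 := by
      have := hσlim.add_const γ
      exact this.eventually_ne (by rw [← two_mul]; exact mul_ne_zero two_ne_zero hγ0)
    filter_upwards [tendsto_norm_cobounded_atTop.eventually_gt_atTop R, hσγ] with z hz hσγ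
    have hzP : z ∈ Pᶜ := hU (by
      rw [mem_compl_iff, mem_closedBall, dist_zero_right, not_le]
      exact hz)
    have h3 := hden z hzP
    have h4 := hdenτ z hzP
    have h5 : (σ z - γ) * (σ z + γ) * (1 - conj β * φ z) = φ z * (1 - conj β * β) := by
      have h6 : (σ z - γ) * (σ z + γ) = ψ z + β := by
        have : (σ z - γ) * (σ z + γ) = σ z ^ 2 - γ ^ 2 := by ring
        rw [this, hσ2 z hzP, hγ]
        ring
      rw [h6, hψβ z hzP, div_mul_cancel₀ _ h3]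
    rw [hτ]
    simp only [mob]
    have e : z * ((σ z - γ) / (1 - conj γ * σ z)) = z * (σ z - γ) / (1 - conj γ * σ z) := by ring
    rw [e, div_div, div_eq_div_iff (mul_ne_zero h3 (mul_ne_zero hσγ h4)) h4]
    linear_combination (-z) * (1 - conj γ * σ z) * h5
  have hLn : r < ‖L‖ := by
    have hβr : conj β * β = ((‖β‖ ^ 2 : ℝ) : ℂ) := by
      rw [mul_comm, Complex.mul_conj, Complex.normSq_eq_norm_sq]
    have hγr : conj γ * γ = ((‖γ‖ ^ 2 : ℝ) : ℂ) := by
      rw [mul_comm, Complex.mul_conj, Complex.normSq_eq_norm_sq]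
    have e1 : ‖L‖ = r * (1 - ‖β‖ ^ 2) / (2 * ‖γ‖ * (1 - ‖β‖)) := by
      rw [hL, hβr, hγr, hγn]
      rw [norm_div, norm_mul, norm_mul, norm_mul, Complex.norm_real, Complex.norm_ofNat,
        Real.norm_of_nonneg hr.le]
      have a1 : (1 - ((‖β‖ ^ 2 : ℝ) : ℂ)) = ((1 - ‖β‖ ^ 2 : ℝ) : ℂ) := by push_cast; ring
      have a2 : (1 - ((‖β‖ : ℝ) : ℂ)) = ((1 - ‖β‖ : ℝ) : ℂ) := by push_cast; ring
      rw [a1, a2, Complex.norm_real, Complex.norm_real, Real.norm_of_nonneg (by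
        nlinarith [norm_nonneg β]), Real.norm_of_nonneg (by linarith)]
    have e2 : r * (1 - ‖β‖ ^ 2) / (2 * ‖γ‖ * (1 - ‖β‖)) = r * (1 + ‖β‖) / (2 * ‖γ‖) := by
      have : (1 - ‖β‖) ≠ 0 := by linarith
      field_simp
      ring
    rw [e1, e2, lt_div_iff₀ (by positivity), ← hγn]
    nlinarith [mul_pos hr (show 0 < (1 - ‖γ‖) ^ 2 by
      have : 0 < 1 - ‖γ‖ := by linarith
      positivity)]
  have hFd : DifferentiableOn ℂ (fun z => L / τ z) Pᶜ := (differentiableOn_const _).div hτd hτ0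
  have hFinj : InjOn (fun z => L / τ z) Pᶜ := by
    intro z hz w hw h
    simp only at h
    rw [div_eq_div_iff (hτ0 z hz) (hτ0 w hw)] at h
    exact hτinj z hz w hw (mul_left_cancel₀ hL0 h).symm
  have hFlim : Tendsto (fun z => (L / τ z) / z) (cobounded ℂ) (𝓝 1) := by
    have h1 := (hzτ.inv₀ hL0).const_mul L
    rw [mul_inv_cancel₀ hL0] at h1
    refine h1.congr fun z => ?_
    rw [div_div, mul_comm z, div_eq_mul_inv]
  obtain ⟨κ, hκ⟩ := nu_of_ratio hP hFd hFinj hFlim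
  clear_value L
  refine ⟨_, -κ, ‖L‖, hLn, hκ, fun z hz => ?_⟩
  rw [sub_neg_eq_add, sub_add_cancel, norm_div, lt_div_iff₀ (norm_pos_iff.2 (hτ0 z hz))]
  have := hτ1 z hz
  have hLpos := norm_pos_iff.2 hL0
  nlinarith

/-- points of converging balls -/
lemma approx_ball {α : Type*} {l : Filter α} {cS : α → ℂ} {rS : α → ℝ} {c : ℂ} {r : ℝ}
    (hc : Tendsto cS l (𝓝 c)) (hr : Tendsto rS l (𝓝 r)) (hr0 : ∀ᶠ S in l, 0 ≤ rS S) {v : ℂ}
    (hv : ‖v - c‖ ≤ r) : ∃ w : α → ℂ, Tendsto w l (𝓝 v) ∧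
      ∀ S, 0 ≤ rS S → w S ∈ closedBall (cS S) (rS S) := by
  set w : α → ℂ := fun S => if ‖v - cS S‖ ≤ rS S then v else
    cS S + ((rS S / ‖v - cS S‖ : ℝ) : ℂ) * (v - cS S) with hw
  have hwm : ∀ S, 0 ≤ rS S → w S ∈ closedBall (cS S) (rS S) := by
    intro S hS
    simp only [hw]
    split_ifs with hif
    · rwa [mem_closedBall, dist_eq_norm]
    · rw [mem_closedBall, dist_eq_norm, add_sub_cancel_left, norm_mul, Complex.norm_real,
        Real.norm_of_nonneg (div_nonneg hS (norm_nonneg _))]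
      rw [div_mul_cancel₀]
      rw [not_le] at hif
      exact (hS.trans_lt hif).ne'
  have hwd : ∀ S, 0 ≤ rS S → dist (w S) v ≤ max 0 (‖v - cS S‖ - rS S) := by
    intro S hS
    simp only [hw]
    split_ifs with hif
    · rw [dist_self]
      exact le_max_left _ _
    · rw [not_le] at hif
      have hpos : 0 < ‖v - cS S‖ := hS.trans_lt hif
      have hne : (‖v - cS S‖ : ℂ) ≠ 0 := by exact_mod_cast hpos.ne'
      have e : cS S + ((rS S / ‖v - cS S‖ : ℝ) : ℂ) * (v - cS S) - v =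
          -(((‖v - cS S‖ - rS S) / ‖v - cS S‖ : ℝ) : ℂ) * (v - cS S) := by
        push_cast
        field_simp
        ring
      rw [dist_eq_norm, e, norm_mul, norm_neg, Complex.norm_real,
        Real.norm_of_nonneg (div_nonneg (by linarith) hpos.le), div_mul_cancel₀ _ hpos.ne']
      exact le_max_right _ _
  refine ⟨w, ?_, hwm⟩
  rw [tendsto_iff_dist_tendsto_zero]
  have h2 : Tendsto (fun S => max 0 (‖v - cS S‖ - rS S)) l (𝓝 (max 0 (‖v - c‖ - r))) :=
    (tendsto_const_nhds).max (((tendsto_const_nhds.sub hc).norm).sub hr)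
  rw [max_eq_left (by linarith)] at h2
  refine tendsto_of_tendsto_of_tendsto_of_le_of_le' tendsto_const_nhds h2
    (Eventually.of_forall fun S => dist_nonneg) ?_
  filter_upwards [hr0] with S hS using hwd S hS

/-- limits of images at boundary points are not images -/
lemma cluster_notMem {U : Set ℂ} (hU : IsOpen U) {f : ℂ → ℂ} (hd : DifferentiableOn ℂ f U)
    (hinj : InjOn f U) {β : Type*} {𝓥 : Filter β} [𝓥.NeBot] {z : β → ℂ} {x w : ℂ} (hx : x ∉ U)
    (hz : Tendsto z 𝓥 (𝓝 x)) (hzU : ∀ᶠ b in 𝓥, z b ∈ U)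
    (hw : Tendsto (fun b => f (z b)) 𝓥 (𝓝 w)) : w ∉ f '' U := by
  rintro ⟨a, ha, rfl⟩
  have hne : a ≠ x := fun h => hx (h ▸ ha)
  obtain ⟨δ, hδ, hδU⟩ := Metric.isOpen_iff.1 hU a ha
  set δ' := min δ (dist a x / 2) with hδ'
  have hδ'0 : 0 < δ' := lt_min hδ (by
    have := dist_pos.2 hne
    positivity)
  have hball : ball a δ' ⊆ U := (ball_subset_ball (min_le_left _ _)).trans hδU
  have han : AnalyticAt ℂ f a := (hd.analyticOnNhd hU) a ha
  have hopen : 𝓝 (f a) ≤ map f (𝓝 a) := by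
    rcases han.eventually_constant_or_nhds_le_map_nhds with h | h
    · exfalso
      have h2 : ∀ᶠ y in 𝓝 a, y ∈ ball a δ' := ball_mem_nhds _ hδ'0
      have h3 : ∀ᶠ y in 𝓝[≠] a, f y = f a ∧ y ∈ ball a δ' :=
        (h.and h2).filter_mono nhdsWithin_le_nhds
      obtain ⟨y, ⟨hy1, hy2⟩, hy3⟩ := (h3.and self_mem_nhdsWithin).exists
      exact hy3 (hinj (hball hy2) ha hy1)
    · exact h
  have h1 : f '' ball a δ' ∈ 𝓝 (f a) := hopen (image_mem_map (ball_mem_nhds _ hδ'0))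
  have h2 : ∀ᶠ b in 𝓥, z b ∈ ball x (dist a x / 2) := hz.eventually (ball_mem_nhds _ (by
    have := dist_pos.2 hne
    positivity))
  obtain ⟨b, ⟨hb1, hb2⟩, hb3⟩ := (((hw.eventually h1).and hzU).and h2).exists
  obtain ⟨y, hy, hyb⟩ := hb1
  have h3 : y = z b := hinj (hball hy) hb2 hyb
  rw [h3, mem_ball] at hy
  rw [mem_ball] at hb3
  have := dist_triangle_left a x (z b)
  have := (hy.trans_le (min_le_right δ (dist a x / 2)))
  linarith

lemma closedBall_omitted_bdd {U : Set ℂ} {f : ℂ → ℂ} {R : ℝ} (hR : 0 < R) (h : NU U f)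
    (hU : (closedBall (0:ℂ) R)ᶜ ⊆ U) {c : ℂ} {r : ℝ} (hr : 0 ≤ r)
    (hom : ∀ z ∈ U, r < ‖f z - c‖) : ‖c‖ ≤ 5 * R ∧ r ≤ 5 * R := by
  have hsub : closedBall c r ⊆ closedBall 0 (5 * R) := by
    intro w hw
    rw [mem_closedBall, dist_zero_right]
    refine h.omitted hR hU fun z hz hzw => ?_
    have h1 := hom z (hU hz)
    rw [hzw] at h1
    rw [mem_closedBall, dist_eq_norm] at hw
    linarith
  have h1 : c + r ∈ closedBall c r := by
    rw [mem_closedBall, dist_eq_norm, add_sub_cancel_left, Complex.norm_real,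
      Real.norm_of_nonneg hr]
  have h2 : c - r ∈ closedBall c r := by
    rw [mem_closedBall, dist_eq_norm, sub_sub_cancel_left, norm_neg, Complex.norm_real,
      Real.norm_of_nonneg hr]
  have h3 := hsub h1
  have h4 := hsub h2
  have h5 := hsub (mem_closedBall_self hr)
  rw [mem_closedBall, dist_zero_right] at h3 h4 h5
  refine ⟨h5, ?_⟩
  have h6 : (2 * r : ℝ) = ‖(c + r) - (c - r)‖ := by
    have : (c + r) - (c - r) = ((2 * r : ℝ) : ℂ) := by
      push_cast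
      ring
    rw [this, Complex.norm_real, Real.norm_of_nonneg (by linarith)]
  have := norm_sub_le (c + (r:ℂ)) (c - (r:ℂ))
  linarith

/-- **The exterior Riemann map** -/
theorem exists_ext {P : Set ℂ} (hP : IsCompact P) (hc : IsConnected P) (hf : Full P)
    (hnt : P.Nontrivial) : ∃ (f : ℂ → ℂ) (c : ℂ) (r : ℝ), 0 < r ∧ NU Pᶜ f ∧
      f '' Pᶜ = (closedBall c r)ᶜ := by
  obtain ⟨R, hR, hU⟩ := compl_nonempty hP
  have hUo : IsOpen Pᶜ := hP.isClosed.isOpen_compl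
  have hUc : IsPreconnected Pᶜ := hf.isPreconnected_compl hP.isBounded
  set A : Set ℝ := {r | 0 < r ∧ ∃ (f : ℂ → ℂ) (c : ℂ), NU Pᶜ f ∧ ∀ z ∈ Pᶜ, r < ‖f z - c‖} with hA
  have hAne : A.Nonempty := by
    obtain ⟨F, c, r, hr, hF, hFc⟩ := open_up hP hc hf hnt
    exact ⟨r, hr, F, c, hF, hFc⟩
  have hAb : BddAbove A := by
    refine ⟨5 * R, ?_⟩
    rintro r ⟨hr, f, c, hf', hfc⟩
    exact (closedBall_omitted_bdd hR hf' hU hr.le hfc).2
  obtain ⟨rs, -, hrs, hrsA⟩ := exists_seq_tendsto_sSup hAne hAb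
  set r := sSup A with hr
  choose hr0 F cs hF hFc using hrsA
  have hrpos : 0 < r := by
    obtain ⟨r', hr'⟩ := hAne
    exact hr'.1.trans_le (le_csSup hAb hr')
  set 𝒰 : Ultrafilter ℕ := hyperfilter ℕ with h𝒰
  have h𝒰le : (𝒰 : Filter ℕ) ≤ atTop := by
    rw [← Nat.cofinite_eq_atTop]
    exact hyperfilter_le_cofinite
  have hrs' : Tendsto rs 𝒰 (𝓝 r) := hrs.mono_left h𝒰le
  obtain ⟨c, -, hcs⟩ := (isCompact_closedBall (0 : ℂ) (5 * R)).ultrafilter_le_nhds
    (𝒰.map cs) (by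
      rw [le_principal_iff, Ultrafilter.coe_map, Filter.mem_map]
      refine Filter.Eventually.of_forall (p := fun n => cs n ∈ closedBall (0 : ℂ) (5 * R))
        fun n => ?_
      have := (closedBall_omitted_bdd hR (hF n) hU (hr0 n).le (hFc n)).1
      simpa using this)
  have hcs' : Tendsto cs 𝒰 (𝓝 c) := hcs
  have hexh : Exh (𝒰 : Filter ℕ) Pᶜ (fun _ => Pᶜ) F R :=
    { open' := hUo
      conn := hUc
      rpos := hR
      tail := hU
      vtail := Eventually.of_forall fun _ => hU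
      nu := Eventually.of_forall hF
      exh := fun z hz => by
        obtain ⟨δ, hδ, hb⟩ := Metric.isOpen_iff.1 hUo z hz
        exact ⟨δ, hδ, hb, Eventually.of_forall fun _ => hb⟩ }
  obtain ⟨g, hg⟩ := hexh.exists_lim
  have hgnu := hexh.lim_nu hg
  have hgc : ∀ z ∈ Pᶜ, r < ‖g z - c‖ := by
    intro z hz
    by_contra hle
    rw [not_lt] at hle
    obtain ⟨w, hw, hwm⟩ := approx_ball hcs' hrs' (Eventually.of_forall fun n => (hr0 n).le) hle
    refine hexh.omitted hg hw (Eventually.of_forall fun n => ?_) ⟨z, hz, rfl⟩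
    rintro ⟨y, hy, hyw⟩
    have h1 := hFc n y hy
    have h2 := hwm n (hr0 n).le
    rw [← hyw, mem_closedBall, dist_eq_norm] at h2
    linarith
  refine ⟨g, c, r, hrpos, hgnu, ?_⟩
  apply Subset.antisymm
  · rintro _ ⟨z, hz, rfl⟩
    rw [mem_compl_iff, mem_closedBall, dist_eq_norm, not_le]
    exact hgc z hz
  · intro b hb
    rw [mem_compl_iff, mem_closedBall, dist_eq_norm, not_le] at hb
    by_contra hcon
    obtain ⟨F', c', r', hr', hF', hFc'⟩ := osculate hP hc hf hgnu hrpos hgc hb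
      (fun z hz h => hcon ⟨z, hz, h⟩)
    have : r' ≤ r := le_csSup hAb ⟨hrpos.trans hr', F', c', hF', hFc'⟩
    linarith

/-- boundary behaviour of a map onto the exterior of a disk -/
lemma ext_lim {P : Set ℂ} (hP : IsCompact P) {f : ℂ → ℂ} {c : ℂ} {r : ℝ} (hf : NU Pᶜ f)
    (him : f '' Pᶜ = (closedBall c r)ᶜ) {β : Type*} {𝓥 : Filter β} {z : β → ℂ}
    {x : ℂ} (hx : x ∈ P) (hz : Tendsto z 𝓥 (𝓝 x)) (hzU : ∀ᶠ b in 𝓥, z b ∈ Pᶜ) :
    Tendsto (fun b => ‖f (z b) - c‖) 𝓥 (𝓝 r) := by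
  obtain ⟨R, hR, hU⟩ := compl_nonempty hP
  have hUo : IsOpen Pᶜ := hP.isClosed.isOpen_compl
  rw [tendsto_iff_ultrafilter]
  intro 𝒲 h𝒲
  have hz' : Tendsto z 𝒲 (𝓝 x) := hz.mono_left h𝒲
  have hzU' : ∀ᶠ b in (𝒲 : Filter β), z b ∈ Pᶜ := h𝒲 hzU
  have hbd : ∀ᶠ b in (𝒲 : Filter β), f (z b) ∈ closedBall (0:ℂ) (5 * (R + ‖x‖ + 1)) := by
    filter_upwards [hz'.eventually (ball_mem_nhds x one_pos), hzU'] with b hb1 hb2
    rw [mem_closedBall, dist_zero_right]
    refine hf.norm_le (by positivity) ?_ hb2 ?_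
    · refine (compl_subset_compl.2 (closedBall_subset_closedBall ?_)).trans hU
      have := norm_nonneg x
      linarith
    · replace hb1 : dist (z b) x < 1 := hb1
      rw [dist_eq_norm] at hb1
      have := norm_sub_norm_le (z b) x
      linarith
  obtain ⟨w, -, hw⟩ := (isCompact_closedBall (0 : ℂ) (5 * (R + ‖x‖ + 1))).ultrafilter_le_nhds
    (𝒲.map fun b => f (z b)) (by
      rw [le_principal_iff, Ultrafilter.coe_map, Filter.mem_map]
      exact hbd)
  have hw' : Tendsto (fun b => f (z b)) 𝒲 (𝓝 w) := hw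
  have h1 : w ∉ f '' Pᶜ := cluster_notMem hUo hf.diff hf.inj (fun h => h hx) hz' hzU' hw'
  rw [him, notMem_compl_iff, mem_closedBall, dist_eq_norm] at h1
  have h2 : r ≤ ‖w - c‖ := by
    refine ge_of_tendsto (hw'.sub_const c).norm ?_
    filter_upwards [hzU'] with b hb
    have : f (z b) ∈ (closedBall c r)ᶜ := by
      rw [← him]
      exact ⟨z b, hb, rfl⟩
    rw [mem_compl_iff, mem_closedBall, dist_eq_norm, not_le] at this
    exact this.le
  have h3 : ‖w - c‖ = r := le_antisymm h1 h2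
  rw [← h3]
  exact (hw'.sub_const c).norm

end Vale.Agent.P116.H906
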