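import Mathlib

/-!
Gluing of analytic functions across the unit circle.
-/

open Filter Topology Set Metric MeasureTheory
open scoped Real ComplexConjugate Interval

namespace Vale.Agent.P116.H906

/-- Cauchy transforms of continuous functions on circles are analytic off the circle -/
lemma cauchy_transform_diff {s : ℝ} {g : ℂ → ℂ} (hg : ContinuousOn g (sphere 0 |s|)) {a : ℂ}
    (ha : ‖a‖ ≠ |s|) : DifferentiableAt ℂ (fun a => ∮ u in C(0, s), g u / (u - a)) a := by
  have hδ : ∃ δ > 0, ∀ b ∈ ball a δ, ∀ θ : ℝ, δ ≤ ‖circleMap 0 s θ - b‖ := by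
    refine ⟨abs (‖a‖ - |s|) / 2, by
      have := abs_pos.2 (sub_ne_zero.2 ha)
      positivity, fun b hb θ => ?_⟩
    rw [mem_ball, dist_eq_norm] at hb
    have h1 : ‖circleMap 0 s θ‖ = |s| := norm_circleMap_zero s θ
    have h2 : abs (‖a‖ - |s|) ≤ ‖circleMap 0 s θ - a‖ := by
      have := abs_norm_sub_norm_le a (circleMap 0 s θ)
      rwa [h1, norm_sub_rev a] at this
    have h3 : ‖circleMap 0 s θ - a‖ ≤ ‖circleMap 0 s θ - b‖ + ‖b - a‖ := by
      have := norm_add_le (circleMap 0 s θ - b) (b - a)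
      rwa [sub_add_sub_cancel] at this
    linarith
  obtain ⟨δ, hδ, hδb⟩ := hδ
  have hgc : Continuous fun θ : ℝ => g (circleMap 0 s θ) := by
    rw [← continuousOn_univ]
    refine hg.comp (continuous_circleMap 0 s).continuousOn fun θ _ => ?_
    exact circleMap_mem_sphere' 0 s θ
  obtain ⟨B, hB⟩ : ∃ B, ∀ θ : ℝ, ‖g (circleMap 0 s θ)‖ ≤ B := by
    obtain ⟨B, hB⟩ := (isCompact_sphere (0:ℂ) |s|).exists_bound_of_continuousOn hg
    exact ⟨B, fun θ => hB _ (circleMap_mem_sphere' 0 s θ)⟩
  have hne : ∀ b ∈ ball a δ, ∀ θ : ℝ, circleMap 0 s θ - b ≠ 0 := fun b hb θ =>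
    norm_pos_iff.1 (hδ.trans_le (hδb b hb θ))
  have h1 := intervalIntegral.hasDerivAt_integral_of_dominated_loc_of_deriv_le (μ := volume)
    (F := fun (b : ℂ) (θ : ℝ) => deriv (circleMap 0 s) θ • (g (circleMap 0 s θ) /
      (circleMap 0 s θ - b)))
    (F' := fun (b : ℂ) (θ : ℝ) => deriv (circleMap 0 s) θ • (g (circleMap 0 s θ) /
      (circleMap 0 s θ - b) ^ 2)) (x₀ := a) (a := 0) (b := 2 * π)
    (s := ball a δ) (bound := fun _ => |s| * (B / δ ^ 2)) (ball_mem_nhds a hδ)
    (by
      filter_upwards [ball_mem_nhds a hδ] with b hb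
      have : Continuous fun θ : ℝ => deriv (circleMap 0 s) θ • (g (circleMap 0 s θ) /
          (circleMap 0 s θ - b)) := by
        simp only [deriv_circleMap]
        exact ((continuous_circleMap 0 s).mul continuous_const).smul
          (hgc.div ((continuous_circleMap 0 s).sub continuous_const) (hne b hb))
      exact this.aestronglyMeasurable)
    (by
      have : Continuous fun θ : ℝ => deriv (circleMap 0 s) θ • (g (circleMap 0 s θ) /
          (circleMap 0 s θ - a)) := by
        simp only [deriv_circleMap]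
        exact ((continuous_circleMap 0 s).mul continuous_const).smul
          (hgc.div ((continuous_circleMap 0 s).sub continuous_const) (hne a (mem_ball_self hδ)))
      exact this.intervalIntegrable _ _)
    (by
      have : Continuous fun θ : ℝ => deriv (circleMap 0 s) θ • (g (circleMap 0 s θ) /
          (circleMap 0 s θ - a) ^ 2) := by
        simp only [deriv_circleMap]
        exact ((continuous_circleMap 0 s).mul continuous_const).smul
          (hgc.div (((continuous_circleMap 0 s).sub continuous_const).pow 2)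
            fun θ => pow_ne_zero 2 (hne a (mem_ball_self hδ) θ))
      exact this.aestronglyMeasurable)
    (by
      refine Eventually.of_forall fun θ _ b hb => ?_
      rw [norm_smul, deriv_circleMap, norm_mul, norm_circleMap_zero, Complex.norm_I, mul_one,
        norm_div, norm_pow]
      have h2 := hδb b hb θ
      have h3 := hB θ
      gcongr
      exact (norm_nonneg _).trans h3)
    intervalIntegrable_const
    (by
      refine Eventually.of_forall fun θ _ b hb => ?_
      have h2 : HasDerivAt (fun b => circleMap 0 s θ - b) (-1) b := (hasDerivAt_id b).const_sub _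
      have h3 := ((hasDerivAt_const b (g (circleMap 0 s θ))).fun_div h2 (hne b hb θ)).const_smul
        (deriv (circleMap 0 s) θ)
      refine h3.congr_deriv ?_
      congr 1
      ring)
  exact h1.2.differentiableAt

/-- the open annulus -/
def an (q : ℝ) : Set ℂ := {u | q⁻¹ < ‖u‖ ∧ ‖u‖ < q}

/-- its outer part -/
def ao (q : ℝ) : Set ℂ := {u | 1 < ‖u‖ ∧ ‖u‖ < q}

/-- its inner part -/
def ai (q : ℝ) : Set ℂ := {u | q⁻¹ < ‖u‖ ∧ ‖u‖ < 1}

lemma isOpen_an (q : ℝ) : IsOpen (an q) :=
  (isOpen_lt continuous_const continuous_norm).inter (isOpen_lt continuous_norm continuous_const)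

lemma isOpen_ao (q : ℝ) : IsOpen (ao q) :=
  (isOpen_lt continuous_const continuous_norm).inter (isOpen_lt continuous_norm continuous_const)

lemma isOpen_ai (q : ℝ) : IsOpen (ai q) :=
  (isOpen_lt continuous_const continuous_norm).inter (isOpen_lt continuous_norm continuous_const)

/-- Cauchy formula in an annulus, point inside the annulus -/
lemma cauchy_annulus {H : ℂ → ℂ} {U : Set ℂ} (hU : IsOpen U) (hH : DifferentiableOn ℂ H U)
    {t s : ℝ} (ht : 0 < t) (hsub : ∀ u, t ≤ ‖u‖ → ‖u‖ ≤ s → u ∈ U) {a : ℂ} (h1 : t < ‖a‖)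
    (h2 : ‖a‖ < s) :
    (∮ u in C(0, s), H u / (u - a)) - (∮ u in C(0, t), H u / (u - a)) = 2 * π * Complex.I * H a := by
  have hs : 0 < s := (norm_nonneg a).trans_lt h2
  have haU : a ∈ U := hsub a h1.le h2.le
  have hD : DifferentiableOn ℂ (dslope H a) U :=
    (Complex.differentiableOn_dslope (hU.mem_nhds haU)).2 hH
  have h3 : (∮ u in C(0, s), dslope H a u) = ∮ u in C(0, t), dslope H a u := by
    refine Complex.circleIntegral_eq_of_differentiable_on_annulus_off_countable ht
      (h1.trans h2).le countable_empty ?_ ?_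
    · intro u hu
      have : u ∈ U := hsub u (by simpa using hu.2) (by simpa using hu.1)
      exact (hD.continuousOn.continuousAt (hU.mem_nhds this)).continuousWithinAt
    · intro u hu
      have hu1 := hu.1.1
      have hu2 := hu.1.2
      have : u ∈ U := hsub u (by simpa using (not_le.1 (fun h => hu2 (by simpa using h))).le)
        (by simpa using (mem_ball.1 hu1).le)
      exact hD.differentiableAt (hU.mem_nhds this)
  have hne : ∀ u, ‖u‖ ≠ ‖a‖ → u ≠ a := fun u hu h => hu (by rw [h])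
  have hcs : ∀ R, 0 < R → ‖a‖ ≠ R → (∀ u ∈ sphere (0:ℂ) R, u ∈ U) →
      (∮ u in C(0, R), dslope H a u) = (∮ u in C(0, R), H u / (u - a)) -
        H a * ∮ u in C(0, R), (u - a)⁻¹ := by
    intro R hR haR hRU
    rw [← circleIntegral.integral_const_mul, ← circleIntegral.integral_sub]
    · refine circleIntegral.integral_congr hR.le fun u hu => ?_
      have hua : u ≠ a := hne u (by
        rw [mem_sphere_zero_iff_norm] at hu
        rw [hu]
        exact haR.symm)
      rw [dslope_of_ne _ hua, slope_def_field]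
      ring
    · refine ContinuousOn.circleIntegrable hR.le ?_
      refine ContinuousOn.div (hH.continuousOn.mono hRU)
        (continuousOn_id.sub continuousOn_const) fun u hu => sub_ne_zero.2 (hne u ?_)
      rw [mem_sphere_zero_iff_norm] at hu
      rw [hu]
      exact haR.symm
    · refine ContinuousOn.circleIntegrable hR.le ?_
      refine continuousOn_const.mul (ContinuousOn.inv₀
        (continuousOn_id.sub continuousOn_const) fun u hu => sub_ne_zero.2 (hne u ?_))
      rw [mem_sphere_zero_iff_norm] at hu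
      rw [hu]
      exact haR.symm
  rw [hcs s hs h2.ne (fun u hu => by
      rw [mem_sphere_zero_iff_norm] at hu
      exact hsub u (by linarith) hu.le),
    hcs t ht h1.ne' (fun u hu => by
      rw [mem_sphere_zero_iff_norm] at hu
      exact hsub u hu.ge (by linarith)),
    circleIntegral.integral_sub_inv_of_mem_ball (by simpa using h2)] at h3
  have h4 : (∮ u in C(0, t), (u - a)⁻¹) = 0 := by
    refine Complex.circleIntegral_eq_zero_of_differentiable_on_off_countable ht.le countable_empty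
      ?_ ?_
    · refine ContinuousOn.inv₀ (continuousOn_id.sub continuousOn_const) fun u hu =>
        sub_ne_zero.2 (hne u ?_)
      have : ‖u‖ ≤ t := by simpa using hu
      linarith
    · intro u hu
      have : ‖u‖ < t := by simpa using hu.1
      refine DifferentiableAt.fun_inv (differentiableAt_id.sub_const a) (sub_ne_zero.2 (hne u ?_))
      linarith
  rw [h4, mul_zero, sub_zero] at h3
  linear_combination h3

/-- the same, with the point outside of the annulus -/
lemma cauchy_annulus_zero {H : ℂ → ℂ} {U : Set ℂ} (hU : IsOpen U) (hH : DifferentiableOn ℂ H U)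
    {t s : ℝ} (ht : 0 < t) (hts : t ≤ s) (hsub : ∀ u, t ≤ ‖u‖ → ‖u‖ ≤ s → u ∈ U) {a : ℂ}
    (h1 : ‖a‖ < t ∨ s < ‖a‖) :
    (∮ u in C(0, s), H u / (u - a)) = ∮ u in C(0, t), H u / (u - a) := by
  have hne : ∀ u, t ≤ ‖u‖ → ‖u‖ ≤ s → u - a ≠ 0 := by
    intro u hu1 hu2 h
    rw [sub_eq_zero.1 h] at hu1 hu2
    rcases h1 with h1 | h1 <;> linarith
  refine Complex.circleIntegral_eq_of_differentiable_on_annulus_off_countable ht hts
    countable_empty ?_ ?_
  · intro u hu
    have e1 : t ≤ ‖u‖ := by simpa using hu.2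
    have e2 : ‖u‖ ≤ s := by simpa using hu.1
    have : ContinuousAt (fun u => H u / (u - a)) u :=
      (hH.continuousOn.continuousAt (hU.mem_nhds (hsub u e1 e2))).div
        (continuousAt_id.sub continuousAt_const) (hne u e1 e2)
    exact this.continuousWithinAt
  · intro u hu
    have e1 : t ≤ ‖u‖ := (not_le.1 (fun h => hu.1.2 (by simpa using h))).le
    have e2 : ‖u‖ ≤ s := by simpa using (mem_ball.1 hu.1.1).le
    exact (hH.differentiableAt (hU.mem_nhds (hsub u e1 e2))).fun_div
      (differentiableAt_id.sub_const a) (hne u e1 e2)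

/-- **Gluing lemma** -/
theorem glue_extend {q : ℝ} (hq : 1 < q) {H Ht : ℂ → ℂ} (hH : DifferentiableOn ℂ H (ao q))
    (hHt : DifferentiableOn ℂ Ht (ai q)) {M : ℝ}
    (hb : ∃ s > 1, ∀ u, 1 < ‖u‖ → ‖u‖ < s → ‖H u‖ ≤ M)
    (hlim : ∀ ε > 0, ∃ s > 1, ∀ u, 1 < ‖u‖ → ‖u‖ < s → ‖H u - Ht (conj u)⁻¹‖ ≤ ε) :
    ∃ Φ : ℂ → ℂ, DifferentiableOn ℂ Φ (an q) ∧ (∀ u ∈ ao q, Φ u = H u) ∧
      ∀ u ∈ ai q, Φ u = Ht u := by
  classical
  obtain ⟨s₀, hs₀, hM⟩ := hb
  have hM0 : 0 ≤ M := by
    have h1 := hM (((1 + s₀) / 2 : ℝ) : ℂ) (by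
      rw [Complex.norm_real, Real.norm_of_nonneg (by linarith)]
      linarith) (by
      rw [Complex.norm_real, Real.norm_of_nonneg (by linarith)]
      linarith)
    exact (norm_nonneg _).trans h1
  -- the error
  have herr : ∀ a : ℂ, ‖a‖ ≠ 1 → Tendsto (fun t : ℝ => (∮ u in C(0, t⁻¹), Ht u / (u - a)) -
      (∮ u in C(0, t), H u / (u - a))) (𝓝[>] 1) (𝓝 0) := by
    intro a ha
    set δ := |‖a‖ - 1| / 2 with hδ
    have hδ0 : 0 < δ := by
      have := abs_pos.2 (sub_ne_zero.2 ha)
      positivity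
    rw [Metric.tendsto_nhds]
    intro ε hε
    -- small parameters
    set η : ℝ := ε / (2 * π) / 4 with hη
    have hη0 : 0 < η := by positivity
    obtain ⟨s₁, hs₁, hs₁b⟩ := hlim (η * δ / 2) (by positivity)
    have hev1 : ∀ᶠ t : ℝ in 𝓝[>] 1, t ∈ Ioo (1:ℝ) (min (min s₀ s₁) (min q (min (1 + δ) 2))) :=
      Ioo_mem_nhdsGT (by
        simp only [lt_min_iff]
        exact ⟨⟨hs₀, hs₁⟩, hq, by linarith, by norm_num⟩)
    have hev2 : ∀ᶠ t : ℝ in 𝓝[>] 1, (M * ‖a‖ / δ ^ 2) * (t - t⁻¹) < η := by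
      have h1 : Tendsto (fun t : ℝ => (M * ‖a‖ / δ ^ 2) * (t - t⁻¹)) (𝓝 1)
          (𝓝 ((M * ‖a‖ / δ ^ 2) * (1 - 1⁻¹))) :=
        (tendsto_id.sub (tendsto_inv₀ one_ne_zero)).const_mul _
      rw [inv_one, sub_self, mul_zero] at h1
      exact (h1.mono_left nhdsWithin_le_nhds).eventually (gt_mem_nhds hη0)
    filter_upwards [hev1, hev2] with t ht1 ht2
    obtain ⟨ht, ht'⟩ := ht1
    simp only [lt_min_iff] at ht'
    obtain ⟨⟨hts₀, hts₁⟩, htq, htδ, ht2'⟩ := ht'
    have ht0 : 0 < t := by linarith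
    have hti : t⁻¹ < 1 := inv_lt_one_of_one_lt₀ ht
    have hti0 : 0 < t⁻¹ := inv_pos.2 ht0
    have hqi : q⁻¹ < t⁻¹ := inv_strictAnti₀ ht0 htq
    rw [dist_zero_right]
    have hcm : ∀ θ : ℝ, circleMap 0 t⁻¹ θ = (conj (circleMap 0 t θ))⁻¹ := by
      intro θ
      simp only [circleMap, zero_add, map_mul, Complex.conj_ofReal, mul_inv, Complex.ofReal_inv]
      congr 1
      rw [← Complex.exp_conj, ← Complex.exp_neg]
      congr 1
      simp
    have hn1 : ∀ θ : ℝ, ‖circleMap 0 t θ‖ = t := fun θ => by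
      rw [norm_circleMap_zero, abs_of_pos ht0]
    have hn2 : ∀ θ : ℝ, ‖circleMap 0 t⁻¹ θ‖ = t⁻¹ := fun θ => by
      rw [norm_circleMap_zero, abs_of_pos hti0]
    have hd1 : ∀ θ : ℝ, δ ≤ ‖circleMap 0 t θ - a‖ := by
      intro θ
      have h1 : |‖a‖ - t| ≤ ‖circleMap 0 t θ - a‖ := by
        have := abs_norm_sub_norm_le a (circleMap 0 t θ)
        rwa [hn1 θ, norm_sub_rev a] at this
      have h2 : |‖a‖ - 1| ≤ |‖a‖ - t| + |t - 1| := by
        have := abs_sub_le ‖a‖ t 1
        exact this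
      have h3 : |t - 1| = t - 1 := abs_of_pos (by linarith)
      rw [hδ] at htδ ⊢
      linarith
    have hd2 : ∀ θ : ℝ, δ ≤ ‖circleMap 0 t⁻¹ θ - a‖ := by
      intro θ
      have h1 : |‖a‖ - t⁻¹| ≤ ‖circleMap 0 t⁻¹ θ - a‖ := by
        have := abs_norm_sub_norm_le a (circleMap 0 t⁻¹ θ)
        rwa [hn2 θ, norm_sub_rev a] at this
      have h2 : |‖a‖ - 1| ≤ |‖a‖ - t⁻¹| + |t⁻¹ - 1| := abs_sub_le ‖a‖ t⁻¹ 1
      have h3 : |t⁻¹ - 1| ≤ t - 1 := by
        rw [abs_sub_comm, abs_of_pos (by linarith)]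
        have : t * t⁻¹ = 1 := mul_inv_cancel₀ ht0.ne'
        nlinarith
      rw [hδ] at htδ ⊢
      linarith
    have hc1 : Continuous fun θ : ℝ => H (circleMap 0 t θ) := by
      rw [← continuousOn_univ]
      refine hH.continuousOn.comp (continuous_circleMap 0 t).continuousOn fun θ _ => ?_
      exact ⟨by rw [hn1]; exact ht, by rw [hn1]; exact htq⟩
    have hc2 : Continuous fun θ : ℝ => Ht (circleMap 0 t⁻¹ θ) := by
      rw [← continuousOn_univ]
      refine hHt.continuousOn.comp (continuous_circleMap 0 t⁻¹).continuousOn fun θ _ => ?_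
      exact ⟨by rw [hn2]; exact hqi, by rw [hn2]; exact hti⟩
    have hne1 : ∀ θ : ℝ, circleMap 0 t θ - a ≠ 0 := fun θ =>
      norm_pos_iff.1 (hδ0.trans_le (hd1 θ))
    have hne2 : ∀ θ : ℝ, circleMap 0 t⁻¹ θ - a ≠ 0 := fun θ =>
      norm_pos_iff.1 (hδ0.trans_le (hd2 θ))
    rw [circleIntegral, circleIntegral, ← intervalIntegral.integral_sub]
    rotate_left
    · have : Continuous fun θ : ℝ => deriv (circleMap 0 t⁻¹) θ • (Ht (circleMap 0 t⁻¹ θ) /
          (circleMap 0 t⁻¹ θ - a)) := by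
        simp only [deriv_circleMap]
        exact ((continuous_circleMap 0 _).mul continuous_const).smul
          (hc2.div ((continuous_circleMap 0 _).sub continuous_const) hne2)
      exact this.intervalIntegrable _ _
    · have : Continuous fun θ : ℝ => deriv (circleMap 0 t) θ • (H (circleMap 0 t θ) /
          (circleMap 0 t θ - a)) := by
        simp only [deriv_circleMap]
        exact ((continuous_circleMap 0 _).mul continuous_const).smul
          (hc1.div ((continuous_circleMap 0 _).sub continuous_const) hne1)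
      exact this.intervalIntegrable _ _
    have hbd := intervalIntegral.norm_integral_le_of_norm_le_const (a := 0) (b := 2 * π)
      (C := 2 * η) (f := fun θ : ℝ => deriv (circleMap 0 t⁻¹) θ • (Ht (circleMap 0 t⁻¹ θ) /
          (circleMap 0 t⁻¹ θ - a)) - deriv (circleMap 0 t) θ • (H (circleMap 0 t θ) /
          (circleMap 0 t θ - a))) (by
        intro θ _
        simp only [deriv_circleMap, smul_eq_mul]
        set u := circleMap 0 t θ with hu
        set v := circleMap 0 t⁻¹ θ with hv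
        have hun : ‖u‖ = t := hn1 θ
        have hvn : ‖v‖ = t⁻¹ := hn2 θ
        have hvu : v = (conj u)⁻¹ := hcm θ
        have e : v * Complex.I * (Ht v / (v - a)) - u * Complex.I * (H u / (u - a)) =
            (v * Complex.I / (v - a)) * (Ht v - H u) +
            H u * (Complex.I * (a * (u - v) / ((v - a) * (u - a)))) := by
          have h1 : u - a ≠ 0 := hne1 θ
          have h2 : v - a ≠ 0 := hne2 θ
          field_simp
          ring
        rw [e]
        have f1 : ‖Ht v - H u‖ ≤ η * δ / 2 := by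
          rw [norm_sub_rev, hvu]
          exact hs₁b u (by rw [hun]; exact ht) (by rw [hun]; exact hts₁)
        have f2 : ‖H u‖ ≤ M := hM u (by rw [hun]; exact ht) (by rw [hun]; exact hts₀)
        have f3 : ‖u - v‖ = t - t⁻¹ := by
          have : u - v = ((t - t⁻¹ : ℝ) : ℂ) * Complex.exp (θ * Complex.I) := by
            rw [hu, hv]
            simp only [circleMap, zero_add]
            push_cast
            ring
          rw [this, norm_mul, Complex.norm_real, Real.norm_of_nonneg (by linarith),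
            Complex.norm_exp_ofReal_mul_I, mul_one]
        have g1 : ‖(v * Complex.I / (v - a)) * (Ht v - H u)‖ ≤ η := by
          rw [norm_mul, norm_div, norm_mul, Complex.norm_I, mul_one, hvn]
          have : t⁻¹ / ‖v - a‖ ≤ 1 / δ := by
            rw [div_le_div_iff₀ (hδ0.trans_le (hd2 θ)) hδ0]
            have := hd2 θ
            nlinarith
          calc t⁻¹ / ‖v - a‖ * ‖Ht v - H u‖ ≤ 1 / δ * (η * δ / 2) := by gcongr
            _ = η / 2 := by field_simp
            _ ≤ η := by linarith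
        have g2 : ‖H u * (Complex.I * (a * (u - v) / ((v - a) * (u - a))))‖ ≤ η := by
          rw [norm_mul, norm_mul, Complex.norm_I, one_mul, norm_div, norm_mul, norm_mul, f3]
          have h3 : 0 ≤ t - t⁻¹ := by linarith
          have : ‖a‖ * (t - t⁻¹) / (‖v - a‖ * ‖u - a‖) ≤ ‖a‖ * (t - t⁻¹) / (δ * δ) := by
            have h1 : δ ≤ ‖u - a‖ := hd1 θ
            have h2 : δ ≤ ‖v - a‖ := hd2 θ
            gcongr
          calc ‖H u‖ * (‖a‖ * (t - t⁻¹) / (‖v - a‖ * ‖u - a‖))
              ≤ M * (‖a‖ * (t - t⁻¹) / (δ * δ)) := mul_le_mul f2 this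
                (div_nonneg (mul_nonneg (norm_nonneg _) h3) (by positivity)) hM0
            _ = (M * ‖a‖ / δ ^ 2) * (t - t⁻¹) := by ring
            _ ≤ η := ht2.le
        calc _ ≤ _ := norm_add_le _ _
          _ ≤ 2 * η := by linarith)
    refine hbd.trans_lt ?_
    rw [sub_zero, abs_of_pos (by positivity), hη]
    field_simp
    linarith
  -- the Cauchy transform on a fixed pair of circles
  set s : ℝ := (1 + q) / 2 with hs
  have hs1 : 1 < s := by rw [hs]; linarith
  have hsq : s < q := by rw [hs]; linarith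
  have hs0 : 0 < s := by linarith
  have hsi : s⁻¹ < 1 := inv_lt_one_of_one_lt₀ hs1
  have hsi0 : 0 < s⁻¹ := inv_pos.2 hs0
  have hqsi : q⁻¹ < s⁻¹ := inv_strictAnti₀ hs0 hsq
  set Cs : ℂ → ℂ := fun a => (2 * π * Complex.I)⁻¹ * ((∮ u in C(0, s), H u / (u - a)) -
    (∮ u in C(0, s⁻¹), Ht u / (u - a))) with hCs
  have hI : (2 * π * Complex.I : ℂ) ≠ 0 := by simp [Real.pi_ne_zero]
  have hCsd : ∀ a : ℂ, s⁻¹ < ‖a‖ → ‖a‖ < s → DifferentiableAt ℂ Cs a := by
    intro a ha1 ha2
    refine DifferentiableAt.const_mul (DifferentiableAt.fun_sub ?_ ?_) _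
    · refine cauchy_transform_diff (hH.continuousOn.mono fun u hu => ?_) ?_
      · rw [mem_sphere_zero_iff_norm, abs_of_pos hs0] at hu
        exact ⟨by rw [hu]; exact hs1, by rw [hu]; exact hsq⟩
      · rw [abs_of_pos hs0]
        exact ha2.ne
    · refine cauchy_transform_diff (hHt.continuousOn.mono fun u hu => ?_) ?_
      · rw [mem_sphere_zero_iff_norm, abs_of_pos hsi0] at hu
        exact ⟨by rw [hu]; exact hqsi, by rw [hu]; exact hsi⟩
      · rw [abs_of_pos hsi0]
        exact ha1.ne'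
  have hCH : ∀ a : ℂ, 1 < ‖a‖ → ‖a‖ < s → Cs a = H a := by
    intro a ha1 ha2
    have hev : ∀ᶠ t : ℝ in 𝓝[>] 1, (∮ u in C(0, t⁻¹), Ht u / (u - a)) -
        (∮ u in C(0, t), H u / (u - a)) = 2 * π * Complex.I * (H a - Cs a) := by
      filter_upwards [Ioo_mem_nhdsGT (show (1:ℝ) < min s ‖a‖ from lt_min hs1 ha1)] with t ht
      have hts := ht.2.trans_le (min_le_left _ _)
      have hta := ht.2.trans_le (min_le_right _ _)
      have ht0 : 0 < t := one_pos.trans ht.1
      have e1 := cauchy_annulus (isOpen_ao q) hH ht0 (s := s) (fun u h1 h2 =>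
        ⟨ht.1.trans_le h1, h2.trans_lt hsq⟩) hta ha2
      have e2 := cauchy_annulus_zero (isOpen_ai q) hHt hsi0 (s := t⁻¹) (t := s⁻¹) (a := a)
        (inv_anti₀ ht0 hts.le) (fun u h1 h2 =>
        ⟨hqsi.trans_le h1, h2.trans_lt (inv_lt_one_of_one_lt₀ ht.1)⟩)
        (Or.inr ((inv_lt_one_of_one_lt₀ ht.1).trans ha1))
      rw [e2]
      have e3 : 2 * π * Complex.I * Cs a = (∮ u in C(0, s), H u / (u - a)) -
          (∮ u in C(0, s⁻¹), Ht u / (u - a)) := by
        rw [hCs]
        simp only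
        rw [← mul_assoc, mul_inv_cancel₀ hI, one_mul]
      rw [mul_sub, e3, ← e1]
      ring
    have h1 := (herr a ha1.ne').congr' hev
    have h2 := tendsto_nhds_unique h1 tendsto_const_nhds
    rcases mul_eq_zero.1 h2.symm with h3 | h3
    · exact absurd h3 hI
    · exact (sub_eq_zero.1 h3).symm
  have hCHt : ∀ a : ℂ, s⁻¹ < ‖a‖ → ‖a‖ < 1 → Cs a = Ht a := by
    intro a ha1 ha2
    have ha0 : 0 < ‖a‖ := hsi0.trans ha1
    have hev : ∀ᶠ t : ℝ in 𝓝[>] 1, (∮ u in C(0, t⁻¹), Ht u / (u - a)) -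
        (∮ u in C(0, t), H u / (u - a)) = 2 * π * Complex.I * (Ht a - Cs a) := by
      filter_upwards [Ioo_mem_nhdsGT (show (1:ℝ) < min s ‖a‖⁻¹ from
        lt_min hs1 ((one_lt_inv₀ ha0).2 ha2))] with t ht
      have hts := ht.2.trans_le (min_le_left _ _)
      have hta := ht.2.trans_le (min_le_right _ _)
      have ht0 : 0 < t := one_pos.trans ht.1
      have hat : ‖a‖ < t⁻¹ := (lt_inv_comm₀ ht0 ha0).1 hta
      have e1 := cauchy_annulus (isOpen_ai q) hHt hsi0 (s := t⁻¹) (fun u h1 h2 =>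
        ⟨hqsi.trans_le h1, h2.trans_lt (inv_lt_one_of_one_lt₀ ht.1)⟩) ha1 hat
      have e2 := cauchy_annulus_zero (isOpen_ao q) hH ht0 (s := s) (t := t) (a := a)
        hts.le (fun u h1 h2 => ⟨ht.1.trans_le h1, h2.trans_lt hsq⟩)
        (Or.inl (ha2.trans ht.1))
      have e3 : 2 * π * Complex.I * Cs a = (∮ u in C(0, s), H u / (u - a)) -
          (∮ u in C(0, s⁻¹), Ht u / (u - a)) := by
        rw [hCs]
        simp only
        rw [← mul_assoc, mul_inv_cancel₀ hI, one_mul]
      rw [mul_sub, e3, ← e1, e2]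
      ring
    have h1 := (herr a ha2.ne).congr' hev
    have h2 := tendsto_nhds_unique h1 tendsto_const_nhds
    rcases mul_eq_zero.1 h2.symm with h3 | h3
    · exact absurd h3 hI
    · exact (sub_eq_zero.1 h3).symm
  set Φ : ℂ → ℂ := fun u => if 1 < ‖u‖ then H u else if ‖u‖ < 1 then Ht u else Cs u with hΦ
  have hΦo : ∀ u, 1 < ‖u‖ → Φ u = H u := fun u hu => by simp only [hΦ, if_pos hu]
  have hΦi : ∀ u, ‖u‖ < 1 → Φ u = Ht u := fun u hu => by
    simp only [hΦ, if_neg (not_lt.2 hu.le), if_pos hu]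
  have hΦC : ∀ u, s⁻¹ < ‖u‖ → ‖u‖ < s → Φ u = Cs u := by
    intro u h1 h2
    rcases lt_trichotomy ‖u‖ 1 with h3 | h3 | h3
    · rw [hΦi u h3, hCHt u h1 h3]
    · simp only [hΦ, h3, lt_irrefl, if_false]
    · rw [hΦo u h3, hCH u h3 h2]
  refine ⟨Φ, ?_, fun u hu => hΦo u hu.1, fun u hu => hΦi u hu.2⟩
  intro u hu
  refine DifferentiableAt.differentiableWithinAt ?_
  rcases lt_trichotomy ‖u‖ 1 with h3 | h3 | h3
  · have hev : Φ =ᶠ[𝓝 u] Ht := by
      filter_upwards [(isOpen_lt continuous_norm continuous_const).mem_nhds h3] with v hv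
      exact hΦi v hv
    rw [hev.differentiableAt_iff]
    exact hHt.differentiableAt ((isOpen_ai q).mem_nhds ⟨hu.1, h3⟩)
  · have hev : Φ =ᶠ[𝓝 u] Cs := by
      filter_upwards [(isOpen_lt continuous_norm continuous_const).mem_nhds
        (show ‖u‖ < s by rw [h3]; exact hs1), (isOpen_lt continuous_const continuous_norm).mem_nhds
        (show s⁻¹ < ‖u‖ by rw [h3]; exact hsi)] with v hv1 hv2
      exact hΦC v hv2 hv1
    rw [hev.differentiableAt_iff]
    exact hCsd u (by rw [h3]; exact hsi) (by rw [h3]; exact hs1)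
  · have hev : Φ =ᶠ[𝓝 u] H := by
      filter_upwards [(isOpen_lt continuous_const continuous_norm).mem_nhds h3] with v hv
      exact hΦo v hv
    rw [hev.differentiableAt_iff]
    exact hH.differentiableAt ((isOpen_ao q).mem_nhds ⟨h3, hu.2⟩)

end Vale.Agent.P116.H906
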