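import Mathlib
import Vale.Agent.P116.H906.CMap

/-!
Filled neighbourhoods of a compact set, and their components (nodes).
-/

open Set Filter Topology Metric Bornology

namespace Vale.Agent.P116.H906

/-- radius of level `n` -/
noncomputable def lr (n : ℕ) : ℝ := 1 / ((n : ℝ) + 1)

lemma lr_pos (n : ℕ) : 0 < lr n := by unfold lr; positivity

lemma lr_anti {m n : ℕ} (h : m ≤ n) : lr n ≤ lr m := by
  unfold lr
  gcongr

/-- filled neighbourhood of level `n` -/
def lev (K : Set ℂ) (n : ℕ) : Set ℂ := fil (cthickening (lr n) K)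

/-- the component of level `n` at `x` -/
def nd (K : Set ℂ) (n : ℕ) (x : ℂ) : Set ℂ := connectedComponentIn (lev K n) x

variable {K : Set ℂ}

lemma lev_anti {m n : ℕ} (h : m ≤ n) : lev K n ⊆ lev K m :=
  fil_mono (cthickening_mono (lr_anti h) K)

lemma subset_lev (n : ℕ) : K ⊆ lev K n := (self_subset_cthickening K).trans (subset_fil _)

lemma closedBall_subset_lev {x : ℂ} (hx : x ∈ K) (n : ℕ) : closedBall x (lr n) ⊆ lev K n := by
  refine Subset.trans ?_ (subset_fil _)
  intro y hy
  exact mem_cthickening_of_dist_le y x _ K hx hy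

lemma full_lev (n : ℕ) : Full (lev K n) := full_fil _

lemma isClosed_lev (n : ℕ) : IsClosed (lev K n) := isClosed_fil isClosed_cthickening

lemma lev_bdd (hK : IsCompact K) (n : ℕ) : ∃ R > 0, lev K n ⊆ closedBall (0:ℂ) R := by
  obtain ⟨R, hR⟩ := (hK.cthickening (r := lr n)).isBounded.subset_closedBall 0
  refine ⟨max R 1, by positivity, fil_subset_closedBall (by positivity)
    (hR.trans (closedBall_subset_closedBall (le_max_left _ _)))⟩

lemma isCompact_lev (hK : IsCompact K) (n : ℕ) : IsCompact (lev K n) := by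
  obtain ⟨R, -, hR⟩ := lev_bdd hK n
  exact (isCompact_closedBall _ _).of_isClosed_subset (isClosed_lev n) hR

/-- the levels decrease to `K` -/
lemma exists_notMem_lev (hK : IsCompact K) (hf : Full K) {z : ℂ} (hz : z ∉ K) :
    ∃ n, z ∉ lev K n := by
  obtain ⟨R, hR⟩ := hK.isBounded.subset_closedBall 0
  set R' := max R ‖z‖ with hR'
  have hR0 : 0 ≤ R' := (norm_nonneg z).trans (le_max_right _ _)
  have hpc : IsPathConnected Kᶜ := by
    rw [← (hK.isClosed.isOpen_compl).isConnected_iff_isPathConnected]
    exact ⟨⟨z, hz⟩, hf.isPreconnected_compl hK.isBounded⟩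
  set z' : ℂ := ((R' + 3 : ℝ) : ℂ) with hz'
  have hnz' : ‖z'‖ = R' + 3 := by
    rw [hz', Complex.norm_real, Real.norm_of_nonneg (by linarith)]
  have hz'K : z' ∈ Kᶜ := by
    intro h
    have := hR h
    rw [mem_closedBall, dist_zero_right, hnz'] at this
    linarith [le_max_left R ‖z‖]
  obtain ⟨γ, hγ⟩ := hpc.joinedIn z hz z' hz'K
  have hcomp : IsCompact (range γ) := isCompact_range γ.continuous
  have hdis : Disjoint (range γ) K := by
    rw [disjoint_left]
    rintro _ ⟨t, rfl⟩ h
    exact hγ t h
  obtain ⟨δ, hδ, hδd⟩ := hdis.exists_cthickenings hcomp hK.isClosed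
  obtain ⟨n, hn⟩ := exists_nat_one_div_lt (lt_min hδ one_pos)
  have hn1 : lr n < δ := hn.trans_le (min_le_left _ _)
  have hn2 : lr n < 1 := hn.trans_le (min_le_right _ _)
  refine ⟨n, fun hmem => hmem ?_⟩
  have hAb : cthickening (lr n) K ⊆ closedBall 0 (R' + 1) := by
    intro y hy
    have hy' : infDist y K ≤ lr n := by
      rw [mem_cthickening_iff] at hy
      rw [infDist]
      exact ENNReal.toReal_le_of_le_ofReal (lr_pos n).le hy
    by_cases hne : K.Nonempty
    · obtain ⟨x, hx, hxy⟩ := hK.exists_infDist_eq_dist hne y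
      rw [hxy] at hy'
      have h1 := hR hx
      rw [mem_closedBall, dist_zero_right] at h1 ⊢
      have h2 := norm_sub_norm_le y x
      rw [dist_eq_norm] at hy'
      linarith [le_max_left R ‖z‖]
    · rw [not_nonempty_iff_eq_empty] at hne
      rw [hne, cthickening_empty] at hy
      exact absurd hy (notMem_empty _)
  have hC2 : IsPreconnected (closedBall (0:ℂ) (R' + 1))ᶜ :=
    isPreconnected_compl_closedBall 0 (by linarith)
  refine ⟨range γ ∪ (closedBall (0:ℂ) (R' + 1))ᶜ, ?_, ?_, ?_, ?_⟩
  · refine IsPreconnected.union z' ⟨1, γ.target⟩ ?_ (isPreconnected_range γ.continuous) hC2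
    rw [mem_compl_iff, mem_closedBall, dist_zero_right, hnz']
    linarith
  · exact Or.inl ⟨0, γ.source⟩
  · refine Disjoint.union_left ?_ (disjoint_compl_left.mono_right hAb)
    exact hδd.mono (self_subset_cthickening _) (cthickening_mono hn1.le K)
  · intro h
    exact not_isBounded_compl_closedBall (0:ℂ) (R' + 1) (h.subset subset_union_right)

lemma exists_lev_disjoint (hK : IsCompact K) (hf : Full K) {E : Set ℂ} (hE : IsCompact E)
    (hEK : Disjoint E K) : ∃ n, ∀ m ≥ n, Disjoint E (lev K m) := by
  have h1 : ∀ z ∈ E, ∃ n, ∀ᶠ y in 𝓝 z, y ∉ lev K n := by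
    intro z hz
    obtain ⟨n, hn⟩ := exists_notMem_lev hK hf (disjoint_left.1 hEK hz)
    exact ⟨n, (isClosed_lev n).isOpen_compl.mem_nhds hn⟩
  have h2 : ∃ n, ∀ y ∈ E, y ∉ lev K n := by
    refine hE.induction_on (p := fun A => ∃ n, ∀ y ∈ A, y ∉ lev K n) ⟨0, by simp⟩ ?_ ?_ ?_
    · rintro A B hAB ⟨n, hn⟩
      exact ⟨n, fun y hy => hn y (hAB hy)⟩
    · rintro A B ⟨n, hn⟩ ⟨m, hm⟩
      refine ⟨max n m, ?_⟩
      rintro y (hy | hy) h
      · exact hn y hy (lev_anti (le_max_left _ _) h)
      · exact hm y hy (lev_anti (le_max_right _ _) h)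
    · intro z hz
      obtain ⟨n, hn⟩ := h1 z hz
      exact ⟨{y | y ∉ lev K n}, mem_nhdsWithin_of_mem_nhds hn, n, fun y hy => hy⟩
  obtain ⟨n, hn⟩ := h2
  exact ⟨n, fun m hm => disjoint_left.2 fun y hy h => hn y hy (lev_anti hm h)⟩

lemma iInter_lev (hK : IsCompact K) (hf : Full K) : ⋂ n, lev K n = K := by
  apply Subset.antisymm
  · intro z hz
    by_contra h
    obtain ⟨n, hn⟩ := exists_notMem_lev hK hf h
    exact hn (mem_iInter.1 hz n)
  · exact subset_iInter fun n => subset_lev n

/-! ### components -/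

lemma nd_subset (n : ℕ) (x : ℂ) : nd K n x ⊆ lev K n := connectedComponentIn_subset _ _

lemma isPreconnected_nd (n : ℕ) (x : ℂ) : IsPreconnected (nd K n x) :=
  isPreconnected_connectedComponentIn

lemma mem_nd {x : ℂ} (hx : x ∈ K) (n : ℕ) : x ∈ nd K n x :=
  mem_connectedComponentIn (subset_lev n hx)

lemma isCompact_comp {A : Set ℂ} (hA : IsCompact A) (x : ℂ) :
    IsCompact (connectedComponentIn A x) := by
  by_cases hx : x ∈ A
  · have hcl : closure (connectedComponentIn A x) ⊆ connectedComponentIn A x := by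
      refine IsPreconnected.subset_connectedComponentIn
        isPreconnected_connectedComponentIn.closure
        (subset_closure (mem_connectedComponentIn hx)) ?_
      exact closure_minimal (connectedComponentIn_subset _ _) hA.isClosed
    exact hA.of_isClosed_subset (closure_subset_iff_isClosed.1 hcl) (connectedComponentIn_subset _ _)
  · rw [connectedComponentIn_eq_empty hx]
    exact isCompact_empty

lemma isCompact_nd (hK : IsCompact K) (n : ℕ) (x : ℂ) : IsCompact (nd K n x) :=
  isCompact_comp (isCompact_lev hK n) x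

lemma closedBall_subset_nd {x y : ℂ} (hx : x ∈ K) {n : ℕ} (hxy : x ∈ nd K n y) :
    closedBall x (lr n) ⊆ nd K n y := by
  have h1 : nd K n y = nd K n x := (connectedComponentIn_eq hxy)
  rw [h1]
  exact (convex_closedBall _ _).isPreconnected.subset_connectedComponentIn
    (mem_closedBall_self (lr_pos n).le) (closedBall_subset_lev hx n)

lemma nd_anti {x : ℂ} {m n : ℕ} (h : m ≤ n) : nd K n x ⊆ nd K m x :=
  connectedComponentIn_mono _ (lev_anti h)

lemma nd_eq {x y : ℂ} {n : ℕ} (h : y ∈ nd K n x) : nd K n y = nd K n x :=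
  (connectedComponentIn_eq h).symm

lemma frontier_nd_disjoint (n : ℕ) (y : ℂ) : Disjoint (frontier (nd K n y)) K := by
  rw [disjoint_left]
  intro x hx hxK
  by_cases hxy : x ∈ nd K n y
  · refine hx.2 (mem_interior.2 ⟨ball x (lr n), ?_, isOpen_ball, mem_ball_self (lr_pos n)⟩)
    exact ball_subset_closedBall.trans (closedBall_subset_nd hxK hxy)
  · have h1 : x ∈ closure (nd K n y) := hx.1
    rw [Metric.mem_closure_iff] at h1
    obtain ⟨z, hz, hxz⟩ := h1 (lr n) (lr_pos n)
    have h2 : z ∈ nd K n x := closedBall_subset_nd hxK (mem_nd hxK n) (by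
      rw [mem_closedBall, dist_comm]
      exact hxz.le)
    have h3 : nd K n y = nd K n x := (nd_eq hz).symm.trans (nd_eq h2)
    exact hxy (h3 ▸ mem_nd hxK n)

/-- nested compact connected sets -/
lemma isPreconnected_iInter_nested {A : ℕ → Set ℂ} (hA : ∀ n, IsCompact (A n))
    (hc : ∀ n, IsPreconnected (A n)) (hanti : ∀ m n, m ≤ n → A n ⊆ A m) :
    IsPreconnected (⋂ n, A n) := by
  have hcl : IsClosed (⋂ n, A n) := isClosed_iInter fun n => (hA n).isClosed
  rw [isPreconnected_iff_subset_of_fully_disjoint_closed hcl]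
  intro u v hu hv huv hd
  have hcomp : IsCompact (⋂ n, A n) := (hA 0).of_isClosed_subset hcl (iInter_subset _ 0)
  obtain ⟨U, V, hU, hV, hUs, hVs, hUV⟩ := SeparatedNhds.of_isCompact_isCompact
    (hcomp.inter_right hu) (hcomp.inter_right hv)
    (hd.mono inter_subset_right inter_subset_right)
  obtain ⟨n, hn⟩ := exists_subset_nhds_of_isCompact (V := A)
    (directed_of_isDirected_le fun m n h => hanti m n h) hA (U := U ∪ V) (fun x hx => by
      refine (hU.union hV).mem_nhds ?_
      rcases huv hx with h | h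
      · exact Or.inl (hUs ⟨hx, h⟩)
      · exact Or.inr (hVs ⟨hx, h⟩))
  have h2 := isPreconnected_iff_subset_of_disjoint.1 (hc n) U V hU hV hn (by
    rw [hUV.inter_eq, inter_empty])
  rcases h2 with h2 | h2
  · left
    intro x hx
    rcases huv hx with h | h
    · exact h
    · exact absurd (hVs ⟨hx, h⟩) (disjoint_left.1 hUV (h2 (mem_iInter.1 hx n)))
  · right
    intro x hx
    rcases huv hx with h | h
    · exact absurd (h2 (mem_iInter.1 hx n)) (disjoint_left.1 hUV (hUs ⟨hx, h⟩))
    · exact h

lemma iInter_nd (hK : IsCompact K) (hf : Full K) {x : ℂ} (hx : x ∈ K) :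
    ⋂ n, nd K n x = connectedComponentIn K x := by
  apply Subset.antisymm
  · refine IsPreconnected.subset_connectedComponentIn (isPreconnected_iInter_nested
      (fun n => isCompact_nd hK n x) (fun n => isPreconnected_nd n x) (fun m n h => nd_anti h))
      (mem_iInter.2 fun n => mem_nd hx n) ?_
    exact (iInter_mono fun n => nd_subset n x).trans (iInter_lev hK hf).subset
  · exact subset_iInter fun n => connectedComponentIn_mono _ (subset_lev n)

lemma exists_nd_subset (hK : IsCompact K) (hf : Full K) {x : ℂ} (hx : x ∈ K) {W : Set ℂ}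
    (hW : IsOpen W) (hKW : connectedComponentIn K x ⊆ W) : ∃ n, nd K n x ⊆ W := by
  refine exists_subset_nhds_of_isCompact (V := fun n => nd K n x)
    (directed_of_isDirected_le fun m n h => nd_anti h) (fun n => isCompact_nd hK n x) ?_
  intro y hy
  rw [iInter_nd hK hf hx] at hy
  exact hW.mem_nhds (hKW hy)

/-- the finite set of nodes of level `n` -/
def nodes (K : Set ℂ) (n : ℕ) : Set (Set ℂ) := nd K n '' K

lemma finite_nodes (hK : IsCompact K) (n : ℕ) : (nodes K n).Finite := by
  obtain ⟨t, htK, htf, htc⟩ := hK.finite_cover_balls (lr_pos n)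
  refine (htf.image (nd K n)).subset ?_
  rintro _ ⟨x, hx, rfl⟩
  obtain ⟨y, hy, hxy⟩ := mem_iUnion₂.1 (htc hx)
  refine ⟨y, hy, ?_⟩
  have h1 : x ∈ nd K n y := closedBall_subset_nd (htK hy) (mem_nd (htK hy) n)
    (ball_subset_closedBall hxy)
  exact (nd_eq h1).symm

/-- every point of a level is in a node -/
lemma exists_node (hK : IsCompact K) {n : ℕ} {z : ℂ} (hz : z ∈ lev K n) :
    ∃ x ∈ K, z ∈ nd K n x := by
  set A := cthickening (lr n) K with hA
  have hAc : IsCompact A := hK.cthickening
  have key : ∀ y ∈ A, ∃ x ∈ K, y ∈ nd K n x := by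
    intro y hy
    have hne : K.Nonempty := by
      by_contra h
      rw [not_nonempty_iff_eq_empty] at h
      rw [hA, h, cthickening_empty] at hy
      exact hy
    obtain ⟨x, hx, hxy⟩ := hK.exists_infDist_eq_dist hne y
    have h1 : infDist y K ≤ lr n := by
      rw [hA, mem_cthickening_iff] at hy
      rw [infDist]
      exact ENNReal.toReal_le_of_le_ofReal (lr_pos n).le hy
    rw [hxy] at h1
    exact ⟨x, hx, closedBall_subset_nd hx (mem_nd hx n) h1⟩
  by_cases hzA : z ∈ A
  · exact key z hzA
  -- component of the complement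
  set C := connectedComponentIn Aᶜ z with hC
  have hzC : z ∈ C := mem_connectedComponentIn hzA
  have hCA : C ⊆ Aᶜ := connectedComponentIn_subset _ _
  have hCb : Bornology.IsBounded C := by
    by_contra h
    exact hz ⟨C, isPreconnected_connectedComponentIn, hzC,
      disjoint_left.2 fun w hw => hCA hw, h⟩
  have hCf : C ⊆ lev K n := by
    intro y hy hesc
    obtain ⟨D, h1, hy2, hd, h2⟩ := hesc
    refine hz ⟨C ∪ D, isPreconnected_connectedComponentIn.union y hy hy2 h1, Or.inl hzC, ?_, ?_⟩
    · exact Disjoint.union_left (disjoint_left.2 fun w hw => hCA hw) hd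
    · exact fun h => h2 (h.subset subset_union_right)
  have hfr : (frontier C).Nonempty := by
    rw [nonempty_iff_ne_empty]
    intro h
    rcases (frontier_eq_empty_iff.1 h) with h1 | h1
    · rw [h1] at hzC
      exact hzC
    · rw [h1] at hCb
      exact (NormedSpace.unbounded_univ ℝ ℂ) hCb
  obtain ⟨y, hy⟩ := hfr
  have hyA : y ∈ A := by
    by_contra hyA
    have hyCl : y ∈ closure C := hy.1
    have h1 : insert y C ⊆ C := by
      refine IsPreconnected.subset_connectedComponentIn ?_ (mem_insert_of_mem _ hzC)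
        (insert_subset hyA hCA)
      exact isPreconnected_connectedComponentIn.subset_closure (subset_insert _ _)
        (insert_subset hyCl subset_closure)
    have h2 : IsOpen C := (hAc.isClosed.isOpen_compl).connectedComponentIn
    rw [h2.frontier_eq] at hy
    exact hy.2 (h1 (mem_insert _ _))
  obtain ⟨x, hx, hxy⟩ := key y hyA
  refine ⟨x, hx, ?_⟩
  rw [← nd_eq hxy]
  have h3 : closure C ⊆ lev K n := closure_minimal hCf (isClosed_lev n)
  exact isPreconnected_connectedComponentIn.closure.subset_connectedComponentIn hy.1 h3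
    (subset_closure hzC)

lemma lev_eq (hK : IsCompact K) (n : ℕ) : lev K n = ⋃ Q ∈ nodes K n, Q := by
  apply Subset.antisymm
  · intro z hz
    obtain ⟨x, hx, h⟩ := exists_node hK hz
    exact mem_iUnion₂.2 ⟨nd K n x, ⟨x, hx, rfl⟩, h⟩
  · refine iUnion₂_subset ?_
    rintro _ ⟨x, hx, rfl⟩
    exact nd_subset n x

/-- a closed saturated part of a full set is full -/
lemma full_of_saturated {A B : Set ℂ} (hA : IsClosed A) (hAf : Full A) (hB : IsClosed B)
    (hBA : B ⊆ A) (hsat : ∀ x ∈ B, connectedComponentIn A x ⊆ B) : Full B := by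
  intro z hz
  by_cases hzA : z ∉ A
  · exact (hAf z hzA).mono hBA
  set V := connectedComponentIn Bᶜ z with hV
  have hzV : z ∈ V := mem_connectedComponentIn hz
  have hVB : V ⊆ Bᶜ := connectedComponentIn_subset _ _
  by_cases hVb : Bornology.IsBounded V
  swap
  · exact ⟨V, isPreconnected_connectedComponentIn, hzV, disjoint_left.2 fun w hw => hVB hw, hVb⟩
  exfalso
  have hVo : IsOpen V := hB.isOpen_compl.connectedComponentIn
  have hfrB : frontier V ⊆ B := by
    intro y hy
    by_contra hyB
    have h1 : insert y V ⊆ V := by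
      refine IsPreconnected.subset_connectedComponentIn ?_ (mem_insert_of_mem _ hzV)
        (insert_subset hyB hVB)
      exact isPreconnected_connectedComponentIn.subset_closure (subset_insert _ _)
        (insert_subset hy.1 subset_closure)
    rw [hVo.frontier_eq] at hy
    exact hy.2 (h1 (mem_insert _ _))
  have hVA : V ⊆ A := by
    intro y hy
    by_contra hyA
    obtain ⟨C, h1, hyC, hd, h2⟩ := hAf y hyA
    have h3 : C ⊆ V := by
      refine subset_of_frontier_disjoint h1 ⟨y, hyC, hy⟩ ?_
      exact hd.mono_right (hfrB.trans hBA)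
    exact h2 (hVb.subset h3)
  have hfr : (frontier V).Nonempty := by
    rw [nonempty_iff_ne_empty]
    intro h
    rcases (frontier_eq_empty_iff.1 h) with h1 | h1
    · rw [h1] at hzV
      exact hzV
    · rw [h1] at hVb
      exact (NormedSpace.unbounded_univ ℝ ℂ) hVb
  obtain ⟨y, hy⟩ := hfr
  have h4 : closure V ⊆ connectedComponentIn A y :=
    isPreconnected_connectedComponentIn.closure.subset_connectedComponentIn hy.1
      (closure_minimal hVA hA)
  exact hz (hsat y (hfrB hy) (h4 (subset_closure hzV)))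

end Vale.Agent.P116.H906
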