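import Mathlib
import Vale.Agent.P116.H906.Erm
import Vale.Agent.P116.H906.Glue
import Vale.Agent.P116.H906.Nodes
import Vale.Agent.P142.JetsDeriv

/-!
Collars of the holes.
-/

open Filter Topology Set Metric Bornology
open scoped Real ComplexConjugate

namespace Vale.Agent.P116.H906

/-- inverse of an injective analytic function -/
lemma inv_hasDerivAt {U : Set ℂ} (hU : IsOpen U) {g : ℂ → ℂ} (hd : DifferentiableOn ℂ g U)
    (hinj : InjOn g U) {z : ℂ} (hz : z ∈ U) :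
    HasDerivAt (Function.invFunOn g U) (deriv g z)⁻¹ (g z) := by
  have hne : deriv g z ≠ 0 := Vale.Agent.P142.injOn_deriv_ne_zero hU hd hinj hz
  have han : AnalyticAt ℂ g z := (hd.analyticOnNhd hU) z hz
  have hs : HasStrictDerivAt g (deriv g z) z := han.hasStrictDerivAt
  have h1 := hs.to_localInverse (hf' := hne)
  have h2 : HasDerivAt (hs.localInverse g (deriv g z) z hne) (deriv g z)⁻¹ (g z) := h1.hasDerivAt
  refine h2.congr_of_eventuallyEq ?_
  have h3 : hs.localInverse g (deriv g z) z hne (g z) = z :=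
    HasStrictFDerivAt.localInverse_apply_image ..
  have h4 : ∀ᶠ w in 𝓝 (g z), hs.localInverse g (deriv g z) z hne w ∈ U := by
    have := h2.continuousAt
    rw [ContinuousAt, h3] at this
    exact this.eventually (hU.mem_nhds hz)
  have h5 : ∀ᶠ w in 𝓝 (g z), g (hs.localInverse g (deriv g z) z hne w) = w :=
    HasStrictDerivAt.eventually_right_inverse ..
  filter_upwards [h4, h5] with w hw1 hw2
  have hwim : w ∈ g '' U := ⟨_, hw1, hw2⟩
  have h6 := Function.invFunOn_mem hwim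
  have h7 := Function.invFunOn_eq hwim
  exact hinj h6 hw1 (h7.trans hw2.symm)

lemma inv_diff {U : Set ℂ} (hU : IsOpen U) {g : ℂ → ℂ} (hd : DifferentiableOn ℂ g U)
    (hinj : InjOn g U) : DifferentiableOn ℂ (Function.invFunOn g U) (g '' U) := by
  rintro _ ⟨z, hz, rfl⟩
  exact (inv_hasDerivAt hU hd hinj hz).differentiableAt.differentiableWithinAt

/-- collars of the holes -/
structure Collar (S : Set (Set ℂ)) (ψ : {P // P ∈ S} → ℂ → ℂ) (q : ℝ) : Prop where
  q1 : 1 < q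
  diff : ∀ k, DifferentiableOn ℂ (ψ k) (ao q)
  maps : ∀ k, ∀ u ∈ ao q, ψ k u ∈ (⋃₀ S)ᶜ
  inj : ∀ k, InjOn (ψ k) (ao q)
  disj : ∀ k l, k ≠ l → Disjoint (ψ k '' ao q) (ψ l '' ao q)
  near : ∀ k, ∀ N : Set ℂ, IsOpen N → k.1 ⊆ N → ∃ s > 1, ∀ u ∈ ao q, ‖u‖ < s → ψ k u ∈ N
  conv : ∀ k, ∀ s > 1, ∃ N : Set ℂ, IsOpen N ∧ k.1 ⊆ N ∧
    ∀ z ∈ N ∩ (⋃₀ S)ᶜ, ∃ u ∈ ao q, ‖u‖ < s ∧ ψ k u = z

lemma Adm.comp_subset {S : Set (Set ℂ)} (h : Adm S) {P : Set ℂ} (hP : P ∈ S) {x : ℂ}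
    (hx : x ∈ P) : connectedComponentIn (⋃₀ S) x ⊆ P := by
  have h1 : IsClosed (⋃₀ (S \ {P})) :=
    ((h.fin.subset sdiff_subset).isCompact_sUnion fun Q hQ => h.cpt Q hQ.1).isClosed
  have h2 : Disjoint P (⋃₀ (S \ {P})) := by
    rw [disjoint_left]
    rintro z hz ⟨Q, ⟨hQ, hne⟩, hzQ⟩
    exact disjoint_left.1 (h.disj Q hQ P hP hne) hzQ hz
  have h3 : connectedComponentIn (⋃₀ S) x ⊆ P ∪ ⋃₀ (S \ {P}) := by
    refine (connectedComponentIn_subset _ _).trans ?_
    rintro z ⟨Q, hQ, hzQ⟩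
    by_cases hQP : Q = P
    · exact Or.inl (hQP ▸ hzQ)
    · exact Or.inr ⟨Q, ⟨hQ, hQP⟩, hzQ⟩
  have h4 := isPreconnected_iff_subset_of_disjoint_closed.1
    (isPreconnected_connectedComponentIn (F := ⋃₀ S) (x := x)) P _ (h.cpt P hP).isClosed h1 h3 (by
      rw [h2.inter_eq, inter_empty])
  rcases h4 with h4 | h4
  · exact h4
  · exfalso
    have hxS : x ∈ ⋃₀ S := ⟨P, hP, hx⟩
    exact disjoint_left.1 h2 hx (h4 (mem_connectedComponentIn hxS))

lemma Adm.full_hole {S : Set (Set ℂ)} (h : Adm S) {P : Set ℂ} (hP : P ∈ S) : Full P :=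
  full_of_saturated h.isCompact.isClosed h.full (h.cpt P hP).isClosed (subset_sUnion_of_mem hP)
    fun _ hx => h.comp_subset hP hx

/-- disjoint neighbourhoods of finitely many disjoint compact sets -/
lemma Adm.nbhds {S : Set (Set ℂ)} (h : Adm S) : ∃ N : {P // P ∈ S} → Set ℂ,
    (∀ k, IsOpen (N k)) ∧ (∀ k, k.1 ⊆ N k) ∧ ∀ k l, k ≠ l → Disjoint (N k) (N l) := by
  classical
  have : Finite {P // P ∈ S} := h.fin
  have hpair : ∀ k l : {P // P ∈ S}, ∃ A B : Set ℂ, IsOpen A ∧ IsOpen B ∧ k.1 ⊆ A ∧ l.1 ⊆ B ∧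
      (k ≠ l → Disjoint A B) := by
    intro k l
    by_cases hkl : k = l
    · exact ⟨univ, univ, isOpen_univ, isOpen_univ, subset_univ _, subset_univ _,
        fun h => absurd hkl h⟩
    · obtain ⟨A, B, hA, hB, hkA, hlB, hAB⟩ := SeparatedNhds.of_isCompact_isCompact
        (h.cpt k.1 k.2) (h.cpt l.1 l.2) (h.disj k.1 k.2 l.1 l.2 fun h => hkl (Subtype.ext h))
      exact ⟨A, B, hA, hB, hkA, hlB, fun _ => hAB⟩
  choose A B hA hB hkA hlB hAB using hpair
  refine ⟨fun k => (⋂ l, A k l) ∩ ⋂ l, B l k, fun k => ?_, fun k => ?_, fun k l hkl => ?_⟩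
  · exact (isOpen_iInter_of_finite fun l => hA k l).inter (isOpen_iInter_of_finite fun l => hB l k)
  · exact subset_inter (subset_iInter fun l => hkA k l) (subset_iInter fun l => hlB l k)
  · refine (hAB k l hkl).mono ?_ ?_
    · exact inter_subset_left.trans (iInter_subset _ l)
    · exact inter_subset_right.trans (iInter_subset _ k)

/-- existence of collars -/
theorem exists_collar {S : Set (Set ℂ)} (h : Adm S) :
    ∃ (ψ : {P // P ∈ S} → ℂ → ℂ) (q : ℝ), Collar S ψ q := by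
  classical
  have hfin : Finite {P // P ∈ S} := h.fin
  have hext : ∀ k : {P // P ∈ S}, ∃ (f : ℂ → ℂ) (c : ℂ) (r : ℝ), 0 < r ∧ NU (k.1)ᶜ f ∧
      f '' (k.1)ᶜ = (closedBall c r)ᶜ := fun k =>
    exists_ext (h.cpt k.1 k.2) (h.conn k.1 k.2) (h.full_hole k.2) (h.nontriv k.1 k.2)
  choose f c r hr hf him using hext
  have hrC : ∀ k, (r k : ℂ) ≠ 0 := fun k => by exact_mod_cast (hr k).ne'
  have hko : ∀ k : {P // P ∈ S}, IsOpen (k.1)ᶜ := fun k => (h.cpt k.1 k.2).isClosed.isOpen_compl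
  -- normalised maps
  set G : {P // P ∈ S} → ℂ → ℂ := fun k z => (f k z - c k) / r k with hG
  have hGd : ∀ k, DifferentiableOn ℂ (G k) (k.1)ᶜ := fun k => ((hf k).diff.sub_const _).div_const _
  have hGinj : ∀ k, InjOn (G k) (k.1)ᶜ := by
    intro k z hz w hw hzw
    rw [hG] at hzw
    simp only at hzw
    rw [div_left_inj' (hrC k)] at hzw
    exact (hf k).inj hz hw (sub_left_injective hzw)
  have hG1 : ∀ k, ∀ z ∈ (k.1)ᶜ, 1 < ‖G k z‖ := by
    intro k z hz
    have h1 : f k z ∈ (closedBall (c k) (r k))ᶜ := by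
      rw [← him]
      exact ⟨z, hz, rfl⟩
    rw [mem_compl_iff, mem_closedBall, dist_eq_norm, not_le] at h1
    rw [hG]
    simp only
    rw [norm_div, Complex.norm_real, Real.norm_of_nonneg (hr k).le, one_lt_div (hr k)]
    exact h1
  have hGim : ∀ k, G k '' (k.1)ᶜ = {u | 1 < ‖u‖} := by
    intro k
    apply Subset.antisymm
    · rintro _ ⟨z, hz, rfl⟩
      exact hG1 k z hz
    · intro u hu
      have h1 : c k + r k * u ∈ f k '' (k.1)ᶜ := by
        rw [him, mem_compl_iff, mem_closedBall, dist_eq_norm, add_sub_cancel_left, norm_mul,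
          Complex.norm_real, Real.norm_of_nonneg (hr k).le, not_le]
        have : (1:ℝ) < ‖u‖ := hu
        nlinarith [hr k]
      obtain ⟨z, hz, hzu⟩ := h1
      refine ⟨z, hz, ?_⟩
      rw [hG]
      simp only
      rw [hzu, add_sub_cancel_left, mul_div_cancel_left₀ _ (hrC k)]
  set ψ : {P // P ∈ S} → ℂ → ℂ := fun k => Function.invFunOn (G k) (k.1)ᶜ with hψ
  have hψd : ∀ k, DifferentiableOn ℂ (ψ k) {u | 1 < ‖u‖} := by
    intro k
    rw [← hGim k]
    exact inv_diff (hko k) (hGd k) (hGinj k)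
  have hψm : ∀ k, ∀ u, 1 < ‖u‖ → ψ k u ∈ (k.1)ᶜ ∧ G k (ψ k u) = u := by
    intro k u hu
    have h1 : u ∈ G k '' (k.1)ᶜ := by
      rw [hGim]
      exact hu
    exact ⟨Function.invFunOn_mem h1, Function.invFunOn_eq h1⟩
  have hψG : ∀ k, ∀ z ∈ (k.1)ᶜ, ψ k (G k z) = z := by
    intro k z hz
    have h1 := hψm k (G k z) (hG1 k z hz)
    exact hGinj k h1.1 hz h1.2
  -- near property
  have hnear : ∀ k, ∀ N : Set ℂ, IsOpen N → k.1 ⊆ N → ∃ s > 1, ∀ u, 1 < ‖u‖ → ‖u‖ < s →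
      ψ k u ∈ N := by
    intro k N hN hkN
    -- outside a large ball
    obtain ⟨R, hR⟩ : ∃ R : ℝ, ∀ z, R < ‖z‖ → 2 < ‖G k z‖ := by
      have h1 := (hf k).tendsto_inv (c k)
      have h2 : ∀ᶠ z in cobounded ℂ, ‖(f k z - c k)⁻¹‖ < (2 * r k)⁻¹ := by
        have h3 := h1.norm
        rw [norm_zero] at h3
        exact h3.eventually (gt_mem_nhds (inv_pos.2 (by have := hr k; positivity)))
      have h4 : ∀ᶠ z : ℂ in cobounded ℂ, z ∈ (k.1)ᶜ := by
        have := (h.cpt k.1 k.2).isBounded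
        rwa [isBounded_def] at this
      have h5 : ∀ᶠ z : ℂ in cobounded ℂ, 2 < ‖G k z‖ := by
        filter_upwards [h2, h4] with z hz hz4
        have h6 := hG1 k z hz4
        rw [norm_inv] at hz
        have h7 : 0 < ‖f k z - c k‖ := by
          rw [hG] at h6
          simp only at h6
          rw [norm_div, Complex.norm_real, Real.norm_of_nonneg (hr k).le, one_lt_div (hr k)] at h6
          exact (hr k).trans h6
        have h8 := (inv_lt_inv₀ h7 (by have := hr k; positivity)).1 hz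
        rw [hG]
        simp only
        rw [norm_div, Complex.norm_real, Real.norm_of_nonneg (hr k).le, lt_div_iff₀ (hr k)]
        exact h8
      rw [← comap_norm_atTop, eventually_comap] at h5
      obtain ⟨R, hR⟩ := eventually_atTop.1 h5
      exact ⟨R, fun z hz => hR _ hz.le z rfl⟩
    by_cases hne : (Nᶜ ∩ closedBall (0:ℂ) R).Nonempty
    · have hcomp : IsCompact (Nᶜ ∩ closedBall (0:ℂ) R) :=
        (isCompact_closedBall _ _).inter_left hN.isClosed_compl
      have hsub : Nᶜ ∩ closedBall (0:ℂ) R ⊆ (k.1)ᶜ := fun z hz hzk => hz.1 (hkN hzk)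
      obtain ⟨z₀, hz₀, hmin⟩ := hcomp.exists_isMinOn hne
        ((hGd k).continuousOn.mono hsub).norm
      have h1 := hG1 k z₀ (hsub hz₀)
      refine ⟨min 2 ‖G k z₀‖, lt_min one_lt_two h1, fun u hu1 hu2 => ?_⟩
      by_contra hcon
      obtain ⟨h2, h3⟩ := hψm k u hu1
      by_cases hb : ψ k u ∈ closedBall (0:ℂ) R
      · have h4 : ‖G k z₀‖ ≤ ‖G k (ψ k u)‖ := hmin ⟨hcon, hb⟩
        rw [h3] at h4
        linarith [min_le_right 2 ‖G k z₀‖]
      · rw [mem_closedBall, dist_zero_right, not_le] at hb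
        have h4 := hR _ hb
        rw [h3] at h4
        linarith [min_le_left 2 ‖G k z₀‖]
    · refine ⟨2, one_lt_two, fun u hu1 hu2 => ?_⟩
      by_contra hcon
      obtain ⟨h2, h3⟩ := hψm k u hu1
      have hb : ψ k u ∉ closedBall (0:ℂ) R := fun hb => hne ⟨_, hcon, hb⟩
      rw [mem_closedBall, dist_zero_right, not_le] at hb
      have h4 := hR _ hb
      rw [h3] at h4
      linarith
  obtain ⟨N, hNo, hkN, hNd⟩ := h.nbhds
  have hs : ∀ k, ∃ s > 1, ∀ u, 1 < ‖u‖ → ‖u‖ < s → ψ k u ∈ N k := fun k =>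
    hnear k (N k) (hNo k) (hkN k)
  choose s hs1 hsN using hs
  obtain ⟨q, hq1, hqs⟩ : ∃ q > 1, ∀ k, q ≤ s k := by
    have := Fintype.ofFinite {P // P ∈ S}
    by_cases hne : Nonempty {P // P ∈ S}
    · refine ⟨Finset.univ.inf' Finset.univ_nonempty s, ?_, fun k => Finset.inf'_le _ (by simp)⟩
      rw [gt_iff_lt, Finset.lt_inf'_iff]
      exact fun k _ => hs1 k
    · exact ⟨2, one_lt_two, fun k => absurd ⟨k⟩ hne⟩
  have hψN : ∀ k, ∀ u ∈ ao q, ψ k u ∈ N k := fun k u hu =>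
    hsN k u hu.1 (hu.2.trans_le (hqs k))
  refine ⟨ψ, q, hq1, fun k => (hψd k).mono fun u hu => hu.1, ?_, ?_, ?_, ?_, ?_⟩
  · rintro k u hu ⟨P, hP, hz⟩
    by_cases hPk : (⟨P, hP⟩ : {P // P ∈ S}) = k
    · subst hPk
      exact (hψm ⟨P, hP⟩ u hu.1).1 hz
    · exact disjoint_left.1 (hNd ⟨P, hP⟩ k hPk) (hkN ⟨P, hP⟩ hz) (hψN k u hu)
  · intro k u hu v hv huv
    rw [← (hψm k u hu.1).2, ← (hψm k v hv.1).2, huv]
  · intro k l hkl
    refine (hNd k l hkl).mono ?_ ?_
    · rintro _ ⟨u, hu, rfl⟩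
      exact hψN k u hu
    · rintro _ ⟨u, hu, rfl⟩
      exact hψN l u hu
  · intro k M hM hkM
    obtain ⟨t, ht, htM⟩ := hnear k M hM hkM
    exact ⟨t, ht, fun u hu hut => htM u hu.1 hut⟩
  · intro k t ht
    set t' := min t q with ht'
    have ht'1 : 1 < t' := lt_min ht hq1
    refine ⟨interior {z | z ∈ k.1 ∨ ‖G k z‖ < t'}, isOpen_interior, ?_, ?_⟩
    · intro x hx
      rw [mem_interior_iff_mem_nhds]
      have h1 : Tendsto (fun z => ‖f k z - c k‖) (𝓝[(k.1)ᶜ] x) (𝓝 (r k)) := by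
        refine ext_lim (h.cpt k.1 k.2) (hf k) (him k) hx ?_ self_mem_nhdsWithin
        exact tendsto_id.mono_left nhdsWithin_le_nhds
      have h2 : ∀ᶠ z in 𝓝[(k.1)ᶜ] x, ‖f k z - c k‖ < t' * r k := by
        refine h1.eventually (gt_mem_nhds ?_)
        nlinarith [hr k]
      rw [eventually_nhdsWithin_iff] at h2
      filter_upwards [h2] with z hz
      by_cases hzk : z ∈ k.1
      · exact Or.inl hzk
      · right
        rw [hG]
        simp only
        rw [norm_div, Complex.norm_real, Real.norm_of_nonneg (hr k).le, div_lt_iff₀ (hr k)]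
        exact hz hzk
    · rintro z ⟨hz, hzS⟩
      have hzk : z ∈ (k.1)ᶜ := fun hmem => hzS ⟨k.1, k.2, hmem⟩
      have h3 : ‖G k z‖ < t' := (interior_subset hz).resolve_left hzk
      exact ⟨G k z, ⟨hG1 k z hzk, h3.trans_le (min_le_right _ _)⟩, h3.trans_le (min_le_left _ _),
        hψG k z hzk⟩

end Vale.Agent.P116.H906
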