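import Mathlib
import Vale.Agent.P116.H906.Collar

/-!
Systems of univalent maps indexed by words (reflection towers).
-/

open Filter Topology Set Metric Bornology
open scoped Real ComplexConjugate

namespace Vale.Agent.P116.H906

/-- conjugation according to the parity -/
noncomputable def cj (n : ℕ) (z : ℂ) : ℂ := if Even n then z else conj z

lemma cj_even {n : ℕ} (h : Even n) (z : ℂ) : cj n z = z := by simp [cj, h]
lemma cj_odd {n : ℕ} (h : ¬ Even n) (z : ℂ) : cj n z = conj z := by simp [cj, h]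

@[simp] lemma cj_zero' (z : ℂ) : cj 0 z = z := cj_even (by simp) z

lemma cj_cj (n : ℕ) (z : ℂ) : cj n (cj n z) = z := by
  by_cases h : Even n
  · rw [cj_even h, cj_even h]
  · rw [cj_odd h, cj_odd h, Complex.conj_conj]

lemma cj_norm (n : ℕ) (z : ℂ) : ‖cj n z‖ = ‖z‖ := by
  by_cases h : Even n
  · rw [cj_even h]
  · rw [cj_odd h, Complex.norm_conj]

lemma cj_succ (n : ℕ) (z : ℂ) : cj (n + 1) z = conj (cj n z) := by
  by_cases h : Even n
  · rw [cj_even h, cj_odd (by simpa [Nat.even_add_one] using h)]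
  · rw [cj_odd h, cj_even (by simpa [Nat.even_add_one] using h), Complex.conj_conj]

lemma cj_sub (n : ℕ) (z w : ℂ) : cj n (z - w) = cj n z - cj n w := by
  by_cases h : Even n
  · simp only [cj_even h]
  · simp only [cj_odd h, map_sub]

lemma cj_inj {n : ℕ} {z w : ℂ} (h : cj n z = cj n w) : z = w := by
  rw [← cj_cj n z, h, cj_cj]

lemma continuous_cj (n : ℕ) : Continuous (cj n) := by
  by_cases h : Even n
  · have : cj n = id := funext fun z => cj_even h z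
    rw [this]
    exact continuous_id
  · have : cj n = conj := funext fun z => cj_odd h z
    rw [this]
    exact Complex.continuous_conj

lemma cj_eq_iff {n : ℕ} {z w : ℂ} : cj n z = w ↔ z = cj n w :=
  ⟨fun h => by rw [← h, cj_cj], fun h => by rw [h, cj_cj]⟩

/-- conjugating an analytic function on both sides -/
lemma cj_diff {n : ℕ} {G F : ℂ → ℂ} {z : ℂ} (hG : DifferentiableAt ℂ G (cj n (F z)))
    (hF : DifferentiableAt ℂ F z) : DifferentiableAt ℂ (fun z => cj n (G (cj n (F z)))) z := by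
  by_cases h : Even n
  · simp only [cj_even h] at hG ⊢
    exact hG.comp z hF
  · simp only [cj_odd h] at hG ⊢
    have h1 : HasDerivAt (fun y => conj (G (conj y))) (conj (deriv G (conj (F z))))
        (conj (conj (F z))) := hG.hasDerivAt.conj_conj
    rw [Complex.conj_conj] at h1
    exact h1.differentiableAt.comp z hF

/-- holes -/
abbrev Hl (S : Set (Set ℂ)) : Type := {P // P ∈ S}

/-- gluing of neighbouring words along a collar -/
structure Glu {S : Set (Set ℂ)} (ψ : Hl S → ℂ → ℂ) (q : ℝ) (f : List (Hl S) → ℂ → ℂ)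
    (w : List (Hl S)) (k : Hl S) (Φ : ℂ → ℂ) : Prop where
  diff : DifferentiableOn ℂ Φ (an q)
  out : ∀ u ∈ ao q, Φ u = cj w.length (f w (ψ k u))
  inn : ∀ u ∈ ai q, Φ u = cj w.length (f (w ++ [k]) (ψ k (conj u)⁻¹))

/-- a system of maps on a set of words -/
structure Sys (S : Set (Set ℂ)) (ψ : Hl S → ℂ → ℂ) (q : ℝ) (𝒲 : Set (List (Hl S)))
    (f : List (Hl S) → ℂ → ℂ) : Prop where
  ana : ∀ w ∈ 𝒲, DifferentiableOn ℂ (fun z => cj w.length (f w z)) (⋃₀ S)ᶜ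
  inj : ∀ w ∈ 𝒲, InjOn (f w) (⋃₀ S)ᶜ
  disj : ∀ v ∈ 𝒲, ∀ w ∈ 𝒲, v ≠ w → Disjoint (f v '' (⋃₀ S)ᶜ) (f w '' (⋃₀ S)ᶜ)
  glue : ∀ w k, w ∈ 𝒲 → w ++ [k] ∈ 𝒲 → ∃ Φ : ℂ → ℂ, Glu ψ q f w k Φ
  norm : NU (⋃₀ S)ᶜ (f [])

variable {S : Set (Set ℂ)} {ψ : Hl S → ℂ → ℂ} {q : ℝ} {𝒲 : Set (List (Hl S))}
  {f : List (Hl S) → ℂ → ℂ}

lemma Sys.mono (h : Sys S ψ q 𝒲 f) {𝒱 : Set (List (Hl S))} (hs : 𝒱 ⊆ 𝒲) : Sys S ψ q 𝒱 f where
  ana w hw := h.ana w (hs hw)
  inj w hw := h.inj w (hs hw)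
  disj v hv w hw := h.disj v (hs hv) w (hs hw)
  glue w k hw hwk := h.glue w k (hs hw) (hs hwk)
  norm := h.norm

lemma conj_inv_mem_ao {q : ℝ} (hq : 1 < q) {u : ℂ} (hu : u ∈ ai q) : (conj u)⁻¹ ∈ ao q := by
  have hq0 : 0 < q := one_pos.trans hq
  have h1 := hu.1
  have hpos : 0 < ‖u‖ := (inv_pos.2 hq0).trans h1
  refine ⟨?_, ?_⟩
  · rw [norm_inv, Complex.norm_conj]
    exact (one_lt_inv₀ hpos).2 hu.2
  · rw [norm_inv, Complex.norm_conj]
    exact inv_lt_of_inv_lt₀ hq0 h1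

lemma conj_inv_mem_ai {q : ℝ} (hq : 1 < q) {u : ℂ} (hu : u ∈ ao q) : (conj u)⁻¹ ∈ ai q := by
  have hq0 : 0 < q := one_pos.trans hq
  have hpos : 0 < ‖u‖ := one_pos.trans hu.1
  refine ⟨?_, ?_⟩
  · rw [norm_inv, Complex.norm_conj]
    exact (inv_lt_inv₀ hq0 hpos).2 hu.2
  · rw [norm_inv, Complex.norm_conj]
    exact inv_lt_one_of_one_lt₀ hu.1

lemma conj_inv_conj_inv (u : ℂ) : (conj (conj u)⁻¹)⁻¹ = u := by
  rw [map_inv₀, Complex.conj_conj, inv_inv]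

lemma ao_subset_an {q : ℝ} (hq : 1 < q) : ao q ⊆ an q := fun _ hu =>
  ⟨(inv_lt_one_of_one_lt₀ hq).trans hu.1, hu.2⟩

lemma ai_subset_an {q : ℝ} (hq : 1 < q) : ai q ⊆ an q := fun _ hu => ⟨hu.1, hu.2.trans hq⟩

lemma circ_mem_an {q : ℝ} (hq : 1 < q) {u : ℂ} (hu : ‖u‖ = 1) : u ∈ an q := by
  refine ⟨?_, ?_⟩
  · rw [hu]
    exact inv_lt_one_of_one_lt₀ hq
  · rwa [hu]

lemma an_cases {q : ℝ} {u : ℂ} (hu : u ∈ an q) : u ∈ ao q ∨ ‖u‖ = 1 ∨ u ∈ ai q := by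
  rcases lt_trichotomy ‖u‖ 1 with h | h | h
  · exact Or.inr (Or.inr ⟨hu.1, h⟩)
  · exact Or.inr (Or.inl h)
  · exact Or.inl ⟨h, hu.2⟩

/-- annuli are connected -/
lemma isPreconnected_annulus {a b : ℝ} (ha : 0 ≤ a) :
    IsPreconnected {u : ℂ | a < ‖u‖ ∧ ‖u‖ < b} := by
  have h1 : IsPreconnected (Ioo a b ×ˢ sphere (0:ℂ) 1) :=
    isPreconnected_Ioo.prod (isPreconnected_sphere (by
      rw [Complex.rank_real_complex]; norm_num) (0:ℂ) 1)
  have h2 : (fun p : ℝ × ℂ => p.1 • p.2) '' (Ioo a b ×ˢ sphere (0:ℂ) 1) =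
      {u : ℂ | a < ‖u‖ ∧ ‖u‖ < b} := by
    ext z
    constructor
    · rintro ⟨⟨t, v⟩, ⟨ht, hv⟩, rfl⟩
      have ht0 : 0 < t := ha.trans_lt ht.1
      have hv1 : ‖v‖ = 1 := by simpa using hv
      have h3 : ‖t • v‖ = t := by
        rw [norm_smul, hv1, mul_one, Real.norm_of_nonneg ht0.le]
      change a < ‖t • v‖ ∧ ‖t • v‖ < b
      rw [h3]
      exact ht
    · intro hz
      have hz0 : 0 < ‖z‖ := ha.trans_lt hz.1
      refine ⟨(‖z‖, ‖z‖⁻¹ • z), ⟨hz, ?_⟩, ?_⟩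
      · simp only [mem_sphere, dist_zero_right, norm_smul, norm_inv, norm_norm]
        exact inv_mul_cancel₀ hz0.ne'
      · simp only [smul_smul]
        rw [mul_inv_cancel₀ hz0.ne', one_smul]
  rw [← h2]
  refine h1.image _ ?_
  exact (continuous_fst.smul continuous_snd).continuousOn

lemma isPreconnected_an {q : ℝ} (hq : 1 < q) : IsPreconnected (an q) :=
  isPreconnected_annulus (inv_nonneg.2 (one_pos.trans hq).le)

lemma isPreconnected_ao (q : ℝ) : IsPreconnected (ao q) :=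
  isPreconnected_annulus zero_le_one

/-- injective analytic functions are open -/
lemma map_nhds_of_inj {U : Set ℂ} (hU : IsOpen U) {g : ℂ → ℂ} (hd : DifferentiableOn ℂ g U)
    (hinj : InjOn g U) {z : ℂ} (hz : z ∈ U) : map g (𝓝 z) = 𝓝 (g z) := by
  have hne : deriv g z ≠ 0 := Vale.Agent.P142.injOn_deriv_ne_zero hU hd hinj hz
  have han : AnalyticAt ℂ g z := (hd.analyticOnNhd hU) z hz
  have hs : HasStrictDerivAt g (deriv g z) z := han.hasStrictDerivAt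
  exact hs.map_nhds_eq hne

lemma isOpen_image_of_inj {U V : Set ℂ} (hU : IsOpen U) {g : ℂ → ℂ} (hd : DifferentiableOn ℂ g U)
    (hinj : InjOn g U) (hV : IsOpen V) (hVU : V ⊆ U) : IsOpen (g '' V) := by
  rw [isOpen_iff_mem_nhds]
  rintro _ ⟨z, hz, rfl⟩
  rw [← map_nhds_of_inj hU hd hinj (hVU hz)]
  exact image_mem_map (hV.mem_nhds hz)

lemma isOpen_cj_image {n : ℕ} {V : Set ℂ} (hV : IsOpen V) : IsOpen (cj n '' V) := by
  have : cj n '' V = cj n ⁻¹' V := by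
    ext z
    constructor
    · rintro ⟨y, hy, rfl⟩
      change cj n (cj n y) ∈ V
      rwa [cj_cj]
    · intro hz
      exact ⟨cj n z, hz, cj_cj n z⟩
  rw [this]
  exact hV.preimage (continuous_cj n)

lemma Sys.isOpen_image (h : Sys S ψ q 𝒲 f) (hS : Adm S) {w : List (Hl S)} (hw : w ∈ 𝒲)
    {V : Set ℂ} (hV : IsOpen V) (hVU : V ⊆ (⋃₀ S)ᶜ) : IsOpen (f w '' V) := by
  have h1 : f w '' V = cj w.length '' ((fun z => cj w.length (f w z)) '' V) := by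
    rw [image_image]
    simp only [cj_cj]
  rw [h1]
  refine isOpen_cj_image (isOpen_image_of_inj hS.isOpen_compl (h.ana w hw) ?_ hV hVU)
  intro x hx y hy hxy
  exact h.inj w hw hx hy (cj_inj hxy)

lemma Sys.contOn (h : Sys S ψ q 𝒲 f) {w : List (Hl S)} (hw : w ∈ 𝒲) :
    ContinuousOn (f w) (⋃₀ S)ᶜ := by
  have h1 := (continuous_cj w.length).comp_continuousOn (h.ana w hw).continuousOn
  refine h1.congr fun z _ => ?_
  simp only [Function.comp_apply, cj_cj]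

lemma tendsto_mul_right_one (u : ℂ) {l : Filter ℝ} (hl : l ≤ 𝓝 1) :
    Tendsto (fun t : ℝ => (t : ℂ) * u) l (𝓝 u) := by
  have h1 : Tendsto (fun t : ℝ => (t : ℂ) * u) (𝓝 1) (𝓝 (((1:ℝ) : ℂ) * u)) :=
    ((Complex.continuous_ofReal.tendsto 1).mul_const u)
  rw [Complex.ofReal_one, one_mul] at h1
  exact h1.mono_left hl

lemma exists_out {u : ℂ} (hu : ‖u‖ = 1) {N : Set ℂ} (hN : N ∈ 𝓝 u) : ∃ v ∈ N, 1 < ‖v‖ := by
  have h1 := (tendsto_mul_right_one u (l := 𝓝[>] 1) nhdsWithin_le_nhds).eventually hN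
  obtain ⟨t, ht, ht1⟩ := (h1.and self_mem_nhdsWithin).exists
  refine ⟨_, ht, ?_⟩
  rw [norm_mul, hu, mul_one, Complex.norm_real, Real.norm_of_nonneg (zero_le_one.trans (le_of_lt ht1))]
  exact ht1

lemma exists_inn {u : ℂ} (hu : ‖u‖ = 1) {N : Set ℂ} (hN : N ∈ 𝓝 u) : ∃ v ∈ N, ‖v‖ < 1 := by
  have h1 := (tendsto_mul_right_one u (l := 𝓝[<] 1) nhdsWithin_le_nhds).eventually hN
  have h2 : ∀ᶠ t : ℝ in 𝓝[<] 1, 0 < t := nhdsWithin_le_nhds (lt_mem_nhds one_pos)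
  obtain ⟨t, ⟨ht, ht0⟩, ht1⟩ := ((h1.and h2).and self_mem_nhdsWithin).exists
  refine ⟨_, ht, ?_⟩
  rw [norm_mul, hu, mul_one, Complex.norm_real, Real.norm_of_nonneg ht0.le]
  exact ht1

/-- the circles are not in the pieces -/
lemma Sys.cp (h : Sys S ψ q 𝒲 f) (hS : Adm S) (hC : Collar S ψ q) {w : List (Hl S)} {k : Hl S}
    (hw : w ∈ 𝒲) (hwk : w ++ [k] ∈ 𝒲) {Φ : ℂ → ℂ} (hΦ : Glu ψ q f w k Φ) {u : ℂ} (hu : ‖u‖ = 1)
    {v : List (Hl S)} (hv : v ∈ 𝒲) : cj w.length (Φ u) ∉ f v '' (⋃₀ S)ᶜ := by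
  intro hmem
  have hua := circ_mem_an hC.q1 hu
  have hV := h.isOpen_image hS hv hS.isOpen_compl subset_rfl
  have hcont : ContinuousAt (fun u => cj w.length (Φ u)) u :=
    (continuous_cj _).continuousAt.comp
      (hΦ.diff.continuousOn.continuousAt ((isOpen_an q).mem_nhds hua))
  have hN : (an q ∩ (fun u => cj w.length (Φ u)) ⁻¹' (f v '' (⋃₀ S)ᶜ)) ∈ 𝓝 u :=
    inter_mem ((isOpen_an q).mem_nhds hua) (hcont (hV.mem_nhds hmem))
  obtain ⟨a, ⟨ha, haV⟩, ha1⟩ := exists_out hu hN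
  obtain ⟨b, ⟨hb, hbV⟩, hb1⟩ := exists_inn hu hN
  have e1 : v = w := by
    by_contra hne
    have h1 : cj w.length (Φ a) = f w (ψ k a) := by rw [hΦ.out a ⟨ha1, ha.2⟩, cj_cj]
    have h2 : f w (ψ k a) ∈ f w '' (⋃₀ S)ᶜ := mem_image_of_mem _ (hC.maps k a ⟨ha1, ha.2⟩)
    refine disjoint_left.1 (h.disj v hv w hw hne) haV ?_
    simp only [h1]
    exact h2
  have e2 : v = w ++ [k] := by
    by_contra hne
    have hb' : b ∈ ai q := ⟨hb.1, hb1⟩
    have h1 : cj w.length (Φ b) = f (w ++ [k]) (ψ k (conj b)⁻¹) := by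
      rw [hΦ.inn b hb', cj_cj]
    have h2 : f (w ++ [k]) (ψ k (conj b)⁻¹) ∈ f (w ++ [k]) '' (⋃₀ S)ᶜ :=
      mem_image_of_mem _ (hC.maps k _ (conj_inv_mem_ao hC.q1 hb'))
    refine disjoint_left.1 (h.disj v hv _ hwk hne) hbV ?_
    simp only [h1]
    exact h2
  have e3 := congrArg List.length (e1.symm.trans e2)
  simp at e3

/-- a gluing function is open -/
lemma Sys.nhds_le (h : Sys S ψ q 𝒲 f) (hC : Collar S ψ q) {w : List (Hl S)} {k : Hl S}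
    (hw : w ∈ 𝒲) {Φ : ℂ → ℂ} (hΦ : Glu ψ q f w k Φ) {u : ℂ} (hu : u ∈ an q) :
    𝓝 (Φ u) ≤ map Φ (𝓝 u) := by
  have han : AnalyticOnNhd ℂ Φ (an q) := hΦ.diff.analyticOnNhd (isOpen_an q)
  rcases (han u hu).eventually_constant_or_nhds_le_map_nhds with hc | hc
  swap
  · exact hc
  exfalso
  have hcst : EqOn Φ (fun _ => Φ u) (an q) :=
    han.eqOn_of_preconnected_of_eventuallyEq (fun _ _ => analyticAt_const)
      (isPreconnected_an hC.q1) hu hc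
  have hq := hC.q1
  set t : ℝ := (1 + q) / 2 with ht
  have ht1 : 1 < t := by rw [ht]; linarith
  have htq : t < q := by rw [ht]; linarith
  have hn : ‖(t : ℂ)‖ = t := by rw [Complex.norm_real, Real.norm_of_nonneg (by linarith)]
  have h1 : (t : ℂ) ∈ ao q := ⟨by rw [hn]; exact ht1, by rw [hn]; exact htq⟩
  have h2 : -(t : ℂ) ∈ ao q := ⟨by rw [norm_neg, hn]; exact ht1, by rw [norm_neg, hn]; exact htq⟩
  have h3 := (hcst (ao_subset_an hq h1)).trans (hcst (ao_subset_an hq h2)).symm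
  rw [hΦ.out _ h1, hΦ.out _ h2] at h3
  have h4 := hC.inj k h1 h2 (h.inj w hw (hC.maps k _ h1) (hC.maps k _ h2) (cj_inj h3))
  have h5 : (t : ℂ) + t = 0 := by
    nth_rw 1 [h4]
    ring
  have h6 : t + t = 0 := by exact_mod_cast h5
  linarith

/-- the annular pieces -/
def ap (q : ℝ) (n : ℕ) (Φ : ℂ → ℂ) : Set ℂ := (fun u => cj n (Φ u)) '' an q

lemma Sys.isOpen_ap (h : Sys S ψ q 𝒲 f) (hC : Collar S ψ q) {w : List (Hl S)} {k : Hl S}
    (hw : w ∈ 𝒲) {Φ : ℂ → ℂ} (hΦ : Glu ψ q f w k Φ) {n : ℕ} {V : Set ℂ} (hV : IsOpen V)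
    (hVa : V ⊆ an q) : IsOpen ((fun u => cj n (Φ u)) '' V) := by
  have h1 : (fun u => cj n (Φ u)) '' V = cj n '' (Φ '' V) := by rw [image_image]
  rw [h1]
  refine isOpen_cj_image ?_
  rw [isOpen_iff_mem_nhds]
  rintro _ ⟨z, hz, rfl⟩
  exact h.nhds_le hC hw hΦ (hVa hz) (image_mem_map (hV.mem_nhds hz))

lemma Sys.isPreconnected_ap (hC : Collar S ψ q) {w : List (Hl S)} {k : Hl S}
    {Φ : ℂ → ℂ} (hΦ : Glu ψ q f w k Φ) {n : ℕ} : IsPreconnected (ap q n Φ) :=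
  (isPreconnected_an hC.q1).image _
    ((continuous_cj n).comp_continuousOn hΦ.diff.continuousOn)

end Vale.Agent.P116.H906
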