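import Mathlib
import Vale.Agent.P116.H906.Sys

/-!
The hull of the cluster set at a free hole.
-/

open Filter Topology Set Metric Bornology
open scoped Real ComplexConjugate

namespace Vale.Agent.P116.H906

/-- filling a continuum gives a continuum -/
lemma isPreconnected_fil {A : Set ℂ} (hA : IsCompact A) (hc : IsPreconnected A)
    (hne : A.Nonempty) : IsPreconnected (fil A) := by
  obtain ⟨p, hp⟩ := hne
  refine isPreconnected_of_forall p fun z hz => ?_
  by_cases hzA : z ∈ A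
  · exact ⟨A, subset_fil A, hp, hzA, hc⟩
  set D := connectedComponentIn Aᶜ z with hD
  have hzD : z ∈ D := mem_connectedComponentIn hzA
  have hDo : IsOpen D := hA.isClosed.isOpen_compl.connectedComponentIn
  have hDA : D ⊆ Aᶜ := connectedComponentIn_subset _ _
  have hDc : IsPreconnected D := isPreconnected_connectedComponentIn
  have hDb : Bornology.IsBounded D := by
    by_contra h
    exact hz ⟨D, hDc, hzD, disjoint_compl_left.mono_left hDA, h⟩
  have hDf : D ⊆ fil A := by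
    intro y hy hesc
    obtain ⟨C, h1, h2, h3, h4⟩ := hesc
    refine hz ⟨C ∪ D, h1.union y h2 hy hDc, Or.inr hzD, ?_, fun h => h4 (h.subset subset_union_left)⟩
    exact h3.union_left (disjoint_compl_left.mono_left hDA)
  have hfr : (frontier D).Nonempty := by
    by_contra h
    rw [not_nonempty_iff_eq_empty] at h
    have h1 : IsClopen D := isClopen_iff_frontier_eq_empty.2 h
    rcases isClopen_iff.1 h1 with h2 | h2
    · rw [h2] at hzD
      exact hzD
    · rw [h2] at hDb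
      exact (NormedSpace.unbounded_univ ℝ ℂ) hDb
  obtain ⟨y, hy⟩ := hfr
  have hyA : y ∈ A := by
    by_contra hyA
    have h1 : connectedComponentIn Aᶜ y ∈ 𝓝 y :=
      (hA.isClosed.isOpen_compl.connectedComponentIn).mem_nhds (mem_connectedComponentIn hyA)
    obtain ⟨x, hx1, hx2⟩ := mem_closure_iff_nhds.1 hy.1 _ h1
    have h2 : connectedComponentIn Aᶜ y = D := by
      rw [connectedComponentIn_eq hx1, ← connectedComponentIn_eq hx2]
    have h3 : y ∈ D := h2 ▸ mem_connectedComponentIn hyA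
    exact hy.2 (by rwa [hDo.interior_eq])
  refine ⟨A ∪ insert y D, ?_, Or.inl hp, Or.inr (Or.inr hzD), ?_⟩
  · rintro x (hx | rfl | hx)
    · exact subset_fil A hx
    · exact subset_fil A hyA
    · exact hDf hx
  · refine hc.union y hyA (mem_insert _ _) ?_
    exact hDc.subset_closure (subset_insert _ _) (insert_subset hy.1 subset_closure)

lemma NU.not_bdd {U : Set ℂ} {g : ℂ → ℂ} {R : ℝ} (hR : 0 < R) (h : NU U g)
    (hU : (closedBall (0:ℂ) R)ᶜ ⊆ U) : ¬ Bornology.IsBounded (g '' U) := by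
  intro hb
  refine not_isBounded_compl_closedBall (0:ℂ) (5 * R) (hb.subset ?_)
  intro w hw
  by_contra hcon
  refine hw ?_
  rw [mem_closedBall, dist_zero_right]
  refine h.omitted hR hU fun z hz hzw => hcon ⟨z, hU hz, hzw⟩

lemma NU.tendsto_cobounded {U : Set ℂ} {g : ℂ → ℂ} (h : NU U g) :
    Tendsto g (cobounded ℂ) (cobounded ℂ) := by
  rw [← tendsto_norm_atTop_iff_cobounded]
  have h1 : ∀ᶠ z in cobounded ℂ, ‖g z - z‖ < 1 := by
    have := h.norm.norm
    rw [norm_zero] at this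
    exact this.eventually (gt_mem_nhds one_pos)
  have h2 : Tendsto (fun z : ℂ => ‖z‖ + -1) (cobounded ℂ) atTop :=
    tendsto_atTop_add_const_right _ _ tendsto_norm_cobounded_atTop
  refine tendsto_atTop_mono' _ ?_ h2
  filter_upwards [h1] with z hz
  have := norm_sub_norm_le z (z - g z)
  rw [sub_sub_cancel] at this
  rw [norm_sub_rev] at hz
  linarith

lemma NU.comp {U V : Set ℂ} {g G : ℂ → ℂ} (hg : NU U g) (hG : NU V G) (hUV : MapsTo g U V) :
    NU U (fun z => G (g z)) where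
  diff := hG.diff.comp hg.diff hUV
  inj := fun x hx y hy hxy => hg.inj hx hy (hG.inj (hUV hx) (hUV hy) hxy)
  norm := by
    have h1 := (hG.norm.comp hg.tendsto_cobounded).add hg.norm
    rw [add_zero] at h1
    refine h1.congr fun z => ?_
    simp only [Function.comp_apply]
    ring

lemma ao_mono {s t : ℝ} (h : s ≤ t) : ao s ⊆ ao t := fun _ hu => ⟨hu.1, hu.2.trans_le h⟩

lemma ao_nonempty {s : ℝ} (h : 1 < s) : (ao s).Nonempty := by
  refine ⟨(((1 + s) / 2 : ℝ) : ℂ), ?_, ?_⟩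
  · rw [Complex.norm_real, Real.norm_of_nonneg (by linarith)]
    linarith
  · rw [Complex.norm_real, Real.norm_of_nonneg (by linarith)]
    linarith

variable {S : Set (Set ℂ)} {ψ : Hl S → ℂ → ℂ} {q : ℝ} {𝒲 : Set (List (Hl S))}
  {f : List (Hl S) → ℂ → ℂ}

lemma Collar.small (hC : Collar S ψ q) (hS : Adm S) (k : Hl S) {R : ℝ}
    (hSR : ⋃₀ S ⊆ closedBall (0:ℂ) R) : ∃ s, 1 < s ∧ s ≤ q ∧ ∀ u ∈ ao s, ‖ψ k u‖ < R + 1 := by
  obtain ⟨s, hs, h⟩ := hC.near k (ball 0 (R + 1)) isOpen_ball (fun x hx => by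
    have := hSR ⟨k.1, k.2, hx⟩
    rw [mem_closedBall] at this
    rw [mem_ball]
    linarith)
  refine ⟨min s q, lt_min hs hC.q1, min_le_right _ _, fun u hu => ?_⟩
  have := h u (ao_mono (min_le_right _ _) hu) (hu.2.trans_le (min_le_left _ _))
  simpa using this

/-- **the hull** of the cluster set at the hole `j` -/
theorem Sys.exists_hull (h : Sys S ψ q 𝒲 f) (hS : Adm S) (hC : Collar S ψ q) (j : Hl S)
    (h0 : [] ∈ 𝒲) (hpre : ∀ w k, w ++ [k] ∈ 𝒲 → w ∈ 𝒲) (hj : [j] ∉ 𝒲) :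
    ∃ E : Set ℂ, IsCompact E ∧ IsConnected E ∧ Full E ∧ E.Nontrivial ∧
      (∀ v ∈ 𝒲, Disjoint (f v '' (⋃₀ S)ᶜ) E) ∧
      (∀ w k, w ∈ 𝒲 → w ++ [k] ∈ 𝒲 → ∀ Φ, Glu ψ q f w k Φ → Disjoint (ap q w.length Φ) E) ∧
      ∀ W : Set ℂ, IsOpen W → E ⊆ W → ∃ s, 1 < s ∧ s ≤ q ∧ ∀ u ∈ ao s, f [] (ψ j u) ∈ W := by
  obtain ⟨R, hR, hSR⟩ := hS.bdd
  have hU : (closedBall (0:ℂ) R)ᶜ ⊆ (⋃₀ S)ᶜ := compl_subset_compl.2 hSR
  obtain ⟨s, hs1, hsq, hsR⟩ := hC.small hS j hSR
  set sq : ℕ → ℝ := fun n => 1 + (s - 1) / (n + 1) with hsqdef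
  have hsq1 : ∀ n, 1 < sq n := fun n => by
    have : 0 < (s - 1) / ((n:ℝ) + 1) := div_pos (by linarith) (by positivity)
    simp only [hsqdef]
    linarith
  have hsqs : ∀ n, sq n ≤ s := fun n => by
    have : (s - 1) / ((n:ℝ) + 1) ≤ s - 1 := div_le_self (by linarith) (by
      have : (0:ℝ) ≤ n := n.cast_nonneg
      linarith)
    simp only [hsqdef]
    linarith
  have hsqanti : ∀ m n, m ≤ n → sq n ≤ sq m := by
    intro m n hmn
    simp only [hsqdef]
    have : (m:ℝ) ≤ n := by exact_mod_cast hmn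
    have h1 : (s - 1) / ((n:ℝ) + 1) ≤ (s - 1) / ((m:ℝ) + 1) :=
      div_le_div_of_nonneg_left (by linarith) (by positivity) (by linarith)
    linarith
  have hsqlim : ∀ t > 1, ∃ n, sq n ≤ t := by
    intro t ht
    obtain ⟨n, hn⟩ := exists_nat_gt ((s - 1) / (t - 1))
    refine ⟨n, ?_⟩
    simp only [hsqdef]
    have h1 : 0 < t - 1 := by linarith
    rw [div_lt_iff₀ h1] at hn
    have : (s - 1) / ((n:ℝ) + 1) ≤ t - 1 := by
      rw [div_le_iff₀ (by positivity)]
      nlinarith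
    linarith
  set X : ℕ → Set ℂ := fun n => closure (f [] '' (ψ j '' ao (sq n))) with hX
  have hmapsΩ : ∀ n, ψ j '' ao (sq n) ⊆ (⋃₀ S)ᶜ := by
    rintro n _ ⟨u, hu, rfl⟩
    exact hC.maps j u (ao_mono ((hsqs n).trans hsq) hu)
  have hXb : ∀ n, X n ⊆ closedBall (0:ℂ) (5 * (R + 1)) := by
    intro n
    refine closure_minimal ?_ isClosed_closedBall
    rintro _ ⟨_, ⟨u, hu, rfl⟩, rfl⟩
    rw [mem_closedBall, dist_zero_right]
    refine h.norm.norm_le (by linarith) ((compl_subset_compl.2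
      (closedBall_subset_closedBall (by linarith))).trans hU) (hmapsΩ n (mem_image_of_mem _ hu)) ?_
    exact (hsR u (ao_mono (hsqs n) hu)).le
  have hXc : ∀ n, IsCompact (X n) := fun n =>
    (isCompact_closedBall _ _).of_isClosed_subset isClosed_closure (hXb n)
  have hXanti : ∀ m n, m ≤ n → X n ⊆ X m := fun m n hmn =>
    closure_mono (image_mono (image_mono (ao_mono (hsqanti m n hmn))))
  have hXp : ∀ n, IsPreconnected (X n) := by
    intro n
    refine IsPreconnected.closure ?_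
    refine (IsPreconnected.image (isPreconnected_ao _) _ ?_).image _ ?_
    · exact (hC.diff j).continuousOn.mono (ao_mono ((hsqs n).trans hsq))
    · exact h.norm.diff.continuousOn.mono (hmapsΩ n)
  have hXne : ∀ n, (X n).Nonempty := by
    intro n
    obtain ⟨u, hu⟩ := ao_nonempty (hsq1 n)
    exact ⟨_, subset_closure (mem_image_of_mem _ (mem_image_of_mem _ hu))⟩
  set Cl : Set ℂ := ⋂ n, X n with hCl
  have hClp : IsPreconnected Cl := isPreconnected_iInter_nested hXc hXp hXanti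
  have hClc : IsCompact Cl :=
    (hXc 0).of_isClosed_subset (isClosed_iInter fun n => isClosed_closure) (iInter_subset _ 0)
  have hClne : Cl.Nonempty := by
    refine IsCompact.nonempty_iInter_of_sequence_nonempty_isCompact_isClosed X
      (fun n => hXanti n (n+1) (Nat.le_succ n)) hXne (hXc 0) fun n => isClosed_closure
  -- open sets missing the cluster set
  have hmiss : ∀ W : Set ℂ, IsOpen W → ∀ t > 1, Disjoint W (f [] '' (ψ j '' (ao t ∩ ao q))) →
      Disjoint W Cl := by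
    intro W hW t ht hd
    rw [disjoint_left]
    intro y hy hyC
    obtain ⟨n, hn⟩ := hsqlim t ht
    have h1 : y ∈ X n := mem_iInter.1 hyC n
    obtain ⟨x, hx1, hx2⟩ := mem_closure_iff_nhds.1 h1 W (hW.mem_nhds hy)
    refine disjoint_left.1 hd hx1 ?_
    refine image_mono (image_mono ?_) hx2
    exact subset_inter (ao_mono hn) (ao_mono ((hsqs n).trans hsq))
  have hpc : ∀ v ∈ 𝒲, Disjoint (f v '' (⋃₀ S)ᶜ) Cl := by
    intro v hv
    by_cases hv0 : v = []
    · subst hv0
      rw [disjoint_left]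
      rintro _ ⟨z, hz, rfl⟩
      have hzj : z ∉ j.1 := fun hmem => hz ⟨j.1, j.2, hmem⟩
      obtain ⟨A, B, hA, hB, hjA, hzB, hAB⟩ := SeparatedNhds.of_isCompact_isCompact
        (hS.cpt j.1 j.2) (isCompact_singleton (x := z)) (disjoint_singleton_right.2 hzj)
      obtain ⟨t, ht, htA⟩ := hC.near j A hA hjA
      have hV : IsOpen (f [] '' (B ∩ (⋃₀ S)ᶜ)) :=
        h.isOpen_image hS hv (hB.inter hS.isOpen_compl) inter_subset_right
      refine disjoint_left.1 (hmiss _ hV t ht ?_) ⟨z, ⟨hzB rfl, hz⟩, rfl⟩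
      rw [disjoint_left]
      rintro _ ⟨x, ⟨hxB, hx⟩, rfl⟩ ⟨_, ⟨u, hu, rfl⟩, hux⟩
      have h1 := h.norm.inj (hC.maps j u hu.2) hx hux
      exact disjoint_left.1 hAB (htA u hu.2 hu.1.2) (h1 ▸ hxB)
    · refine hmiss _ (h.isOpen_image hS hv hS.isOpen_compl subset_rfl) q hC.q1 ?_
      refine (h.disj v hv [] h0 hv0).mono_right (image_mono ?_)
      rintro _ ⟨u, hu, rfl⟩
      exact hC.maps j u hu.2
  have hac : ∀ w k, w ∈ 𝒲 → w ++ [k] ∈ 𝒲 → ∀ Φ, Glu ψ q f w k Φ →
      Disjoint (ap q w.length Φ) Cl := by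
    intro w k hw hwk Φ hΦ
    refine hmiss _ (h.isOpen_ap hC hw hΦ (isOpen_an q) subset_rfl) q hC.q1 ?_
    rw [disjoint_left]
    rintro _ ⟨u, hu, rfl⟩ ⟨_, ⟨u', hu', rfl⟩, hux⟩
    have hmem : f [] (ψ j u') ∈ f [] '' (⋃₀ S)ᶜ := mem_image_of_mem _ (hC.maps j u' hu'.1)
    rcases an_cases hu with h1 | h1 | h1
    · have e1 : cj w.length (Φ u) = f w (ψ k u) := by rw [hΦ.out u h1, cj_cj]
      simp only [e1] at hux
      have h2 : f w (ψ k u) ∈ f w '' (⋃₀ S)ᶜ := mem_image_of_mem _ (hC.maps k u h1)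
      have hw0 : w = [] := by
        by_contra hne
        rw [← hux] at h2
        exact disjoint_left.1 (h.disj w hw [] h0 hne) h2 hmem
      subst hw0
      have h3 := h.norm.inj (hC.maps j u' hu'.1) (hC.maps k u h1) hux
      have hkj : k = j := by
        by_contra hne
        refine disjoint_left.1 (hC.disj k j hne) (mem_image_of_mem _ h1) ?_
        rw [← h3]
        exact mem_image_of_mem _ hu'.1
      subst hkj
      exact hj hwk
    · refine h.cp hS hC hw hwk hΦ h1 h0 ?_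
      simp only at hux
      rw [← hux]
      exact hmem
    · have e1 : cj w.length (Φ u) = f (w ++ [k]) (ψ k (conj u)⁻¹) := by rw [hΦ.inn u h1, cj_cj]
      simp only [e1] at hux
      have h2 : f (w ++ [k]) (ψ k (conj u)⁻¹) ∈ f (w ++ [k]) '' (⋃₀ S)ᶜ :=
        mem_image_of_mem _ (hC.maps k _ (conj_inv_mem_ao hC.q1 h1))
      rw [← hux] at h2
      exact disjoint_left.1 (h.disj _ hwk [] h0 (by simp)) h2 hmem
  -- escaping
  have hΩc : IsPreconnected (⋃₀ S)ᶜ := hS.full.isPreconnected_compl hS.isCompact.isBounded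
  have hesc : ∀ v : List (Hl S), v ∈ 𝒲 → ∃ C : Set ℂ, IsPreconnected C ∧ f v '' (⋃₀ S)ᶜ ⊆ C ∧
      Disjoint C Cl ∧ ¬ Bornology.IsBounded C := by
    intro v
    induction v using List.reverseRecOn with
    | nil =>
      intro hv
      exact ⟨f [] '' (⋃₀ S)ᶜ, hΩc.image _ h.norm.diff.continuousOn, subset_rfl, hpc [] hv,
        h.norm.not_bdd hR hU⟩
    | append_singleton w k ih =>
      intro hv
      have hw := hpre w k hv
      obtain ⟨C, h1, h2, h3, h4⟩ := ih hw
      obtain ⟨Φ, hΦ⟩ := h.glue w k hw hv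
      obtain ⟨u, hu⟩ := ao_nonempty hC.q1
      have hu' := conj_inv_mem_ai hC.q1 hu
      have e1 : cj w.length (Φ u) = f w (ψ k u) := by rw [hΦ.out u hu, cj_cj]
      have e2 : cj w.length (Φ (conj u)⁻¹) = f (w ++ [k]) (ψ k u) := by
        rw [hΦ.inn _ hu', cj_cj, conj_inv_conj_inv]
      refine ⟨(C ∪ ap q w.length Φ) ∪ f (w ++ [k]) '' (⋃₀ S)ᶜ, ?_, subset_union_right, ?_, ?_⟩
      · refine IsPreconnected.union (cj w.length (Φ (conj u)⁻¹)) (Or.inr ?_) ?_
          (IsPreconnected.union (cj w.length (Φ u)) (h2 ?_) ?_ h1 (Sys.isPreconnected_ap hC hΦ)) ?_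
        · exact ⟨_, ai_subset_an hC.q1 hu', rfl⟩
        · rw [e2]
          exact mem_image_of_mem _ (hC.maps k u hu)
        · rw [e1]
          exact mem_image_of_mem _ (hC.maps k u hu)
        · exact ⟨_, ao_subset_an hC.q1 hu, rfl⟩
        · exact hΩc.image _ (h.contOn hv)
      · exact (h3.union_left (hac w k hw hv Φ hΦ)).union_left (hpc _ hv)
      · exact fun hb => h4 (hb.subset (subset_union_left.trans subset_union_left))
  have hlim : ∀ W : Set ℂ, IsOpen W → fil Cl ⊆ W →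
      ∃ s, 1 < s ∧ s ≤ q ∧ ∀ u ∈ ao s, f [] (ψ j u) ∈ W := by
    intro W hW hEW
    obtain ⟨n, hn⟩ := exists_subset_nhds_of_isCompact (V := X)
      (directed_of_isDirected_le fun m n h => hXanti m n h) hXc (U := W) fun x hx =>
        hW.mem_nhds (hEW (subset_fil _ hx))
    exact ⟨sq n, hsq1 n, (hsqs n).trans hsq, fun u hu =>
      hn (subset_closure (mem_image_of_mem _ (mem_image_of_mem _ hu)))⟩
  have hEc : IsCompact (fil Cl) :=
    (isCompact_closedBall _ _).of_isClosed_subset (isClosed_fil hClc.isClosed)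
      (fil_subset_closedBall (by positivity) ((iInter_subset _ 0).trans (hXb 0)))
  refine ⟨fil Cl, hEc, ⟨hClne.mono (subset_fil _), isPreconnected_fil hClc hClp hClne⟩,
    full_fil _, ?_, ?_, ?_, hlim⟩
  · -- nontrivial
    by_contra hnt
    rw [not_nontrivial_iff] at hnt
    obtain ⟨p, hp⟩ := hClne
    have hEp : fil Cl ⊆ {p} := fun x hx => hnt hx (subset_fil _ hp)
    have hH : DifferentiableOn ℂ (fun u => f [] (ψ j u)) (ao q) :=
      h.norm.diff.comp (hC.diff j) fun u hu => hC.maps j u hu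
    obtain ⟨Φ, hΦd, hΦo, hΦi⟩ := glue_extend hC.q1 hH (Ht := fun _ => p)
      (differentiableOn_const _) (M := 5 * (R + 1)) ⟨s, hs1, fun u hu1 hu2 => by
        refine h.norm.norm_le (by linarith) ((compl_subset_compl.2
          (closedBall_subset_closedBall (by linarith))).trans hU)
          (hC.maps j u ⟨hu1, hu2.trans_le hsq⟩) ?_
        exact (hsR u ⟨hu1, hu2⟩).le⟩ (by
        intro ε hε
        obtain ⟨s', hs', -, hs'2⟩ := hlim (ball p ε) isOpen_ball (hEp.trans (by
          rw [singleton_subset_iff]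
          exact mem_ball_self hε))
        refine ⟨s', hs', fun u hu1 hu2 => ?_⟩
        have h1 := hs'2 u ⟨hu1, hu2⟩
        rw [mem_ball, dist_eq_norm] at h1
        exact h1.le)
    have han : AnalyticOnNhd ℂ Φ (an q) := hΦd.analyticOnNhd (isOpen_an q)
    obtain ⟨u, hu⟩ := ao_nonempty hC.q1
    have hu' := conj_inv_mem_ai hC.q1 hu
    have hcst : EqOn Φ (fun _ => p) (an q) := by
      refine han.eqOn_of_preconnected_of_eventuallyEq (fun _ _ => analyticAt_const)
        (isPreconnected_an hC.q1) (ai_subset_an hC.q1 hu') ?_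
      filter_upwards [(isOpen_ai q).mem_nhds hu'] with x hx using hΦi x hx
    have h2 : -u ∈ ao q := ⟨by rw [norm_neg]; exact hu.1, by rw [norm_neg]; exact hu.2⟩
    have h3 := (hcst (ao_subset_an hC.q1 hu)).trans (hcst (ao_subset_an hC.q1 h2)).symm
    rw [hΦo _ hu, hΦo _ h2] at h3
    have h4 := hC.inj j hu h2 (h.norm.inj (hC.maps j _ hu) (hC.maps j _ h2) h3)
    have h5 : u = 0 := by
      have : u + u = 0 := by
        nth_rw 1 [h4]
        ring
      linear_combination this / 2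
    have h6 := hu.1
    rw [h5, norm_zero] at h6
    linarith
  · intro v hv
    rw [disjoint_left]
    intro y hy hyE
    obtain ⟨C, h1, h2, h3, h4⟩ := hesc v hv
    exact hyE ⟨C, h1, h2 hy, h3, h4⟩
  · intro w k hw hwk Φ hΦ
    rw [disjoint_left]
    intro y hy hyE
    obtain ⟨C, h1, h2, h3, h4⟩ := hesc w hw
    obtain ⟨u, hu⟩ := ao_nonempty hC.q1
    have e1 : cj w.length (Φ u) = f w (ψ k u) := by rw [hΦ.out u hu, cj_cj]
    refine hyE ⟨C ∪ ap q w.length Φ, ?_, Or.inr hy, h3.union_left (hac w k hw hwk Φ hΦ),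
      fun hb => h4 (hb.subset subset_union_left)⟩
    refine IsPreconnected.union (cj w.length (Φ u)) (h2 ?_) ?_ h1 (Sys.isPreconnected_ap hC hΦ)
    · rw [e1]
      exact mem_image_of_mem _ (hC.maps k u hu)
    · exact ⟨_, ao_subset_an hC.q1 hu, rfl⟩

end Vale.Agent.P116.H906
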