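import Mathlib
import Vale.Agent.P116.H906.Hull

/-!
One reflection step.
-/

open Filter Topology Set Metric Bornology
open scoped Real ComplexConjugate

namespace Vale.Agent.P116.H906

/-- inversion in a circle -/
noncomputable def cinv (c : ℂ) (ρ : ℝ) (ζ : ℂ) : ℂ := c + ρ ^ 2 / conj (ζ - c)

lemma cj_cinv (n : ℕ) (c : ℂ) (ρ : ℝ) (ζ : ℂ) :
    cj (n + 1) (cinv c ρ ζ) = cj n (conj c) + ρ ^ 2 / (cj n ζ - cj n c) := by
  rw [cj_succ]
  by_cases h : Even n
  · simp only [cj_even h, cinv]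
    simp
  · simp only [cj_odd h, cinv]
    simp

lemma norm_cinv_sub (c : ℂ) (ρ : ℝ) (ζ : ℂ) : ‖cinv c ρ ζ - c‖ = ρ ^ 2 / ‖ζ - c‖ := by
  rw [cinv, add_sub_cancel_left, norm_div, Complex.norm_conj, norm_pow, Complex.norm_real,
    Real.norm_eq_abs, sq_abs]

lemma cinv_inj {c : ℂ} {ρ : ℝ} (hρ : 0 < ρ) {ζ ξ : ℂ}
    (h : cinv c ρ ζ = cinv c ρ ξ) : ζ = ξ := by
  have hρC : (ρ : ℂ) ^ 2 ≠ 0 := pow_ne_zero _ (by exact_mod_cast hρ.ne')
  rw [cinv, cinv, add_right_inj] at h
  have h2 : conj (ζ - c) = conj (ξ - c) := by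
    have h3 := congrArg (fun x : ℂ => (ρ:ℂ) ^ 2 / x) h
    simp only [div_div_cancel₀ hρC] at h3
    exact h3
  have h4 := congrArg conj h2
  rw [Complex.conj_conj, Complex.conj_conj] at h4
  exact sub_left_injective h4

lemma norm_sub_cinv {c : ℂ} {ρ : ℝ} (hρ : 0 < ρ) {ζ : ℂ} (h : ρ < ‖ζ - c‖) :
    ‖ζ - cinv c ρ ζ‖ ≤ 2 * (‖ζ - c‖ - ρ) := by
  set t := ‖ζ - c‖ with ht
  have ht0 : 0 < t := hρ.trans h
  have h0 : ζ - c ≠ 0 := norm_pos_iff.1 ht0
  have h0' : conj (ζ - c) ≠ 0 := (map_ne_zero _).2 h0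
  have h1 : ζ - cinv c ρ ζ = ((t ^ 2 - ρ ^ 2 : ℝ) : ℂ) / conj (ζ - c) := by
    rw [cinv, eq_div_iff h0']
    have h2 : (ζ - c) * conj (ζ - c) = ((t ^ 2 : ℝ) : ℂ) := by
      rw [Complex.mul_conj, Complex.normSq_eq_norm_sq]
    have h3 : (ζ - (c + ρ ^ 2 / conj (ζ - c))) * conj (ζ - c) =
        (ζ - c) * conj (ζ - c) - ρ ^ 2 := by
      field_simp
      ring
    rw [h3, h2]
    push_cast
    ring
  rw [h1, norm_div, Complex.norm_real, Complex.norm_conj, ← ht, Real.norm_of_nonneg (by nlinarith),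
    div_le_iff₀ ht0]
  nlinarith

/-- antiholomorphic reflection of a holomorphic function -/
lemma diff_conj_inv {g : ℂ → ℂ} {u : ℂ} (hu : u ≠ 0) (hg : DifferentiableAt ℂ g (conj u)⁻¹) :
    DifferentiableAt ℂ (fun u => conj (g (conj u)⁻¹)) u := by
  have h1 : HasDerivAt (fun y => conj (g (conj y))) (conj (deriv g (conj u)⁻¹))
      (conj (conj u)⁻¹) := hg.hasDerivAt.conj_conj
  have h2 : conj (conj u)⁻¹ = u⁻¹ := by rw [map_inv₀, Complex.conj_conj]
  rw [h2] at h1
  have h3 : HasDerivAt (fun u : ℂ => u⁻¹) (-(u ^ 2)⁻¹) u := hasDerivAt_inv hu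
  have h4 := (h1.comp u h3).differentiableAt
  refine h4.congr_of_eventuallyEq (Eventually.of_forall fun y => ?_)
  simp only [Function.comp_apply, map_inv₀]

variable {S : Set (Set ℂ)} {ψ : Hl S → ℂ → ℂ} {q : ℝ} {𝒲 : Set (List (Hl S))}
  {f : List (Hl S) → ℂ → ℂ}

/-- reflected words -/
def tw (j : Hl S) (𝒲 : Set (List (Hl S))) : Set (List (Hl S)) :=
  {w | w ∈ 𝒲 ∧ w.head? ≠ some j} ∪ {w | ∃ v ∈ 𝒲, v.head? ≠ some j ∧ w = j :: v}

open Classical in
/-- one reflection step -/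
theorem Sys.step (h : Sys S ψ q 𝒲 f) (hS : Adm S) (hC : Collar S ψ q) (j : Hl S)
    (h0 : [] ∈ 𝒲) (hpre : ∀ w k, w ++ [k] ∈ 𝒲 → w ∈ 𝒲) :
    ∃ f' : List (Hl S) → ℂ → ℂ, Sys S ψ q (tw j 𝒲) f' := by
  set 𝒱 : Set (List (Hl S)) := {w | w ∈ 𝒲 ∧ w.head? ≠ some j} with h𝒱
  have h' : Sys S ψ q 𝒱 f := h.mono fun w hw => hw.1
  have h0' : ([] : List (Hl S)) ∈ 𝒱 := ⟨h0, by simp⟩
  have hpre' : ∀ w k, w ++ [k] ∈ 𝒱 → w ∈ 𝒱 := by
    intro w k hwk
    refine ⟨hpre w k hwk.1, ?_⟩
    cases w with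
    | nil => simp
    | cons a w => simpa using hwk.2
  have hj : [j] ∉ 𝒱 := fun hmem => hmem.2 (by simp)
  obtain ⟨E, hEc, hEconn, hEf, hEnt, hEp, hEa, hElim⟩ := h'.exists_hull hS hC j h0' hpre' hj
  obtain ⟨G, c, ρ, hρ, hG, him⟩ := exists_ext hEc hEconn hEf hEnt
  have hρC : (ρ : ℂ) ^ 2 ≠ 0 := pow_ne_zero _ (by exact_mod_cast hρ.ne')
  have hEo : IsOpen Eᶜ := hEc.isClosed.isOpen_compl
  have hΩo := hS.isOpen_compl
  have hfE : ∀ w ∈ 𝒱, ∀ z ∈ (⋃₀ S)ᶜ, f w z ∈ Eᶜ := fun w hw z hz =>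
    disjoint_left.1 (hEp w hw) (mem_image_of_mem _ hz)
  have hGρ : ∀ y ∈ Eᶜ, ρ < ‖G y - c‖ := by
    intro y hy
    have h1 : G y ∈ (closedBall c ρ)ᶜ := him ▸ mem_image_of_mem _ hy
    rwa [mem_compl_iff, mem_closedBall, dist_eq_norm, not_le] at h1
  have hGne : ∀ n, ∀ y ∈ Eᶜ, cj n (G y) - cj n c ≠ 0 := by
    intro n y hy
    rw [← cj_sub, ← norm_pos_iff, cj_norm]
    exact hρ.trans (hGρ y hy)
  have hanG : ∀ w ∈ 𝒱, DifferentiableOn ℂ (fun z => cj w.length (G (f w z))) (⋃₀ S)ᶜ := by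
    intro w hw z hz
    have h1 : DifferentiableAt ℂ (fun z => cj w.length (f w z)) z :=
      (h'.ana w hw).differentiableAt (hΩo.mem_nhds hz)
    have h2 : DifferentiableAt ℂ G (cj w.length (cj w.length (f w z))) := by
      rw [cj_cj]
      exact hG.diff.differentiableAt (hEo.mem_nhds (hfE w hw z hz))
    have h3 := cj_diff (n := w.length) (G := G) (F := fun z => cj w.length (f w z)) h2 h1
    simp only [cj_cj] at h3
    exact h3.differentiableWithinAt
  have hinjG : ∀ w ∈ 𝒱, InjOn (fun z => G (f w z)) (⋃₀ S)ᶜ := fun w hw x hx y hy hxy =>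
    h'.inj w hw hx hy (hG.inj (hfE w hw x hx) (hfE w hw y hy) hxy)
  have hΦE : ∀ w k, w ∈ 𝒱 → w ++ [k] ∈ 𝒱 → ∀ Φ, Glu ψ q f w k Φ → ∀ u ∈ an q,
      cj w.length (Φ u) ∈ Eᶜ := fun w k hw hwk Φ hΦ u hu =>
    disjoint_left.1 (hEa w k hw hwk Φ hΦ) (mem_image_of_mem _ hu)
  have hΦd : ∀ w k, w ∈ 𝒱 → w ++ [k] ∈ 𝒱 → ∀ Φ, Glu ψ q f w k Φ →
      DifferentiableOn ℂ (fun u => cj w.length (G (cj w.length (Φ u)))) (an q) := by
    intro w k hw hwk Φ hΦ u hu
    have h1 : DifferentiableAt ℂ Φ u := hΦ.diff.differentiableAt ((isOpen_an q).mem_nhds hu)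
    exact (cj_diff (hG.diff.differentiableAt
      (hEo.mem_nhds (hΦE w k hw hwk Φ hΦ u hu))) h1).differentiableWithinAt
  set f' : List (Hl S) → ℂ → ℂ := fun w z =>
    if w.head? = some j then cinv c ρ (G (f w.tail z)) else G (f w z) with hf'
  have hf'1 : ∀ w z, f' (j :: w) z = cinv c ρ (G (f w z)) := by
    intro w z
    simp [hf']
  have hf'2 : ∀ w z, w.head? ≠ some j → f' w z = G (f w z) := by
    intro w z hw
    simp only [hf']
    rw [if_neg hw]
  have hf'2' : ∀ w, w.head? ≠ some j → f' w = fun z => G (f w z) := fun w hw =>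
    funext fun z => hf'2 w z hw
  have hf'1' : ∀ w, f' (j :: w) = fun z => cinv c ρ (G (f w z)) := fun w => funext fun z => hf'1 w z
  have hcase : ∀ w ∈ tw j 𝒲, w ∈ 𝒱 ∨ ∃ v ∈ 𝒱, w = j :: v := by
    rintro w (hw | ⟨v, hv, hvj, rfl⟩)
    · exact Or.inl hw
    · exact Or.inr ⟨v, ⟨hv, hvj⟩, rfl⟩
  refine ⟨f', ?_, ?_, ?_, ?_, ?_⟩
  · -- analyticity
    intro w hw
    rcases hcase w hw with hw | ⟨v, hv, rfl⟩
    · rw [hf'2' w hw.2]
      exact hanG w hw
    · rw [hf'1']
      have h1 : (fun z => cj (j :: v).length (cinv c ρ (G (f v z)))) =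
          fun z => cj v.length (conj c) + ρ ^ 2 / (cj v.length (G (f v z)) - cj v.length c) :=
        funext fun z => cj_cinv _ _ _ _
      simp only [h1]
      have h2 : DifferentiableOn ℂ (fun z => (ρ:ℂ) ^ 2 / (cj v.length (G (f v z)) -
          cj v.length c)) (⋃₀ S)ᶜ :=
        (differentiableOn_const _).div ((hanG v hv).sub_const _) fun z hz =>
          hGne _ _ (hfE v hv z hz)
      exact h2.const_add _
  · -- injectivity
    intro w hw
    rcases hcase w hw with hw | ⟨v, hv, rfl⟩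
    · rw [hf'2' w hw.2]
      exact hinjG w hw
    · rw [hf'1']
      exact fun x hx y hy hxy => hinjG v hv hx hy (cinv_inj hρ hxy)
  · -- disjointness
    have key1 : ∀ v ∈ 𝒱, ∀ w ∈ 𝒱, v ≠ w → ∀ x ∈ (⋃₀ S)ᶜ, ∀ y ∈ (⋃₀ S)ᶜ,
        G (f v x) ≠ G (f w y) := by
      intro v hv w hw hvw x hx y hy hxy
      have h1 := hG.inj (hfE v hv x hx) (hfE w hw y hy) hxy
      refine disjoint_left.1 (h'.disj v hv w hw hvw) (mem_image_of_mem _ hx) ?_
      rw [h1]
      exact mem_image_of_mem _ hy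
    have key2 : ∀ v ∈ 𝒱, ∀ w ∈ 𝒱, ∀ x ∈ (⋃₀ S)ᶜ, ∀ y ∈ (⋃₀ S)ᶜ,
        G (f v x) ≠ cinv c ρ (G (f w y)) := by
      intro v hv w hw x hx y hy hxy
      have h1 := hGρ _ (hfE v hv x hx)
      have h2 := hGρ _ (hfE w hw y hy)
      rw [hxy, norm_cinv_sub] at h1
      have h3 : ρ ^ 2 / ‖G (f w y) - c‖ < ρ := by
        rw [div_lt_iff₀ (hρ.trans h2)]
        nlinarith
      linarith
    intro v hv w hw hvw
    rw [disjoint_left]
    rintro _ ⟨x, hx, rfl⟩ ⟨y, hy, hxy⟩
    rcases hcase v hv with hv' | ⟨v', hv', rfl⟩ <;> rcases hcase w hw with hw' | ⟨w', hw', rfl⟩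
    · rw [hf'2 _ _ hv'.2, hf'2 _ _ hw'.2] at hxy
      exact key1 v hv' w hw' hvw x hx y hy hxy.symm
    · rw [hf'2 _ _ hv'.2, hf'1] at hxy
      exact key2 v hv' w' hw' x hx y hy hxy.symm
    · rw [hf'1, hf'2 _ _ hw'.2] at hxy
      exact key2 w hw' v' hv' y hy x hx hxy
    · rw [hf'1, hf'1] at hxy
      refine key1 v' hv' w' hw' (fun he => hvw (by rw [he])) x hx y hy (cinv_inj hρ hxy.symm)
  · -- gluing
    intro w k hw hwk
    by_cases hwj : w.head? = some j
    · obtain ⟨w', rfl⟩ : ∃ w', w = j :: w' := by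
        cases w with
        | nil => simp at hwj
        | cons a w =>
          simp only [List.head?_cons, Option.some.injEq] at hwj
          exact ⟨w, by rw [hwj]⟩
      have hw'k : w' ++ [k] ∈ 𝒱 := by
        rcases hcase _ hwk with h1 | ⟨v, hv, hvw⟩
        · exact absurd (by simp) h1.2
        · rw [List.cons_append, List.cons.injEq] at hvw
          rw [hvw.2]
          exact hv
      have hw' : w' ∈ 𝒱 := hpre' _ _ hw'k
      obtain ⟨Φ, hΦ⟩ := h'.glue w' k hw' hw'k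
      set n := w'.length with hn
      refine ⟨fun u => cj n (conj c) + ρ ^ 2 / (cj n (G (cj n (Φ u))) - cj n c), ?_, ?_, ?_⟩
      · have h2 : DifferentiableOn ℂ (fun u => (ρ:ℂ) ^ 2 / (cj n (G (cj n (Φ u))) - cj n c))
            (an q) :=
          (differentiableOn_const _).div ((hΦd w' k hw' hw'k Φ hΦ).sub_const _) fun u hu =>
            hGne _ _ (hΦE w' k hw' hw'k Φ hΦ u hu)
        exact h2.const_add _
      · intro u hu
        rw [hf'1, List.length_cons, cj_cinv, hΦ.out u hu, cj_cj]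
      · intro u hu
        rw [List.cons_append, hf'1, List.length_cons, cj_cinv, hΦ.inn u hu, cj_cj]
    · have hw' : w ∈ 𝒱 := by
        rcases hcase w hw with h1 | ⟨v, hv, rfl⟩
        · exact h1
        · exact absurd (by simp) hwj
      by_cases hwkj : (w ++ [k]).head? = some j
      · have hw0 : w = [] := by
          cases w with
          | nil => rfl
          | cons a w =>
            exfalso
            apply hwj
            simpa using hwkj
        subst hw0
        have hkj : k = j := by simpa using hwkj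
        subst hkj
        -- the new gluing
        obtain ⟨R, hR, hSR⟩ := hS.bdd
        have hU : (closedBall (0:ℂ) R)ᶜ ⊆ (⋃₀ S)ᶜ := compl_subset_compl.2 hSR
        obtain ⟨s, hs1, hsq, hsR⟩ := hC.small hS k hSR
        have hNU : NU (⋃₀ S)ᶜ (fun z => G (f [] z)) := h'.norm.comp hG (hfE [] h0')
        have hHd : DifferentiableOn ℂ (fun u => G (f [] (ψ k u))) (ao q) :=
          hNU.diff.comp (hC.diff k) fun u hu => hC.maps k u hu
        have hHtd : DifferentiableOn ℂ (fun u => cinv c ρ (G (f [] (ψ k (conj u)⁻¹)))) (ai q) := by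
          intro u hu
          have hu' := conj_inv_mem_ao hC.q1 hu
          have hune : u ≠ 0 := by
            intro h0
            have := hu.1
            rw [h0, norm_zero] at this
            exact absurd this (not_lt.2 (inv_nonneg.2 (one_pos.trans hC.q1).le))
          have h1 : DifferentiableAt ℂ (fun u => G (f [] (ψ k u))) (conj u)⁻¹ :=
            hHd.differentiableAt ((isOpen_ao q).mem_nhds hu')
          have h2 := diff_conj_inv hune h1
          have h3 : conj (G (f [] (ψ k (conj u)⁻¹))) - conj c ≠ 0 := by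
            rw [← map_sub]
            refine (map_ne_zero _).2 (norm_pos_iff.1 (hρ.trans (hGρ _ ?_)))
            exact hfE [] h0' _ (hC.maps k _ hu')
          have h4 : DifferentiableAt ℂ (fun u => c + (ρ:ℂ) ^ 2 /
              (conj (G (f [] (ψ k (conj u)⁻¹))) - conj c)) u :=
            ((differentiableAt_const _).div (h2.sub_const _) h3).const_add _
          have h5 : (fun u => cinv c ρ (G (f [] (ψ k (conj u)⁻¹)))) = fun u => c + (ρ:ℂ) ^ 2 /
              (conj (G (f [] (ψ k (conj u)⁻¹))) - conj c) := by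
            funext u
            rw [cinv, map_sub]
          rw [h5]
          exact h4.differentiableWithinAt
        obtain ⟨Φ, hΦd', hΦo, hΦi⟩ := glue_extend hC.q1 hHd hHtd (M := 5 * (R + 1))
          ⟨s, hs1, fun u hu1 hu2 => by
            refine hNU.norm_le (by linarith) ((compl_subset_compl.2
              (closedBall_subset_closedBall (by linarith))).trans hU)
              (hC.maps k u ⟨hu1, hu2.trans_le hsq⟩) ?_
            exact (hsR u ⟨hu1, hu2⟩).le⟩ (by
            intro ε hε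
            -- neighbourhood of the hull
            have hev : ∃ W : Set ℂ, IsOpen W ∧ E ⊆ W ∧ ∀ y ∈ W ∩ Eᶜ, ‖G y - c‖ < ρ + ε / 2 := by
              refine ⟨interior {y | y ∈ E ∨ ‖G y - c‖ < ρ + ε / 2}, isOpen_interior, ?_, ?_⟩
              · intro x hx
                rw [mem_interior_iff_mem_nhds]
                have h1 : Tendsto (fun z => ‖G z - c‖) (𝓝[Eᶜ] x) (𝓝 ρ) :=
                  ext_lim hEc hG him hx (tendsto_id.mono_left nhdsWithin_le_nhds) self_mem_nhdsWithin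
                have h2 : ∀ᶠ z in 𝓝[Eᶜ] x, ‖G z - c‖ < ρ + ε / 2 :=
                  h1.eventually (gt_mem_nhds (by linarith))
                rw [eventually_nhdsWithin_iff] at h2
                filter_upwards [h2] with z hz
                by_cases hzE : z ∈ E
                · exact Or.inl hzE
                · exact Or.inr (hz hzE)
              · rintro y ⟨hy, hyE⟩
                exact (interior_subset hy).resolve_left hyE
            obtain ⟨W, hWo, hEW, hW⟩ := hev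
            obtain ⟨s', hs'1, hs'q, hs'⟩ := hElim W hWo hEW
            refine ⟨s', hs'1, fun u hu1 hu2 => ?_⟩
            have h1 := hs' u ⟨hu1, hu2⟩
            have hmem : f [] (ψ k u) ∈ Eᶜ := hfE [] h0' _ (hC.maps k u ⟨hu1, hu2.trans_le hs'q⟩)
            have h2 := hW _ ⟨h1, hmem⟩
            rw [conj_inv_conj_inv]
            refine (norm_sub_cinv hρ (hGρ _ hmem)).trans ?_
            linarith)
        refine ⟨Φ, hΦd', fun u hu => ?_, fun u hu => ?_⟩
        · rw [hΦo u hu, hf'2 _ _ (by simp)]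
          simp
        · rw [hΦi u hu, List.nil_append, hf'1]
          simp
      · have hwk' : w ++ [k] ∈ 𝒱 := by
          rcases hcase _ hwk with h1 | ⟨v, hv, h2⟩
          · exact h1
          · exact absurd (by rw [h2]; simp) hwkj
        obtain ⟨Φ, hΦ⟩ := h'.glue w k hw' hwk'
        refine ⟨fun u => cj w.length (G (cj w.length (Φ u))), hΦd w k hw' hwk' Φ hΦ, ?_, ?_⟩
        · intro u hu
          rw [hf'2 _ _ hwj, hΦ.out u hu, cj_cj]
        · intro u hu
          rw [hf'2 _ _ hwkj, hΦ.inn u hu, cj_cj]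
  · rw [hf'2' [] (by simp)]
    exact h'.norm.comp hG (hfE [] h0')

end Vale.Agent.P116.H906
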