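import Mathlib
import Vale.Agent.P116.H906.Step

/-!
Systems on all reduced words up to a given length.
-/

open Filter Topology Set Metric Bornology
open scoped Real ComplexConjugate

namespace Vale.Agent.P116.H906

variable {S : Set (Set ℂ)} {ψ : Hl S → ℂ → ℂ} {q : ℝ} {𝒲 : Set (List (Hl S))}
  {f : List (Hl S) → ℂ → ℂ}

/-- reduced words -/
def Rd (w : List (Hl S)) : Prop := List.IsChain (· ≠ ·) w

lemma rd_nil : Rd ([] : List (Hl S)) := List.isChain_nil

lemma rd_cons {a : Hl S} {w : List (Hl S)} : Rd (a :: w) ↔ w.head? ≠ some a ∧ Rd w := by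
  rw [Rd, List.isChain_cons, Rd]
  refine and_congr_left fun _ => ⟨fun h hw => h a (by rw [hw]; rfl) rfl, fun h y hy he => h ?_⟩
  rw [he]
  exact hy

lemma rd_left {w v : List (Hl S)} (h : Rd (w ++ v)) : Rd w := List.IsChain.left_of_append h

lemma rd_append {w : List (Hl S)} {k : Hl S} :
    Rd (w ++ [k]) ↔ Rd w ∧ w.getLast? ≠ some k := by
  rw [Rd, List.isChain_append, Rd]
  constructor
  · rintro ⟨h1, -, h2⟩
    exact ⟨h1, fun hw => h2 k (by rw [hw]; rfl) k (by simp) rfl⟩
  · rintro ⟨h1, h2⟩
    refine ⟨h1, List.isChain_singleton _, fun x hx y hy hxy => h2 ?_⟩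
    have h3 : k = y := by simpa using hy
    rw [h3, ← hxy]
    exact hx

/-- words of bounded length -/
def Wd (S : Set (Set ℂ)) (m : ℕ) : Set (List (Hl S)) := {w | Rd w ∧ w.length ≤ m}

theorem exists_sys (hS : Adm S) (hC : Collar S ψ q) (m : ℕ) :
    ∃ f : List (Hl S) → ℂ → ℂ, Sys S ψ q (Wd S m) f := by
  classical
  induction m with
  | zero =>
    refine ⟨fun _ z => z, ?_, ?_, ?_, ?_, ?_⟩
    · intro w hw
      have h1 : w = [] := List.eq_nil_of_length_eq_zero (Nat.le_zero.1 hw.2)
      subst h1
      simp only [List.length_nil, cj_zero']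
      exact differentiableOn_id
    · exact fun w _ x _ y _ hxy => hxy
    · intro v hv w hw hvw
      exact absurd ((List.eq_nil_of_length_eq_zero (Nat.le_zero.1 hv.2)).trans
        (List.eq_nil_of_length_eq_zero (Nat.le_zero.1 hw.2)).symm) hvw
    · intro w k _ hwk
      have h1 := hwk.2
      simp at h1
    · refine ⟨differentiableOn_id, fun x _ y _ hxy => hxy, ?_⟩
      simp
  | succ m ih =>
    obtain ⟨f, hf⟩ := ih
    have hfin : Finite (Hl S) := hS.fin
    have key : ∀ J : Set (Hl S), J.Finite → ∃ f : List (Hl S) → ℂ → ℂ,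
        Sys S ψ q {w | Rd w ∧ (w.length ≤ m ∨ (w.length = m + 1 ∧ ∃ j ∈ J, w.head? = some j))} f := by
      intro J hJ
      induction J, hJ using Set.Finite.induction_on with
      | empty =>
        refine ⟨f, hf.mono ?_⟩
        rintro w ⟨hw, h1 | ⟨-, j, hj, -⟩⟩
        · exact ⟨hw, h1⟩
        · exact absurd hj (notMem_empty j)
      | @insert j J hjJ hJ ih =>
        obtain ⟨g, hg⟩ := ih
        obtain ⟨g', hg'⟩ := hg.step hS hC j ⟨rd_nil, Or.inl (Nat.zero_le _)⟩ (by
          rintro w k ⟨hw, h1⟩
          refine ⟨rd_left hw, Or.inl ?_⟩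
          rw [List.length_append, List.length_singleton] at h1
          omega)
        refine ⟨g', hg'.mono ?_⟩
        rintro w ⟨hw, h1⟩
        by_cases hwj : w.head? = some j
        · right
          cases w with
          | nil => simp at hwj
          | cons a v =>
            simp only [List.head?_cons, Option.some.injEq] at hwj
            subst hwj
            rw [rd_cons] at hw
            refine ⟨v, ⟨hw.2, Or.inl ?_⟩, hw.1, rfl⟩
            rw [List.length_cons] at h1
            omega
        · left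
          refine ⟨⟨hw, ?_⟩, hwj⟩
          rcases h1 with h1 | ⟨h1, i, hi, h2⟩
          · exact Or.inl h1
          · refine Or.inr ⟨h1, i, ?_, h2⟩
            rcases hi with rfl | hi
            · exact absurd h2 hwj
            · exact hi
    obtain ⟨g, hg⟩ := key univ (toFinite _)
    refine ⟨g, hg.mono ?_⟩
    rintro w ⟨hw, h1⟩
    refine ⟨hw, ?_⟩
    rcases Nat.lt_or_ge m w.length with h2 | h2
    · right
      refine ⟨by omega, ?_⟩
      cases w with
      | nil => simp at h2
      | cons a v => exact ⟨a, mem_univ _, rfl⟩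
    · exact Or.inl h2

end Vale.Agent.P116.H906
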