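import Mathlib
import Vale.Agent.P116.H906.Words
import Vale.Agent.P116.H906.Lim

/-!
The full system, by compactness.
-/

open Filter Topology Set Metric Bornology
open scoped Real ComplexConjugate

namespace Vale.Agent.P116.H906

lemma ne_of_lim {α : Type*} {𝒰 : Filter α} [𝒰.NeBot] {U : Set ℂ} (hU : IsOpen U)
    {F : α → ℂ → ℂ} {g : ℂ → ℂ} (hF : TendstoLocallyUniformlyOn F g 𝒰 U)
    (hd : ∀ᶠ a in 𝒰, DifferentiableOn ℂ (F a) U) {y : α → ℂ} {y₀ : ℂ}
    (hy : Tendsto y 𝒰 (𝓝 y₀)) (hne : ∀ᶠ a in 𝒰, ∀ z ∈ U, F a z ≠ y a)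
    (hnc : ∀ b ∈ U, ¬ ∀ᶠ z in 𝓝 b, g z = g b) {b : ℂ} (hb : b ∈ U) : g b ≠ y₀ := by
  intro hby
  subst hby
  obtain ⟨r, hr, hrU⟩ := Metric.isOpen_iff.1 hU b hb
  have h1 : TendstoLocallyUniformlyOn (fun a z => F a z - y a) (fun z => g z - g b) 𝒰
      (ball b r) := by
    have hw1 : TendstoLocallyUniformlyOn (fun a (_ : ℂ) => y a) (fun _ => g b) 𝒰 (ball b r) := by
      rw [Metric.tendstoLocallyUniformlyOn_iff]
      intro ε hε x hx
      refine ⟨univ, univ_mem, ?_⟩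
      filter_upwards [hy.eventually (ball_mem_nhds _ hε)] with a ha y _
      rw [dist_comm]
      exact ha
    exact (hF.mono hrU).sub hw1
  have h2 := hurwitz' hr h1
    (by filter_upwards [hd] with a h1 using (h1.mono hrU).sub_const _)
    (by
      filter_upwards [hne] with a h2 z hz h3
      exact h2 z (hrU hz) (sub_eq_zero.1 h3))
    (fun hev => hnc b hb (by filter_upwards [hev] with z hz using sub_eq_zero.1 hz))
  exact h2 (sub_self _)

lemma inj_of_lim {α : Type*} {𝒰 : Filter α} [𝒰.NeBot] {U : Set ℂ} (hU : IsOpen U)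
    {F : α → ℂ → ℂ} {g : ℂ → ℂ} (hF : TendstoLocallyUniformlyOn F g 𝒰 U)
    (hd : ∀ᶠ a in 𝒰, DifferentiableOn ℂ (F a) U) (hinj : ∀ᶠ a in 𝒰, InjOn (F a) U)
    (hnc : ∀ b ∈ U, ¬ ∀ᶠ z in 𝓝 b, g z = g b) : InjOn g U := by
  intro x hx b hb hxb
  by_contra hne
  have hU' : IsOpen (U \ {x}) := hU.sdiff isClosed_singleton
  refine ne_of_lim hU' (hF.mono sdiff_subset) ?_ (hF.tendsto_at hx) ?_
    (fun b hb => hnc b hb.1) (b := b) ⟨hb, fun h => hne (h ▸ rfl)⟩ hxb.symm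
  · filter_upwards [hd] with a ha using ha.mono sdiff_subset
  · filter_upwards [hinj] with a ha z hz h
    exact hz.2 (ha hz.1 hx h)

lemma not_ev_const_of_inj {U : Set ℂ} (hU : IsOpen U) {g : ℂ → ℂ} (hinj : InjOn g U) :
    ∀ b ∈ U, ¬ ∀ᶠ z in 𝓝 b, g z = g b := by
  intro b hb hev
  have h1 : ∀ᶠ z in 𝓝[≠] b, g z = g b ∧ z ∈ U :=
    (hev.and (hU.mem_nhds hb)).filter_mono nhdsWithin_le_nhds
  obtain ⟨z, ⟨h2, h3⟩, h4⟩ := (h1.and self_mem_nhdsWithin).exists
  exact h4 (hinj h3 hb h2)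

variable {S : Set (Set ℂ)} {ψ : Hl S → ℂ → ℂ} {q : ℝ} {𝒲 : Set (List (Hl S))}
  {f : List (Hl S) → ℂ → ℂ}

/-- bounds away from infinity -/
lemma Sys.bound (h : Sys S ψ q 𝒲 f) {R : ℝ} (hR : 0 < R) (hSR : ⋃₀ S ⊆ closedBall (0:ℂ) R)
    (h0 : [] ∈ 𝒲) {w : List (Hl S)} (hw : w ∈ 𝒲) {z : ℂ} (hz : z ∈ (⋃₀ S)ᶜ) {R' : ℝ}
    (hR' : R ≤ R') (hzR : ‖z‖ ≤ R') : ‖f w z‖ ≤ 5 * R' := by
  have hU : (closedBall (0:ℂ) R')ᶜ ⊆ (⋃₀ S)ᶜ :=
    compl_subset_compl.2 (hSR.trans (closedBall_subset_closedBall hR'))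
  by_cases hw0 : w = []
  · subst hw0
    exact h.norm.norm_le (by linarith) hU hz hzR
  · refine h.norm.omitted (by linarith) hU fun x hx hxz => ?_
    refine disjoint_left.1 (h.disj w hw [] h0 hw0) (mem_image_of_mem _ hz) ?_
    rw [← hxz]
    exact mem_image_of_mem _ (hU hx)

lemma Sys.bound' (h : Sys S ψ q 𝒲 f) {R : ℝ} (hR : 0 < R) (hSR : ⋃₀ S ⊆ closedBall (0:ℂ) R)
    (h0 : [] ∈ 𝒲) {w : List (Hl S)} (hw : w ∈ 𝒲) (hw0 : w ≠ []) {z : ℂ} (hz : z ∈ (⋃₀ S)ᶜ) :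
    ‖f w z‖ ≤ 5 * R := by
  have hU : (closedBall (0:ℂ) R)ᶜ ⊆ (⋃₀ S)ᶜ := compl_subset_compl.2 hSR
  refine h.norm.omitted hR hU fun x hx hxz => ?_
  refine disjoint_left.1 (h.disj w hw [] h0 hw0) (mem_image_of_mem _ hz) ?_
  rw [← hxz]
  exact mem_image_of_mem _ (hU hx)

/-- a common local bound for gluing functions -/
lemma exists_local_bound (hS : Adm S) (hC : Collar S ψ q) (k : Hl S) {u : ℂ} (hu : u ∈ an q) :
    ∃ r > 0, ∃ M : ℝ, ball u r ⊆ an q ∧ ∀ (𝒲 : Set (List (Hl S))) (f : List (Hl S) → ℂ → ℂ),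
      Sys S ψ q 𝒲 f → [] ∈ 𝒲 → ∀ w, w ∈ 𝒲 → w ++ [k] ∈ 𝒲 → ∀ Φ, Glu ψ q f w k Φ →
        ∀ v ∈ ball u r, ‖Φ v‖ ≤ M := by
  obtain ⟨R, hR, hSR⟩ := hS.bdd
  have hU : (closedBall (0:ℂ) R)ᶜ ⊆ (⋃₀ S)ᶜ := compl_subset_compl.2 hSR
  obtain ⟨r₀, hr₀, hr₀a⟩ := Metric.isOpen_iff.1 (isOpen_an q) u hu
  -- local bound of the collar map
  obtain ⟨r₁, hr₁, R', hR', hb⟩ : ∃ r > 0, ∃ R' ≥ R, ∀ v ∈ ball u r ∩ ao q, ‖ψ k v‖ ≤ R' := by
    rcases le_or_gt ‖u‖ 1 with hu1 | hu1
    · obtain ⟨s, hs1, hsq, hsR⟩ := hC.small hS k hSR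
      refine ⟨s - 1, by linarith, R + 1, by linarith, fun v hv => (hsR v ⟨hv.2.1, ?_⟩).le⟩
      have h1 := hv.1
      rw [mem_ball, dist_eq_norm] at h1
      have := norm_sub_norm_le v u
      linarith
    · have huo : u ∈ ao q := ⟨hu1, hu.2⟩
      have hc : ContinuousAt (ψ k) u :=
        (hC.diff k).continuousOn.continuousAt ((isOpen_ao q).mem_nhds huo)
      have h1 : ∀ᶠ v in 𝓝 u, ‖ψ k v‖ < ‖ψ k u‖ + 1 :=
        hc.norm.eventually (gt_mem_nhds (by linarith))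
      obtain ⟨r, hr, h2⟩ := Metric.eventually_nhds_iff_ball.1 h1
      exact ⟨r, hr, max R (‖ψ k u‖ + 1), le_max_left _ _, fun v hv =>
        (h2 v hv.1).le.trans (le_max_right _ _)⟩
  refine ⟨min r₀ r₁, lt_min hr₀ hr₁, 5 * R', (ball_subset_ball (min_le_left _ _)).trans hr₀a, ?_⟩
  intro 𝒲 f h h0 w hw hwk Φ hΦ v hv
  have hva : v ∈ an q := hr₀a (ball_subset_ball (min_le_left _ _) hv)
  rcases an_cases hva with h1 | h1 | h1
  · rw [hΦ.out v h1, cj_norm]
    exact h.bound hR hSR h0 hw (hC.maps k v h1) hR'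
      (hb v ⟨ball_subset_ball (min_le_right _ _) hv, h1⟩)
  · have h2 : ‖Φ v‖ ≤ 5 * R := by
      rw [← cj_norm w.length]
      refine h.norm.omitted hR hU fun x hx hxz => ?_
      refine h.cp hS hC hw hwk hΦ h1 h0 ?_
      rw [← hxz]
      exact mem_image_of_mem _ (hU hx)
    linarith
  · rw [hΦ.inn v h1, cj_norm]
    have := h.bound' hR hSR h0 hwk (by simp) (hC.maps k _ (conj_inv_mem_ao hC.q1 h1))
    linarith

/-- **the full system** -/
theorem exists_full_sys (hS : Adm S) (hC : Collar S ψ q) :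
    ∃ f : List (Hl S) → ℂ → ℂ, Sys S ψ q {w | Rd w} f := by
  obtain ⟨R, hR, hSR⟩ := hS.bdd
  have hU : (closedBall (0:ℂ) R)ᶜ ⊆ (⋃₀ S)ᶜ := compl_subset_compl.2 hSR
  have hΩo := hS.isOpen_compl
  have hΩc : IsPreconnected (⋃₀ S)ᶜ := hS.full.isPreconnected_compl hS.isCompact.isBounded
  choose fm hfm using fun m => exists_sys hS hC m
  set 𝒰 : Ultrafilter ℕ := Ultrafilter.of atTop with h𝒰
  have h𝒰le : (𝒰 : Filter ℕ) ≤ atTop := Ultrafilter.of_le atTop
  have hmem : ∀ w : List (Hl S), Rd w → ∀ᶠ m in (𝒰 : Filter ℕ), w ∈ Wd S m := by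
    intro w hw
    filter_upwards [h𝒰le (eventually_ge_atTop w.length)] with m hm
    exact ⟨hw, hm⟩
  have hnil : ∀ m, ([] : List (Hl S)) ∈ Wd S m := fun m => ⟨rd_nil, Nat.zero_le _⟩
  -- limits of the maps
  have hlim : ∀ w : List (Hl S), ∃ g : ℂ → ℂ, Rd w →
      TendstoLocallyUniformlyOn (fun m z => cj w.length (fm m w z)) g (𝒰 : Filter ℕ) (⋃₀ S)ᶜ := by
    intro w
    by_cases hw : Rd w
    · obtain ⟨g, hg⟩ := exists_lim 𝒰 (U := (⋃₀ S)ᶜ) (fun m z => cj w.length (fm m w z)) (by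
        intro z hz
        obtain ⟨r, hr, hrΩ⟩ := Metric.isOpen_iff.1 hΩo z hz
        refine ⟨r, hr, 5 * max R (‖z‖ + r), hrΩ, ?_⟩
        filter_upwards [hmem w hw] with m hm
        refine ⟨((hfm m).ana w hm).mono hrΩ, fun x hx => ?_⟩
        rw [cj_norm]
        refine (hfm m).bound hR hSR (hnil m) hm (hrΩ hx) (le_max_left _ _) ?_
        refine le_trans ?_ (le_max_right _ _)
        rw [mem_ball, dist_eq_norm] at hx
        have := norm_sub_norm_le x z
        linarith)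
      exact ⟨g, fun _ => hg⟩
    · exact ⟨id, fun h => absurd h hw⟩
  choose g hg using hlim
  set f : List (Hl S) → ℂ → ℂ := fun w z => cj w.length (g w z) with hf
  have hgf : ∀ w z, cj w.length (f w z) = g w z := fun w z => by
    simp only [hf, cj_cj]
  have hpt : ∀ w, Rd w → ∀ z ∈ (⋃₀ S)ᶜ,
      Tendsto (fun m => fm m w z) (𝒰 : Filter ℕ) (𝓝 (f w z)) := by
    intro w hw z hz
    have h1 := (continuous_cj w.length).continuousAt.tendsto.comp ((hg w hw).tendsto_at hz)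
    refine h1.congr fun m => ?_
    simp only [Function.comp_apply, cj_cj]
  have hana : ∀ w, Rd w → DifferentiableOn ℂ (fun z => cj w.length (f w z)) (⋃₀ S)ᶜ := by
    intro w hw
    simp only [hgf]
    refine (hg w hw).differentiableOn ?_ hΩo
    filter_upwards [hmem w hw] with m hm using (hfm m).ana w hm
  -- the empty word
  have hexh : Exh (𝒰 : Filter ℕ) (⋃₀ S)ᶜ (fun _ => (⋃₀ S)ᶜ) (fun m => fm m []) R := by
    refine ⟨hΩo, hΩc, hR, hU, Eventually.of_forall fun _ => hU,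
      Eventually.of_forall fun m => (hfm m).norm, ?_⟩
    intro z hz
    obtain ⟨r, hr, hrΩ⟩ := Metric.isOpen_iff.1 hΩo z hz
    exact ⟨r, hr, hrΩ, Eventually.of_forall fun _ => hrΩ⟩
  have hnorm : NU (⋃₀ S)ᶜ (f []) := by
    have h1 := hg [] rd_nil
    simp only [List.length_nil, cj_zero'] at h1
    have h2 := hexh.lim_nu h1
    have h3 : f [] = g [] := funext fun z => by simp [hf]
    rw [h3]
    exact h2
  -- limits of the gluing functions
  have hglue : ∀ w k, Rd w → Rd (w ++ [k]) → ∃ Φ : ℂ → ℂ, Glu ψ q f w k Φ := by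
    intro w k hw hwk
    have hex : ∀ m, ∃ Φ : ℂ → ℂ, w ++ [k] ∈ Wd S m → Glu ψ q (fm m) w k Φ := by
      intro m
      by_cases hm : w ++ [k] ∈ Wd S m
      · obtain ⟨Φ, hΦ⟩ := (hfm m).glue w k ⟨hw, by
          have := hm.2
          rw [List.length_append] at this
          omega⟩ hm
        exact ⟨Φ, fun _ => hΦ⟩
      · exact ⟨id, fun h => absurd h hm⟩
    choose Φm hΦm using hex
    obtain ⟨Φ, hΦ⟩ := exists_lim 𝒰 (U := an q) Φm (by
      intro u hu
      obtain ⟨r, hr, M, hra, hM⟩ := exists_local_bound hS hC k hu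
      refine ⟨r, hr, M, hra, ?_⟩
      filter_upwards [hmem w hw, hmem _ hwk] with m hm hmk
      exact ⟨(hΦm m hmk).diff.mono hra, hM _ _ (hfm m) (hnil m) w hm hmk _ (hΦm m hmk)⟩)
    refine ⟨Φ, ?_, ?_, ?_⟩
    · refine hΦ.differentiableOn ?_ (isOpen_an q)
      filter_upwards [hmem _ hwk] with m hmk using (hΦm m hmk).diff
    · intro u hu
      have h1 := hΦ.tendsto_at (ao_subset_an hC.q1 hu)
      have h2 := (continuous_cj w.length).continuousAt.tendsto.comp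
        (hpt w hw _ (hC.maps k u hu))
      refine tendsto_nhds_unique (h1.congr' ?_) h2
      filter_upwards [hmem _ hwk] with m hmk
      exact (hΦm m hmk).out u hu
    · intro u hu
      have h1 := hΦ.tendsto_at (ai_subset_an hC.q1 hu)
      have h2 := (continuous_cj w.length).continuousAt.tendsto.comp
        (hpt _ hwk _ (hC.maps k _ (conj_inv_mem_ao hC.q1 hu)))
      refine tendsto_nhds_unique (h1.congr' ?_) h2
      filter_upwards [hmem _ hwk] with m hmk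
      exact (hΦm m hmk).inn u hu
  -- injectivity
  have hinj : ∀ w, Rd w → InjOn (f w) (⋃₀ S)ᶜ := by
    intro w
    induction w using List.reverseRecOn with
    | nil =>
      intro _
      exact hnorm.inj
    | append_singleton w k ih =>
      intro hwk
      have hw := rd_left hwk
      have hwinj := ih hw
      obtain ⟨Φ, hΦ⟩ := hglue w k hw hwk
      have hgd : DifferentiableOn ℂ (g (w ++ [k])) (⋃₀ S)ᶜ := by
        have := hana _ hwk
        simpa only [hgf] using this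
      have hnc : ∀ b ∈ (⋃₀ S)ᶜ, ¬ ∀ᶠ z in 𝓝 b, g (w ++ [k]) z = g (w ++ [k]) b := by
        intro b hb hev
        have hcst : EqOn (g (w ++ [k])) (fun _ => g (w ++ [k]) b) (⋃₀ S)ᶜ :=
          (hgd.analyticOnNhd hΩo).eqOn_of_preconnected_of_eventuallyEq
            (fun _ _ => analyticAt_const) hΩc hb hev
        have hfc : ∀ z ∈ (⋃₀ S)ᶜ, f (w ++ [k]) z = f (w ++ [k]) b := by
          intro z hz
          simp only [hf]
          rw [hcst hz]
        have han : AnalyticOnNhd ℂ Φ (an q) := hΦ.diff.analyticOnNhd (isOpen_an q)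
        obtain ⟨u, hu⟩ := ao_nonempty hC.q1
        have hu' := conj_inv_mem_ai hC.q1 hu
        have hΦc : EqOn Φ (fun _ => cj w.length (f (w ++ [k]) b)) (an q) := by
          refine han.eqOn_of_preconnected_of_eventuallyEq (fun _ _ => analyticAt_const)
            (isPreconnected_an hC.q1) (ai_subset_an hC.q1 hu') ?_
          filter_upwards [(isOpen_ai q).mem_nhds hu'] with x hx
          rw [hΦ.inn x hx, hfc _ (hC.maps k _ (conj_inv_mem_ao hC.q1 hx))]
        have h2 : -u ∈ ao q := ⟨by rw [norm_neg]; exact hu.1, by rw [norm_neg]; exact hu.2⟩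
        have h3 := (hΦc (ao_subset_an hC.q1 hu)).trans (hΦc (ao_subset_an hC.q1 h2)).symm
        rw [hΦ.out _ hu, hΦ.out _ h2] at h3
        have h4 := hC.inj k hu h2 (hwinj (hC.maps k _ hu) (hC.maps k _ h2) (cj_inj h3))
        have h5 : u = 0 := by
          have : u + u = 0 := by
            nth_rw 1 [h4]
            ring
          linear_combination this / 2
        have h6 := hu.1
        rw [h5, norm_zero] at h6
        linarith
      have h1 : InjOn (g (w ++ [k])) (⋃₀ S)ᶜ := by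
        refine inj_of_lim hΩo (hg _ hwk) ?_ ?_ hnc
        · filter_upwards [hmem _ hwk] with m hm using (hfm m).ana _ hm
        · filter_upwards [hmem _ hwk] with m hm x hx y hy hxy
          exact (hfm m).inj _ hm hx hy (cj_inj hxy)
      intro x hx y hy hxy
      exact h1 hx hy (cj_inj hxy)
  refine ⟨f, hana, hinj, ?_, fun w k hw hwk => hglue w k hw hwk, hnorm⟩
  -- disjointness
  intro v hv w hw hvw
  rw [disjoint_left]
  rintro _ ⟨x, hx, rfl⟩ ⟨b, hb, hxb⟩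
  have hginj : InjOn (g w) (⋃₀ S)ᶜ := by
    intro x hx y hy hxy
    refine hinj w hw hx hy ?_
    simp only [hf, hxy]
  have hgd : DifferentiableOn ℂ (g w) (⋃₀ S)ᶜ := by
    have := hana _ hw
    simpa only [hgf] using this
  refine ne_of_lim hΩo (hg w hw) ?_ (y := fun m => cj w.length (fm m v x))
    (y₀ := cj w.length (f v x)) ?_ ?_ (not_ev_const_of_inj hΩo hginj) hb ?_
  · filter_upwards [hmem _ hw] with m hm using (hfm m).ana _ hm
  · exact (continuous_cj w.length).continuousAt.tendsto.comp (hpt v hv x hx)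
  · filter_upwards [hmem _ hw, hmem _ hv] with m hmw hmv z hz he
    refine disjoint_left.1 ((hfm m).disj v hmv w hmw hvw) (mem_image_of_mem _ hx) ?_
    rw [← cj_inj he]
    exact mem_image_of_mem _ hz
  · rw [← hxb, hgf]

end Vale.Agent.P116.H906
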