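import Mathlib

/-!
The length-area estimate with holes.
-/

open Set Filter Topology Metric MeasureTheory
open scoped Real ENNReal

namespace Vale.Agent.P116.H906

/-- open annulus -/
def ann (x : ℂ) (r : ℝ) : Set ℂ := {w | dist w x ∈ Ioo r (2 * r)}

/-- the length of the set of radii in `(r, 2 r)` whose circles about `x` meet `Q` -/
noncomputable def exten (x : ℂ) (Q : Set ℂ) (r : ℝ) : ℝ :=
  volume.real (Ioo r (2 * r) ∩ {ρ | (Q ∩ sphere x ρ).Nonempty})

lemma isOpen_ann (x : ℂ) (r : ℝ) : IsOpen (ann x r) :=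
  isOpen_Ioo.preimage (continuous_id.dist continuous_const)

lemma polar_ann (x : ℂ) {r : ℝ} (hr : 0 < r) {G : ℂ → ℝ≥0∞} (hG : Measurable G) :
    ∫⁻ ρ in Ioo r (2 * r), ∫⁻ θ in Ioo (-π) π, ENNReal.ofReal ρ * G (circleMap x ρ θ) =
      ∫⁻ w in ann x r, G w := by
  have hGi : Measurable ((ann x r).indicator G) := hG.indicator (isOpen_ann x r).measurableSet
  have h1 : ∫⁻ w in ann x r, G w = ∫⁻ w, (ann x r).indicator G (x + w) := by
    rw [← lintegral_indicator (isOpen_ann x r).measurableSet]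
    exact (lintegral_add_left_eq_self _ x).symm
  have hcm : ∀ p : ℝ × ℝ, x + Complex.polarCoord.symm p = circleMap x p.1 p.2 := by
    intro p
    rw [Complex.polarCoord_symm_apply, circleMap, Complex.exp_mul_I]
    push_cast
    ring
  rw [h1, ← Complex.lintegral_comp_polarCoord_symm]
  have h2 : Complex.polarCoord.target = Ioi (0:ℝ) ×ˢ Ioo (-π) π := Complex.polarCoord_target
  have htar : polarCoord.target = Ioi (0:ℝ) ×ˢ Ioo (-π) π := rfl
  rw [htar, Measure.volume_eq_prod, ← Measure.prod_restrict]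
  simp only [hcm, smul_eq_mul]
  have hmeas : Measurable fun p : ℝ × ℝ =>
      ENNReal.ofReal p.1 * (ann x r).indicator G (circleMap x p.1 p.2) := by
    refine (ENNReal.measurable_ofReal.comp measurable_fst).mul (hGi.comp ?_)
    have : Continuous fun p : ℝ × ℝ => circleMap x p.1 p.2 := by
      simp only [circleMap]
      fun_prop
    exact this.measurable
  rw [lintegral_prod _ hmeas.aemeasurable]
  have h3 : ∀ ρ ∈ Ioi (0:ℝ), ∫⁻ θ in Ioo (-π) π,
      ENNReal.ofReal ρ * (ann x r).indicator G (circleMap x ρ θ) =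
      (Ioo r (2 * r)).indicator (fun ρ => ∫⁻ θ in Ioo (-π) π,
        ENNReal.ofReal ρ * G (circleMap x ρ θ)) ρ := by
    intro ρ hρ
    have hd : ∀ θ, dist (circleMap x ρ θ) x = ρ := by
      intro θ
      rw [dist_eq_norm, circleMap_sub_center, norm_circleMap_zero, abs_of_pos hρ]
    by_cases hρr : ρ ∈ Ioo r (2 * r)
    · rw [indicator_of_mem hρr]
      congr 1
      ext θ
      rw [indicator_of_mem]
      change dist (circleMap x ρ θ) x ∈ Ioo r (2 * r)
      rwa [hd θ]
    · rw [indicator_of_notMem hρr]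
      have : ∀ θ, (ann x r).indicator G (circleMap x ρ θ) = 0 := by
        intro θ
        rw [indicator_of_notMem]
        intro hmem
        change dist (circleMap x ρ θ) x ∈ Ioo r (2 * r) at hmem
        rw [hd θ] at hmem
        exact hρr hmem
      simp only [this, mul_zero, lintegral_zero]
  rw [setLIntegral_congr_fun measurableSet_Ioi h3, lintegral_indicator measurableSet_Ioo,
    Measure.restrict_restrict measurableSet_Ioo]
  congr 2
  ext ρ
  simp only [mem_inter_iff, mem_Ioo, mem_Ioi]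
  constructor
  · intro h
    exact ⟨h, hr.trans h.1⟩
  · intro h
    exact h.1

lemma abs_det_toSpanSingleton' (a : ℂ) :
    |((ContinuousLinearMap.toSpanSingleton ℂ a).restrictScalars ℝ : ℂ →L[ℝ] ℂ).det| = ‖a‖ ^ 2 := by
  simp [ContinuousLinearMap.det, LinearMap.det_restrictScalars,
      Algebra.norm_complex_eq, Complex.normSq_eq_norm_sq]

lemma area_image {O : Set ℂ} {h : ℂ → ℂ} (hO : IsOpen O) (hd : DifferentiableOn ℂ h O)
    (hinj : InjOn h O) {s : Set ℂ} (hs : MeasurableSet s) (hsO : s ⊆ O) :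
    ∫⁻ w in s, ENNReal.ofReal (‖deriv h w‖ ^ 2) = volume (h '' s) := by
  have h1 := lintegral_abs_det_fderiv_eq_addHaar_image volume (s := s) (f := h)
    (f' := fun z => (ContinuousLinearMap.toSpanSingleton ℂ (deriv h z)).restrictScalars ℝ)
    hs (fun z hz => (((hd.differentiableAt (hO.mem_nhds (hsO hz))).hasDerivAt.hasFDerivAt).restrictScalars
        ℝ).hasFDerivWithinAt) (hinj.mono hsO)
  rw [← h1]
  simp only [abs_det_toSpanSingleton']

/-- projection -/
def prj (a w : ℂ) : ℝ := (a * w).re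

lemma prj_sphere {O : Set ℂ} {h : ℂ → ℂ} (hO : IsOpen O) (hd : DifferentiableOn ℂ h O)
    {a x : ℂ} (ha : ‖a‖ = 1) {ρ : ℝ} (hρ : 0 < ρ) :
    volume (prj a '' (h '' (sphere x ρ ∩ O))) ≤
      ∫⁻ θ in Ioo (-π) π, ENNReal.ofReal ρ *
        O.indicator (fun w => ENNReal.ofReal ‖deriv h w‖) (circleMap x ρ θ) := by
  set s : Set ℝ := Ioo (-π) π ∩ {θ | circleMap x ρ θ ∈ O} with hs
  have hso : IsOpen s := isOpen_Ioo.inter (hO.preimage (continuous_circleMap x ρ))
  set φ : ℝ → ℝ := fun θ => prj a (h (circleMap x ρ θ)) with hφ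
  set φ' : ℝ → ℝ := fun θ => (a * (deriv h (circleMap x ρ θ) * (circleMap 0 ρ θ * Complex.I))).re
    with hφ'
  have hder : ∀ θ ∈ s, HasDerivAt φ (φ' θ) θ := by
    intro θ hθ
    have h1 := (hd.differentiableAt (hO.mem_nhds hθ.2)).hasDerivAt
    have h2 := hasDerivAt_circleMap x ρ θ
    have h3 : HasDerivAt (fun θ => h (circleMap x ρ θ))
        (deriv h (circleMap x ρ θ) * (circleMap 0 ρ θ * Complex.I)) θ := h1.comp_of_eq θ h2 rfl
    have h4 := (h3.const_mul a)
    exact Complex.reCLM.hasFDerivAt.comp_hasDerivAt θ h4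
  have hvol : volume (φ '' s) ≤ ∫⁻ θ in s, ENNReal.ofReal |φ' θ| := by
    have h1 := addHaar_image_le_lintegral_abs_det_fderiv volume (s := s) (f := φ)
      (f' := fun θ => (ContinuousLinearMap.toSpanSingleton ℝ (φ' θ))) hso.measurableSet
      (fun θ hθ => ((hder θ hθ).hasFDerivAt).hasFDerivWithinAt)
    refine h1.trans (le_of_eq ?_)
    simp
  have hbd : ∀ θ, |φ' θ| ≤ ρ * ‖deriv h (circleMap x ρ θ)‖ := by
    intro θ
    refine (Complex.abs_re_le_norm _).trans (le_of_eq ?_)
    rw [norm_mul, norm_mul, norm_mul, ha, Complex.norm_I, norm_circleMap_zero, abs_of_pos hρ]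
    ring
  have hint : ∫⁻ θ in s, ENNReal.ofReal |φ' θ| ≤ ∫⁻ θ in Ioo (-π) π, ENNReal.ofReal ρ *
        O.indicator (fun w => ENNReal.ofReal ‖deriv h w‖) (circleMap x ρ θ) := by
    calc ∫⁻ θ in s, ENNReal.ofReal |φ' θ|
        ≤ ∫⁻ θ in s, ENNReal.ofReal ρ *
          O.indicator (fun w => ENNReal.ofReal ‖deriv h w‖) (circleMap x ρ θ) := by
          refine setLIntegral_mono' hso.measurableSet fun θ hθ => ?_
          rw [indicator_of_mem (show circleMap x ρ θ ∈ O from hθ.2), ← ENNReal.ofReal_mul hρ.le]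
          exact ENNReal.ofReal_le_ofReal (hbd θ)
      _ ≤ _ := lintegral_mono_set inter_subset_left
  have himg : prj a '' (h '' (sphere x ρ ∩ O)) ⊆ φ '' s ∪ {φ π} := by
    rintro _ ⟨_, ⟨w, ⟨hw, hwO⟩, rfl⟩, rfl⟩
    have h1 : w ∈ circleMap x ρ '' Ioc (-π) π := by
      have h2 := (periodic_circleMap x ρ).image_Ioc Real.two_pi_pos (-π)
      have h3 : -π + 2 * π = π := by ring
      rw [h3] at h2
      rw [h2, range_circleMap, abs_of_pos hρ]
      exact hw
    obtain ⟨θ, hθ, rfl⟩ := h1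
    rcases hθ.2.eq_or_lt with h4 | h4
    · right
      rw [mem_singleton_iff, hφ, h4]
    · left
      exact ⟨θ, ⟨⟨hθ.1, h4⟩, hwO⟩, rfl⟩
  calc volume (prj a '' (h '' (sphere x ρ ∩ O))) ≤ volume (φ '' s ∪ {φ π}) := measure_mono himg
    _ ≤ volume (φ '' s) + volume {φ π} := measure_union_le _ _
    _ = volume (φ '' s) := by rw [Real.volume_singleton, add_zero]
    _ ≤ _ := hvol.trans hint

lemma prj_closedBall {a c : ℂ} (ha : ‖a‖ = 1) (s : ℝ) :
    prj a '' closedBall c s ⊆ Icc (prj a c - s) (prj a c + s) := by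
  rintro _ ⟨w, hw, rfl⟩
  rw [mem_closedBall, dist_eq_norm] at hw
  have h1 : |prj a w - prj a c| ≤ s := by
    have : prj a w - prj a c = (a * (w - c)).re := by simp [prj, mul_sub]
    rw [this]
    refine (Complex.abs_re_le_norm _).trans ?_
    rw [norm_mul, ha, one_mul]
    exact hw
  rw [abs_le] at h1
  exact ⟨by linarith [h1.1], by linarith [h1.2]⟩

lemma isPreconnected_prj {E : Set ℂ} (hE : IsPreconnected E) (a : ℂ) :
    IsPreconnected (prj a '' E) := by
  refine hE.image _ ?_
  have : Continuous (prj a) := by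
    unfold prj
    fun_prop
  exact this.continuousOn

/-- narrow connected sets -/
lemma dist_le_of_prj {E : Set ℂ} (hE : IsPreconnected E) {ε : ℝ} (hε : 0 ≤ ε)
    (h : ∀ a : ℂ, ‖a‖ = 1 → volume (prj a '' E) ≤ ENNReal.ofReal ε) {y y' : ℂ} (hy : y ∈ E)
    (hy' : y' ∈ E) : dist y y' ≤ ε := by
  by_cases hyy : y = y'
  · rw [hyy, dist_self]
    exact hε
  have hpos : 0 < ‖y - y'‖ := norm_pos_iff.2 (sub_ne_zero.2 hyy)
  set a : ℂ := (starRingEnd ℂ) (y - y') / ‖y - y'‖ with ha
  have ha1 : ‖a‖ = 1 := by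
    rw [ha, norm_div, Complex.norm_conj, Complex.norm_real, norm_norm, div_self hpos.ne']
  have h1 : prj a y - prj a y' = ‖y - y'‖ := by
    have : prj a y - prj a y' = (a * (y - y')).re := by simp [prj, mul_sub]
    rw [this, ha, div_mul_eq_mul_div, mul_comm, Complex.mul_conj, Complex.normSq_eq_norm_sq]
    rw [← Complex.ofReal_div, Complex.ofReal_re]
    field_simp
  have h2 := (isPreconnected_prj hE a).ordConnected.out (mem_image_of_mem _ hy')
    (mem_image_of_mem _ hy)
  have h3 := (measure_mono h2).trans (h a ha1)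
  rw [Real.volume_Icc, h1, ENNReal.ofReal_le_ofReal_iff hε] at h3
  rw [dist_eq_norm]
  exact h3

lemma dist_le_of_prj_disk {E : Set ℂ} {c : ℂ} {s : ℝ} (hs : 0 ≤ s)
    (hE : IsPreconnected (E ∪ closedBall c s)) {ε : ℝ} (hε : 0 ≤ ε)
    (h : ∀ a : ℂ, ‖a‖ = 1 → volume (prj a '' E) ≤ ENNReal.ofReal ε) {y : ℂ} (hy : y ∈ E) :
    dist y c ≤ s + ε := by
  by_cases hyc : ‖y - c‖ ≤ s
  · rw [dist_eq_norm]
    linarith
  rw [not_le] at hyc
  have hpos : 0 < ‖y - c‖ := hs.trans_lt hyc
  set a : ℂ := (starRingEnd ℂ) (y - c) / ‖y - c‖ with ha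
  have ha1 : ‖a‖ = 1 := by
    rw [ha, norm_div, Complex.norm_conj, Complex.norm_real, norm_norm, div_self hpos.ne']
  have h1 : prj a y - prj a c = ‖y - c‖ := by
    have : prj a y - prj a c = (a * (y - c)).re := by simp [prj, mul_sub]
    rw [this, ha, div_mul_eq_mul_div, mul_comm, Complex.mul_conj, Complex.normSq_eq_norm_sq]
    rw [← Complex.ofReal_div, Complex.ofReal_re]
    field_simp
  have h2 := (isPreconnected_prj hE a).ordConnected.out
    (mem_image_of_mem _ (Or.inr (mem_closedBall_self hs))) (mem_image_of_mem _ (Or.inl hy))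
  have h4 : Ioc (prj a c + s) (prj a y) ⊆ prj a '' E := by
    intro t ht
    obtain ⟨w, hw | hw, hwt⟩ := h2 ⟨by linarith [ht.1], ht.2⟩
    · exact ⟨w, hw, hwt⟩
    · exfalso
      have := (prj_closedBall ha1 s ⟨w, hw, rfl⟩).2
      rw [hwt] at this
      linarith [ht.1]
  have h3 := (measure_mono h4).trans (h a ha1)
  rw [Real.volume_Ioc, ENNReal.ofReal_le_ofReal_iff hε] at h3
  rw [dist_eq_norm]
  linarith

lemma isClosed_hit {x : ℂ} {Q : Set ℂ} (hQ : IsCompact Q) :
    IsClosed {ρ : ℝ | (Q ∩ sphere x ρ).Nonempty} := by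
  have : {ρ : ℝ | (Q ∩ sphere x ρ).Nonempty} = (fun w => dist w x) '' Q := by
    ext ρ
    constructor
    · rintro ⟨w, hw, hρ⟩
      exact ⟨w, hw, hρ⟩
    · rintro ⟨w, hw, hρ⟩
      exact ⟨w, hw, hρ⟩
  rw [this]
  exact (hQ.image (continuous_id.dist continuous_const)).isClosed

lemma exten_nonneg (x : ℂ) (Q : Set ℂ) (r : ℝ) : 0 ≤ exten x Q r := measureReal_nonneg

lemma exten_eq_zero {x : ℂ} {Q : Set ℂ} {r : ℝ} (h : ¬ (Q ∩ ann x r).Nonempty) :
    exten x Q r = 0 := by
  have : Ioo r (2 * r) ∩ {ρ : ℝ | (Q ∩ sphere x ρ).Nonempty} = ∅ := by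
    rw [eq_empty_iff_forall_notMem]
    rintro ρ ⟨hρ, w, hw, hwρ⟩
    refine h ⟨w, hw, ?_⟩
    change dist w x ∈ Ioo r (2 * r)
    rwa [mem_sphere.1 hwρ]
  rw [exten, this, measureReal_empty]

theorem length_area {ι : Type*} (J : Finset ι) {O : Set ℂ} {h : ℂ → ℂ} {Q : ι → Set ℂ}
    {c : ι → ℂ} {s : ι → ℝ}
    (hO : IsOpen O) (hd : DifferentiableOn ℂ h O) (hinj : InjOn h O)
    (hs : ∀ j ∈ J, 0 ≤ s j)
    (hQ : ∀ j ∈ J, IsCompact (Q j))
    (hDdisj : ∀ i ∈ J, ∀ j ∈ J, i ≠ j → Disjoint (closedBall (c i) (s i)) (closedBall (c j) (s j)))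
    (hDh : ∀ j ∈ J, Disjoint (closedBall (c j) (s j)) (h '' O))
    {M : ℝ} (hM : 0 ≤ M) (hDM : ∀ j ∈ J, closedBall (c j) (s j) ⊆ closedBall 0 M)
    {x : ℂ} {m : ℕ} (hm : 0 < m) {r : ℕ → ℝ} (hr : ∀ k < m, 0 < r k)
    (hdisj : ∀ k < m, ∀ l < m, k ≠ l → Disjoint (ann x (r k)) (ann x (r l)))
    (hhM : ∀ k < m, h '' (ann x (r k) ∩ O) ⊆ closedBall 0 M)
    (hone : ∀ j ∈ J, ∀ k < m, ∀ l < m, (Q j ∩ ann x (r k)).Nonempty →
      (Q j ∩ ann x (r l)).Nonempty → k = l)
    {C : ℝ} (hC : ∀ k < m, ∑ j ∈ J, exten x (Q j) (r k) ^ 2 ≤ C * r k ^ 2)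
    {ε : ℝ} (hε0 : 0 ≤ ε) (hε : π * M ^ 2 + 2 * π + C + 1 ≤ ε * √m) :
    ∃ k < m, ∃ ρ ∈ Ioo (r k) (2 * r k), ∀ a : ℂ, ‖a‖ = 1 →
      volume (prj a '' (h '' (sphere x ρ ∩ O) ∪
        ⋃ j ∈ {j | j ∈ J ∧ (Q j ∩ sphere x ρ).Nonempty}, closedBall (c j) (s j))) ≤
          ENNReal.ofReal ε := by
  classical
  set G : ℂ → ℝ≥0∞ := O.indicator (fun w => ENNReal.ofReal ‖deriv h w‖) with hG
  have hGm : Measurable G :=
    ((measurable_deriv h).norm.ennreal_ofReal).indicator hO.measurableSet
  set ℓ : ℝ → ℝ≥0∞ := fun ρ => ∫⁻ θ in Ioo (-π) π, ENNReal.ofReal ρ * G (circleMap x ρ θ) with hℓ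
  have hℓm : Measurable ℓ := by
    have hmeas : Measurable fun p : ℝ × ℝ => ENNReal.ofReal p.1 * G (circleMap x p.1 p.2) := by
      refine (ENNReal.measurable_ofReal.comp measurable_fst).mul (hGm.comp ?_)
      have : Continuous fun p : ℝ × ℝ => circleMap x p.1 p.2 := by
        simp only [circleMap]
        fun_prop
      exact this.measurable
    exact hmeas.lintegral_prod_right'
  set H : ι → Set ℝ := fun j => {ρ : ℝ | (Q j ∩ sphere x ρ).Nonempty} with hH
  set tot : ℝ → ℝ≥0∞ := fun ρ => ℓ ρ + ∑ j ∈ J, ENNReal.ofReal (2 * s j) * (H j).indicator 1 ρ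
    with htot
  have step1 : ∀ ρ, 0 < ρ → ∀ a : ℂ, ‖a‖ = 1 →
      volume (prj a '' (h '' (sphere x ρ ∩ O) ∪
        ⋃ j ∈ {j | j ∈ J ∧ (Q j ∩ sphere x ρ).Nonempty}, closedBall (c j) (s j))) ≤ tot ρ := by
    intro ρ hρ a ha
    rw [image_union]
    refine (measure_union_le _ _).trans (add_le_add (prj_sphere hO hd ha hρ) ?_)
    have h1 : prj a '' (⋃ j ∈ {j | j ∈ J ∧ (Q j ∩ sphere x ρ).Nonempty}, closedBall (c j) (s j)) ⊆
        ⋃ j ∈ J.filter (fun j => (Q j ∩ sphere x ρ).Nonempty), prj a '' closedBall (c j) (s j) := by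
      rintro _ ⟨w, hw, rfl⟩
      obtain ⟨j, ⟨hj1, hj2⟩, hwj⟩ := mem_iUnion₂.1 hw
      exact mem_iUnion₂.2 ⟨j, Finset.mem_filter.2 ⟨hj1, hj2⟩, w, hwj, rfl⟩
    refine (measure_mono h1).trans ((measure_biUnion_finset_le _ _).trans ?_)
    rw [Finset.sum_filter]
    refine Finset.sum_le_sum fun j _ => ?_
    by_cases hj : (Q j ∩ sphere x ρ).Nonempty
    · rw [if_pos hj, indicator_of_mem (show ρ ∈ H j from hj), Pi.one_apply, mul_one]
      refine (measure_mono (prj_closedBall ha (s j))).trans (le_of_eq ?_)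
      rw [Real.volume_Icc]
      congr 1
      ring
    · rw [if_neg hj]
      exact zero_le
  by_contra hcon
  push Not at hcon
  have hcon' : ∀ k < m, ∀ ρ ∈ Ioo (r k) (2 * r k), ENNReal.ofReal ε ≤ tot ρ := by
    intro k hk ρ hρ
    obtain ⟨a, ha, h2⟩ := hcon k hk ρ hρ
    exact h2.le.trans (step1 ρ ((hr k hk).trans hρ.1) a ha)
  set v : ℕ → ℝ := fun k => volume.real (h '' (ann x (r k) ∩ O)) with hv
  have hfin : ∀ k < m, volume (h '' (ann x (r k) ∩ O)) ≠ ∞ := fun k hk =>
    ((measure_mono (hhM k hk)).trans_lt (isCompact_closedBall (0:ℂ) M).measure_lt_top).ne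
  have hMfin : volume (closedBall (0:ℂ) M) ≠ ∞ := (isCompact_closedBall (0:ℂ) M).measure_lt_top.ne
  have hvolM : volume.real (closedBall (0:ℂ) M) = π * M ^ 2 := by
    rw [measureReal_def, Complex.volume_closedBall, ENNReal.toReal_mul, ENNReal.toReal_pow,
      ENNReal.toReal_ofReal hM]
    simp
    ring
  -- total area
  have harea : ∑ k ∈ Finset.range m, v k + ∑ j ∈ J, π * s j ^ 2 ≤ π * M ^ 2 := by
    have hvk : ∀ k, MeasurableSet (h '' (ann x (r k) ∩ O)) := fun k =>
      ((isOpen_ann x (r k)).inter hO).measurableSet.image_of_continuousOn_injOn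
        (hd.continuousOn.mono inter_subset_right) (hinj.mono inter_subset_right)
    have e1 : volume.real (⋃ k ∈ Finset.range m, h '' (ann x (r k) ∩ O)) =
        ∑ k ∈ Finset.range m, v k := by
      refine measureReal_biUnion_finset ?_ (fun k _ => hvk k) (fun k hk => hfin k (by simpa using hk))
      intro k hk l hl hkl
      rw [Finset.coe_range, mem_Iio] at hk hl
      refine disjoint_left.2 ?_
      rintro _ ⟨z, ⟨hz, hzO⟩, rfl⟩ ⟨z', ⟨hz', hzO'⟩, he⟩
      have := hinj hzO' hzO he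
      rw [this] at hz'
      exact disjoint_left.1 (hdisj k hk l hl hkl) hz hz'
    have e2 : volume.real (⋃ j ∈ J, closedBall (c j) (s j)) = ∑ j ∈ J, π * s j ^ 2 := by
      rw [measureReal_biUnion_finset (fun i hi j hj hij => hDdisj i hi j hj hij)
        (fun j _ => measurableSet_closedBall)
        (fun j _ => (isCompact_closedBall (c j) (s j)).measure_lt_top.ne)]
      refine Finset.sum_congr rfl fun j hj => ?_
      rw [measureReal_def, Complex.volume_closedBall, ENNReal.toReal_mul, ENNReal.toReal_pow,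
        ENNReal.toReal_ofReal (hs j hj)]
      simp
      ring
    have e3 : Disjoint (⋃ k ∈ Finset.range m, h '' (ann x (r k) ∩ O))
        (⋃ j ∈ J, closedBall (c j) (s j)) := by
      rw [disjoint_left]
      intro w hw1 hw2
      obtain ⟨k, _, z, ⟨_, hzO⟩, rfl⟩ := mem_iUnion₂.1 hw1
      obtain ⟨j, hj, hwj⟩ := mem_iUnion₂.1 hw2
      exact disjoint_left.1 (hDh j hj) hwj ⟨z, hzO, rfl⟩
    have e4 : (⋃ k ∈ Finset.range m, h '' (ann x (r k) ∩ O)) ∪ (⋃ j ∈ J, closedBall (c j) (s j)) ⊆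
        closedBall 0 M := by
      refine union_subset (iUnion₂_subset fun k hk => hhM k (by simpa using hk))
        (iUnion₂_subset fun j hj => hDM j hj)
    have f1 : volume (⋃ k ∈ Finset.range m, h '' (ann x (r k) ∩ O)) ≠ ∞ :=
      ((measure_mono (subset_union_left.trans e4)).trans_lt hMfin.lt_top).ne
    have f2 : volume (⋃ j ∈ J, closedBall (c j) (s j)) ≠ ∞ :=
      ((measure_mono (subset_union_right.trans e4)).trans_lt hMfin.lt_top).ne
    rw [← e1, ← e2, ← measureReal_union e3 (J.measurableSet_biUnion fun _ _ =>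
      measurableSet_closedBall) f1 f2, ← hvolM]
    exact measureReal_mono e4 hMfin
  -- one annulus
  have hq : 0 < √(m:ℝ) := Real.sqrt_pos.2 (by exact_mod_cast hm)
  set q := √(m:ℝ) with hqdef
  have hann : ∀ k < m, ε * r k ≤ r k * q / 2 * v k + 2 * π * r k / q +
      ∑ j ∈ J, 2 * s j * exten x (Q j) (r k) := by
    intro k hk
    have hrk := hr k hk
    set t : ℝ := r k * q with ht
    have htpos : 0 < t := mul_pos hrk hq
    have i1 : ENNReal.ofReal ε * ENNReal.ofReal (r k) ≤ ∫⁻ ρ in Ioo (r k) (2 * r k), tot ρ := by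
      calc ENNReal.ofReal ε * ENNReal.ofReal (r k)
          = ∫⁻ _ in Ioo (r k) (2 * r k), ENNReal.ofReal ε := by
            rw [setLIntegral_const, Real.volume_Ioo]
            congr 2
            ring
        _ ≤ _ := setLIntegral_mono' measurableSet_Ioo (hcon' k hk)
    have i2 : ∫⁻ ρ in Ioo (r k) (2 * r k), tot ρ = (∫⁻ w in ann x (r k), G w) +
        ∑ j ∈ J, ENNReal.ofReal (2 * s j) * volume (Ioo (r k) (2 * r k) ∩ H j) := by
      rw [htot, lintegral_add_left hℓm, polar_ann x hrk hGm]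
      congr 1
      rw [lintegral_finsetSum']
      · refine Finset.sum_congr rfl fun j hj => ?_
        have hHm : MeasurableSet (H j) := (isClosed_hit (hQ j hj)).measurableSet
        rw [lintegral_const_mul _ (measurable_one.indicator hHm), lintegral_indicator_one hHm,
          Measure.restrict_apply hHm, inter_comm]
      · intro j hj
        have hHm : MeasurableSet (H j) := (isClosed_hit (hQ j hj)).measurableSet
        exact ((measurable_one.indicator hHm).const_mul _).aemeasurable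
    have i3 : ∫⁻ w in ann x (r k), G w ≤ ENNReal.ofReal (t / 2) *
        volume (h '' (ann x (r k) ∩ O)) + ENNReal.ofReal (1 / (2 * t)) * volume (ann x (r k)) := by
      have j1 : ∀ w, G w ≤ ENNReal.ofReal (t / 2) *
          O.indicator (fun w => ENNReal.ofReal (‖deriv h w‖ ^ 2)) w +
          ENNReal.ofReal (1 / (2 * t)) := by
        intro w
        by_cases hw : w ∈ O
        · rw [hG, indicator_of_mem hw, indicator_of_mem hw, ← ENNReal.ofReal_mul (by positivity),
            ← ENNReal.ofReal_add (by positivity) (by positivity)]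
          apply ENNReal.ofReal_le_ofReal
          have : 0 ≤ (t * ‖deriv h w‖ - 1) ^ 2 / (2 * t) := by positivity
          have e : (t * ‖deriv h w‖ - 1) ^ 2 / (2 * t) =
              t / 2 * ‖deriv h w‖ ^ 2 + 1 / (2 * t) - ‖deriv h w‖ := by
            field_simp
            ring
          linarith
        · rw [hG, indicator_of_notMem hw]
          exact zero_le
      refine (lintegral_mono j1).trans (le_of_eq ?_)
      rw [lintegral_add_right _ measurable_const, lintegral_const, Measure.restrict_apply_univ,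
        lintegral_const_mul _ (((measurable_deriv h).norm.pow_const 2).ennreal_ofReal.indicator
          hO.measurableSet), lintegral_indicator hO.measurableSet,
          Measure.restrict_restrict hO.measurableSet,
          area_image hO hd hinj (hO.inter (isOpen_ann x (r k))).measurableSet inter_subset_left,
          inter_comm O]
    have i4 : volume (ann x (r k)) ≤ ENNReal.ofReal (4 * π * r k ^ 2) := by
      have : ann x (r k) ⊆ ball x (2 * r k) := fun w hw => hw.2
      refine (measure_mono this).trans (le_of_eq ?_)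
      rw [Complex.volume_ball, ← ENNReal.ofReal_pow (by positivity),
        show ((NNReal.pi : NNReal) : ℝ≥0∞) = ENNReal.ofReal π by
          rw [ENNReal.ofReal, ← NNReal.coe_real_pi, Real.toNNReal_coe],
        ← ENNReal.ofReal_mul (by positivity)]
      congr 1
      ring
    have i5 : ∀ j ∈ J, ENNReal.ofReal (2 * s j) * volume (Ioo (r k) (2 * r k) ∩ H j) =
        ENNReal.ofReal (2 * s j * exten x (Q j) (r k)) := by
      intro j hj
      rw [ENNReal.ofReal_mul (p := 2 * s j) (by linarith [hs j hj]), exten, measureReal_def,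
        ENNReal.ofReal_toReal]
      exact ((measure_mono inter_subset_left).trans_lt measure_Ioo_lt_top).ne
    have i6 : volume (h '' (ann x (r k) ∩ O)) = ENNReal.ofReal (v k) := by
      simp only [hv, measureReal_def, ENNReal.ofReal_toReal (hfin k hk)]
    have hv0 : 0 ≤ v k := measureReal_nonneg
    have i7 : ENNReal.ofReal (ε * r k) ≤ ENNReal.ofReal (t / 2 * v k + 1 / (2 * t) *
        (4 * π * r k ^ 2) + ∑ j ∈ J, 2 * s j * exten x (Q j) (r k)) := by
      rw [ENNReal.ofReal_mul hε0]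
      refine i1.trans (i2.le.trans ?_)
      rw [Finset.sum_congr rfl i5, ← ENNReal.ofReal_sum_of_nonneg (fun j hj =>
        mul_nonneg (by linarith [hs j hj]) (exten_nonneg _ _ _)), ENNReal.ofReal_add
          (by positivity) (Finset.sum_nonneg fun j hj =>
          mul_nonneg (by linarith [hs j hj]) (exten_nonneg _ _ _)),
          ENNReal.ofReal_add (by positivity) (by positivity)]
      gcongr
      refine i3.trans ?_
      rw [i6, ENNReal.ofReal_mul (by positivity), ENNReal.ofReal_mul (by positivity)]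
      gcongr
    have hnn : 0 ≤ ∑ j ∈ J, 2 * s j * exten x (Q j) (r k) := Finset.sum_nonneg fun j hj =>
      mul_nonneg (by linarith [hs j hj]) (exten_nonneg _ _ _)
    rw [ENNReal.ofReal_le_ofReal_iff (by positivity)] at i7
    refine i7.trans (le_of_eq ?_)
    congr 1
    rw [ht]
    field_simp
    ring
  have hdiv : ∀ k < m, ε ≤ q * (v k / 2 + ∑ j ∈ J,
      if (Q j ∩ ann x (r k)).Nonempty then s j ^ 2 else 0) + (2 * π + C) / q := by
    intro k hk
    have hrk := hr k hk
    have h1 := hann k hk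
    have h2 : ∑ j ∈ J, 2 * s j * exten x (Q j) (r k) ≤ r k * q * ∑ j ∈ J,
        (if (Q j ∩ ann x (r k)).Nonempty then s j ^ 2 else 0) +
        (∑ j ∈ J, exten x (Q j) (r k) ^ 2) / (r k * q) := by
      rw [Finset.mul_sum, Finset.sum_div, ← Finset.sum_add_distrib]
      refine Finset.sum_le_sum fun j hj => ?_
      by_cases hne : (Q j ∩ ann x (r k)).Nonempty
      · rw [if_pos hne]
        have hpos : 0 < r k * q := mul_pos hrk hq
        have e : r k * q * s j ^ 2 + exten x (Q j) (r k) ^ 2 / (r k * q) -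
            2 * s j * exten x (Q j) (r k) =
            (r k * q * s j - exten x (Q j) (r k)) ^ 2 / (r k * q) := by
          field_simp
          ring
        have : 0 ≤ (r k * q * s j - exten x (Q j) (r k)) ^ 2 / (r k * q) := by positivity
        linarith
      · rw [if_neg hne, exten_eq_zero hne]
        simp
    have h3 : (∑ j ∈ J, exten x (Q j) (r k) ^ 2) / (r k * q) ≤ C * r k ^ 2 / (r k * q) := by
      have := hC k hk
      gcongr
    have h4 : ε * r k ≤ (q * (v k / 2 + ∑ j ∈ J,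
      if (Q j ∩ ann x (r k)).Nonempty then s j ^ 2 else 0) + (2 * π + C) / q) * r k := by
      have e : (q * (v k / 2 + ∑ j ∈ J,
        if (Q j ∩ ann x (r k)).Nonempty then s j ^ 2 else 0) + (2 * π + C) / q) * r k =
        r k * q / 2 * v k + 2 * π * r k / q + (r k * q * ∑ j ∈ J,
        (if (Q j ∩ ann x (r k)).Nonempty then s j ^ 2 else 0) + C * r k ^ 2 / (r k * q)) := by
        field_simp
        ring
      rw [e]
      linarith
    exact le_of_mul_le_mul_right h4 hrk
  have hsum : (m : ℝ) * ε ≤ q * (π * M ^ 2) + m * ((2 * π + C) / q) := by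
    have h1 : ∑ k ∈ Finset.range m, ε ≤ ∑ k ∈ Finset.range m, (q * (v k / 2 + ∑ j ∈ J,
      if (Q j ∩ ann x (r k)).Nonempty then s j ^ 2 else 0) + (2 * π + C) / q) :=
      Finset.sum_le_sum fun k hk => hdiv k (by simpa using hk)
    rw [Finset.sum_const, Finset.card_range, nsmul_eq_mul, Finset.sum_add_distrib,
      Finset.sum_const, Finset.card_range, nsmul_eq_mul, ← Finset.mul_sum,
      Finset.sum_add_distrib, Finset.sum_comm (s := Finset.range m)] at h1
    have h2 : ∑ j ∈ J, ∑ k ∈ Finset.range m,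
        (if (Q j ∩ ann x (r k)).Nonempty then s j ^ 2 else 0) ≤ ∑ j ∈ J, s j ^ 2 := by
      refine Finset.sum_le_sum fun j hj => ?_
      rw [← Finset.sum_filter]
      have hcard : ((Finset.range m).filter fun k => (Q j ∩ ann x (r k)).Nonempty).card ≤ 1 := by
        rw [Finset.card_le_one]
        intro k hk l hl
        rw [Finset.mem_filter, Finset.mem_range] at hk hl
        exact hone j hj k hk.1 l hl.1 hk.2 hl.2
      rw [Finset.sum_const, nsmul_eq_mul]
      have : (((Finset.range m).filter fun k => (Q j ∩ ann x (r k)).Nonempty).card : ℝ) ≤ 1 := by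
        exact_mod_cast hcard
      nlinarith [sq_nonneg (s j)]
    have h3 : ∑ j ∈ J, s j ^ 2 ≤ ∑ j ∈ J, π * s j ^ 2 := by
      refine Finset.sum_le_sum fun j _ => ?_
      nlinarith [sq_nonneg (s j), Real.pi_gt_three]
    have h4 : ∑ k ∈ Finset.range m, v k / 2 ≤ ∑ k ∈ Finset.range m, v k := by
      refine Finset.sum_le_sum fun k _ => ?_
      have : 0 ≤ v k := measureReal_nonneg
      linarith
    have h5 : ∑ k ∈ Finset.range m, v k / 2 + ∑ j ∈ J, ∑ k ∈ Finset.range m,
        (if (Q j ∩ ann x (r k)).Nonempty then s j ^ 2 else 0) ≤ π * M ^ 2 := by linarith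
    have h6 := mul_le_mul_of_nonneg_left h5 hq.le
    linarith
  have hmq : (m : ℝ) = q * q := (Real.mul_self_sqrt (by positivity)).symm
  have e : (m : ℝ) * ((2 * π + C) / q) = q * (2 * π + C) := by
    rw [hmq]
    field_simp
  rw [e, hmq] at hsum
  have : q * (ε * q) ≤ q * (π * M ^ 2 + 2 * π + C) := by linarith
  have := le_of_mul_le_mul_left this hq
  linarith

end Vale.Agent.P116.H906
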