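import Mathlib
import Vale.Agent.P116.H906.Prim3
import Vale.Agent.P116.H906.Sys

/-!
The residue theorem for collars.
-/

open Filter Topology Set Metric Bornology MeasureTheory
open scoped Real ComplexConjugate

namespace Vale.Agent.P116.H906

open Pomp

lemma mass_zero {P : Set ℂ} (hP : IsCompact P) {h : ℂ → ℂ} (hd : DifferentiableOn ℂ h Pᶜ)
    {C₀ R₀ : ℝ} (hR₀ : 0 < R₀) (hinf : ∀ z, R₀ < ‖z‖ → ‖h z‖ ≤ C₀ / ‖z‖ ^ 2)
    {χ : ℂ → ℂ} (hχ : ContDiff ℝ 1 χ) (hχP : ∀ z ∈ P, ∀ᶠ w in 𝓝 z, χ w = 0)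
    (hχ1 : ∀ z, R₀ < ‖z‖ → χ z = 1) :
    Continuous (fun w => db χ w * h w) ∧ HasCompactSupport (fun w => db χ w * h w) ∧
      ∫ w : ℂ, db χ w * h w = 0 := by
  set m : ℂ → ℂ := fun w => db χ w * h w with hm
  have hmc : Continuous m := by
    rw [continuous_iff_continuousAt]
    intro w
    by_cases hw : w ∈ P
    · have h1 : m =ᶠ[𝓝 w] fun _ => 0 := by
        filter_upwards [eventually_eventually_nhds.2 (hχP w hw)] with x hx
        have h2 : χ =ᶠ[𝓝 x] fun _ => 0 := hx
        simp only [hm]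
        rw [db_of_eventuallyEq h2]
        simp [db]
      exact continuousAt_const.congr h1.symm
    · exact (continuous_db hχ).continuousAt.mul
        (hd.differentiableAt (hP.isClosed.isOpen_compl.mem_nhds hw)).continuousAt
  have hmsupp : ∀ w, R₀ < ‖w‖ → m w = 0 := by
    intro w hw
    have h2 : χ =ᶠ[𝓝 w] fun _ => 1 := by
      filter_upwards [(isOpen_lt continuous_const continuous_norm).mem_nhds hw] with x hx
      exact hχ1 x hx
    simp only [hm]
    rw [db_of_eventuallyEq h2]
    simp [db]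
  have hms : HasCompactSupport m := by
    refine HasCompactSupport.intro (isCompact_closedBall (0:ℂ) R₀) fun w hw => ?_
    rw [mem_closedBall, dist_zero_right, not_le] at hw
    exact hmsupp w hw
  refine ⟨hmc, hms, ?_⟩
  have hmi : Integrable m := hmc.integrable_of_hasCompactSupport hms
  have hpi : (2 * π : ℂ) ≠ 0 := by simp [Real.pi_ne_zero]
  have hest : ∀ t : ℝ, 2 * R₀ + 1 < t → ‖(2 * π : ℂ)⁻¹ * ∫ w : ℂ, m w‖ ≤
      C₀ / t + (∫ w : ℂ, ‖m w‖) * (2 * R₀ / t) := by
    intro t ht
    have ht0 : 0 < t := by linarith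
    set z : ℂ := (t : ℂ) with hz
    have hzn : ‖z‖ = t := by rw [hz, Complex.norm_real, Real.norm_of_nonneg ht0.le]
    have hz0 : z ≠ 0 := by
      rw [← norm_pos_iff, hzn]
      exact ht0
    have h1 : h z = (2 * π : ℂ)⁻¹ * ∫ w : ℂ, (z - w)⁻¹ * m w := by
      refine cauchy_rep hP hd hR₀ hinf hχ hχP hχ1 ?_
      filter_upwards [(isOpen_lt continuous_const continuous_norm).mem_nhds
        (show R₀ < ‖z‖ by rw [hzn]; linarith)] with x hx
      exact hχ1 x hx
    have hi : Integrable (fun w => (z - w)⁻¹ * m w) := by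
      refine Continuous.integrable_of_hasCompactSupport ?_ hms.mul_left
      rw [continuous_iff_continuousAt]
      intro w
      by_cases hwz : w = z
      · have : (fun w => (z - w)⁻¹ * m w) =ᶠ[𝓝 w] fun _ => 0 := by
          rw [hwz]
          filter_upwards [(isOpen_lt continuous_const continuous_norm).mem_nhds
            (show R₀ < ‖z‖ by rw [hzn]; linarith)] with x hx
          rw [hmsupp x hx, mul_zero]
        exact continuousAt_const.congr this.symm
      · exact ((continuousAt_const.sub continuousAt_id).inv₀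
          (sub_ne_zero.2 (Ne.symm hwz))).mul hmc.continuousAt
    have h2 : ∫ w : ℂ, m w = z * (∫ w : ℂ, (z - w)⁻¹ * m w) -
        ∫ w : ℂ, (z * ((z - w)⁻¹ * m w) - m w) := by
      rw [integral_sub (hi.const_mul z) hmi, integral_const_mul]
      ring
    have h3 : (2 * π : ℂ)⁻¹ * ∫ w : ℂ, m w = z * h z -
        (2 * π : ℂ)⁻¹ * ∫ w : ℂ, (z * ((z - w)⁻¹ * m w) - m w) := by
      rw [h2, h1]
      ring
    rw [h3]
    refine (norm_sub_le _ _).trans (add_le_add ?_ ?_)
    · rw [norm_mul, hzn]
      have := hinf z (by rw [hzn]; linarith)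
      rw [hzn] at this
      calc t * ‖h z‖ ≤ t * (C₀ / t ^ 2) := by gcongr
        _ = C₀ / t := by field_simp
    · rw [norm_mul]
      have hpin : ‖(2 * π : ℂ)⁻¹‖ ≤ 1 := by
        rw [norm_inv, norm_mul, Complex.norm_real, Real.norm_of_nonneg Real.pi_pos.le]
        simp only [Complex.norm_ofNat]
        exact inv_le_one_of_one_le₀ (by linarith [Real.pi_gt_three])
      have hbd : ‖∫ w : ℂ, (z * ((z - w)⁻¹ * m w) - m w)‖ ≤ (∫ w : ℂ, ‖m w‖) * (2 * R₀ / t) := by
        rw [← integral_mul_const]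
        refine norm_integral_le_of_norm_le (hmi.norm.mul_const _) (Eventually.of_forall fun w => ?_)
        by_cases hw : R₀ < ‖w‖
        · rw [hmsupp w hw]
          simp
        · rw [not_lt] at hw
          have hzw : t / 2 ≤ ‖z - w‖ := by
            have := norm_sub_norm_le z w
            rw [hzn] at this
            linarith
          have hzw0 : z - w ≠ 0 := norm_pos_iff.1 (by linarith)
          have e : z * ((z - w)⁻¹ * m w) - m w = m w * (w / (z - w)) := by
            field_simp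
            ring
          rw [e, norm_mul, norm_div]
          have : ‖w‖ / ‖z - w‖ ≤ 2 * R₀ / t := by
            rw [div_le_div_iff₀ (by linarith) ht0]
            nlinarith [norm_nonneg w]
          gcongr
      calc ‖(2 * π : ℂ)⁻¹‖ * ‖∫ w : ℂ, (z * ((z - w)⁻¹ * m w) - m w)‖
          ≤ 1 * ‖∫ w : ℂ, (z * ((z - w)⁻¹ * m w) - m w)‖ := by gcongr
        _ ≤ _ := by rw [one_mul]; exact hbd
  have hlim : Tendsto (fun t : ℝ => C₀ / t + (∫ w : ℂ, ‖m w‖) * (2 * R₀ / t)) atTop (𝓝 0) := by
    have h1 : Tendsto (fun t : ℝ => C₀ / t) atTop (𝓝 0) := tendsto_const_nhds.div_atTop tendsto_id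
    have h2 : Tendsto (fun t : ℝ => 2 * R₀ / t) atTop (𝓝 0) :=
      tendsto_const_nhds.div_atTop tendsto_id
    have h3 := h1.add (h2.const_mul (∫ w : ℂ, ‖m w‖))
    rw [mul_zero, add_zero] at h3
    exact h3
  have h6 : ‖(2 * π : ℂ)⁻¹ * ∫ w : ℂ, m w‖ ≤ 0 := by
    refine ge_of_tendsto hlim ?_
    filter_upwards [eventually_gt_atTop (2 * R₀ + 1)] with t ht using hest t ht
  have h7 := norm_le_zero_iff.1 h6
  rcases mul_eq_zero.1 h7 with h8 | h8
  · exact absurd h8 (inv_ne_zero hpi)
  · exact h8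

/-- radial functions -/
noncomputable def rad (L : ℝ → ℝ) (u : ℂ) : ℂ := ((L (Complex.normSq u) : ℝ) : ℂ)

lemma contDiff_rad {L : ℝ → ℝ} (hL : ContDiff ℝ 1 L) : ContDiff ℝ 1 (rad L) := by
  have h1 : ContDiff ℝ 1 (fun u : ℂ => Complex.normSq u) := by
    have : (fun u : ℂ => Complex.normSq u) = fun u => u.re * u.re + u.im * u.im :=
      funext fun u => Complex.normSq_apply u
    rw [this]
    have h2 : ContDiff ℝ 1 (fun u : ℂ => u.re) := Complex.reCLM.contDiff
    have h3 : ContDiff ℝ 1 (fun u : ℂ => u.im) := Complex.imCLM.contDiff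
    exact (h2.mul h2).add (h3.mul h3)
  exact Complex.ofRealCLM.contDiff.comp (hL.comp h1)

lemma db_rad {L : ℝ → ℝ} (hL : ContDiff ℝ 1 L) (u : ℂ) :
    db (rad L) u = 2 * ((deriv L (Complex.normSq u) : ℝ) : ℂ) * u := by
  have h1 : HasFDerivAt (fun u : ℂ => Complex.normSq u)
      ((2 * u.re) • Complex.reCLM + (2 * u.im) • Complex.imCLM) u := by
    have e : (fun u : ℂ => Complex.normSq u) = fun u => u.re * u.re + u.im * u.im :=
      funext fun u => Complex.normSq_apply u
    rw [e]
    have h2 : HasFDerivAt (fun u : ℂ => u.re) Complex.reCLM u := Complex.reCLM.hasFDerivAt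
    have h3 : HasFDerivAt (fun u : ℂ => u.im) Complex.imCLM u := Complex.imCLM.hasFDerivAt
    refine ((h2.mul h2).add (h3.mul h3)).congr_fderiv ?_
    ext
    simp
    ring
  have h2 : HasDerivAt L (deriv L (Complex.normSq u)) (Complex.normSq u) :=
    (hL.differentiable (by simp) _).hasDerivAt
  have h3 := h2.comp_hasFDerivAt u h1
  have h4 := Complex.ofRealCLM.hasFDerivAt.comp u h3
  have h5 : fderiv ℝ (rad L) u = _ := h4.fderiv
  rw [db, h5]
  simp only [ContinuousLinearMap.comp_apply, _root_.smul_apply, _root_.add_apply, Complex.ofRealCLM_apply,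
    Complex.reCLM_apply, Complex.imCLM_apply, smul_eq_mul, Complex.one_re, Complex.one_im,
    Complex.I_re, Complex.I_im]
  push_cast
  linear_combination (2 * ((deriv L (Complex.normSq u) : ℝ) : ℂ)) * Complex.re_add_im u

/-- integration of a radial cutoff against an analytic function -/
lemma annulus_integral {q s₁ s₂ : ℝ} (hs₁ : 1 < s₁) (hs₁₂ : s₁ < s₂) (hs₂ : s₂ < q) {L : ℝ → ℝ}
    (hL : ContDiff ℝ 1 L) (hL0 : ∀ t ≤ s₁ ^ 2, L t = 0) (hL1 : ∀ t, s₂ ^ 2 ≤ t → L t = 1)
    {g : ℂ → ℂ} (hg : DifferentiableOn ℂ g (ao q)) {r : ℝ} (hr1 : 1 < r) (hrq : r < q) :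
    ∫ u in ao q, db (rad L) u * g u = -Complex.I * ∮ u in C(0, r), g u := by
  have hq1 : 1 < q := by linarith
  -- vanishing of the derivative
  have hdb0 : ∀ u, (‖u‖ < s₁ ∨ s₂ < ‖u‖) → db (rad L) u = 0 := by
    intro u hu
    rcases hu with hu | hu
    · have h2 : rad L =ᶠ[𝓝 u] fun _ => 0 := by
        filter_upwards [(isOpen_lt continuous_norm continuous_const).mem_nhds hu] with x hx
        have hx' : ‖x‖ < s₁ := hx
        rw [rad, hL0 _ (by
          rw [Complex.normSq_eq_norm_sq]
          nlinarith [norm_nonneg x]), Complex.ofReal_zero]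
      rw [db_of_eventuallyEq h2]
      simp [db]
    · have h2 : rad L =ᶠ[𝓝 u] fun _ => 1 := by
        filter_upwards [(isOpen_lt continuous_const continuous_norm).mem_nhds hu] with x hx
        have hx' : s₂ < ‖x‖ := hx
        rw [rad, hL1 _ (by
          rw [Complex.normSq_eq_norm_sq]
          nlinarith [norm_nonneg x]), Complex.ofReal_one]
      rw [db_of_eventuallyEq h2]
      simp [db]
  set H : ℂ → ℂ := (ao q).indicator (fun u => db (rad L) u * g u) with hH
  have hHc : Continuous H := by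
    rw [continuous_iff_continuousAt]
    intro u
    by_cases hu : u ∈ ao q
    · have h1 : H =ᶠ[𝓝 u] fun u => db (rad L) u * g u := by
        filter_upwards [(isOpen_ao q).mem_nhds hu] with x hx
        rw [hH, indicator_of_mem hx]
      refine ContinuousAt.congr ?_ h1.symm
      exact (continuous_db (contDiff_rad hL)).continuousAt.mul
        (hg.continuousOn.continuousAt ((isOpen_ao q).mem_nhds hu))
    · have h1 : H =ᶠ[𝓝 u] fun _ => 0 := by
        have h2 : ‖u‖ < s₁ ∨ s₂ < ‖u‖ := by
          by_contra hcon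
          push Not at hcon
          exact hu ⟨by linarith [hcon.1], by linarith [hcon.2]⟩
        have h3 : ∀ᶠ x in 𝓝 u, ‖x‖ < s₁ ∨ s₂ < ‖x‖ := by
          rcases h2 with h2 | h2
          · filter_upwards [(isOpen_lt continuous_norm continuous_const).mem_nhds h2] with x hx
              using Or.inl hx
          · filter_upwards [(isOpen_lt continuous_const continuous_norm).mem_nhds h2] with x hx
              using Or.inr hx
        filter_upwards [h3] with x hx
        rw [hH]
        by_cases hx' : x ∈ ao q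
        · rw [indicator_of_mem hx', hdb0 x hx, zero_mul]
        · rw [indicator_of_notMem hx']
      exact continuousAt_const.congr h1.symm
  rw [← integral_indicator (isOpen_ao q).measurableSet, ← hH,
    ← Complex.integral_comp_polarCoord_symm, polarCoord_target]
  have hpc : ∀ p : ℝ × ℝ, p.1 • H (Complex.polarCoord.symm p) = p.1 • H ((p.1 : ℂ) * uu p.2) :=
    fun p => by rw [polar_eq]
  simp only [hpc]
  have hcont : Continuous fun p : ℝ × ℝ => p.1 • H ((p.1 : ℂ) * uu p.2) := by
    have h1 : Continuous fun p : ℝ × ℝ => (p.1 : ℂ) * uu p.2 :=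
      (Complex.continuous_ofReal.comp continuous_fst).mul (continuous_uu.comp continuous_snd)
    exact continuous_fst.smul (hHc.comp h1)
  have hint : IntegrableOn (fun p : ℝ × ℝ => p.1 • H ((p.1 : ℂ) * uu p.2))
      (Ioi (0 : ℝ) ×ˢ Ioo (-π) π) := by
    have h1 : IntegrableOn (fun p : ℝ × ℝ => p.1 • H ((p.1 : ℂ) * uu p.2))
        (Icc (0 : ℝ) q ×ˢ Icc (-π) π) :=
      hcont.continuousOn.integrableOn_compact (isCompact_Icc.prod isCompact_Icc)
    refine h1.of_forall_sdiff_eq_zero (measurableSet_Ioi.prod measurableSet_Ioo) ?_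
    rintro ⟨t, θ⟩ ⟨h2, h3⟩
    have h4 : q < t := by
      by_contra hcon
      push Not at hcon
      exact h3 ⟨⟨(mem_Ioi.1 h2.1).le, hcon⟩, ⟨h2.2.1.le, h2.2.2.le⟩⟩
    have h5 : (t : ℂ) * uu θ ∉ ao q := by
      intro h6
      have := h6.2
      rw [norm_mul, norm_uu, mul_one, Complex.norm_real, Real.norm_eq_abs] at this
      linarith [le_abs_self t]
    simp only [hH, indicator_of_notMem h5, smul_zero]
  rw [Measure.volume_eq_prod, setIntegral_prod _ hint]
  -- the inner integral
  have hcirc : ∀ ρ, 1 < ρ → ρ < q → ∮ u in C(0, ρ), g u = ∮ u in C(0, r), g u := by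
    have hmain : ∀ a b : ℝ, 1 < a → a ≤ b → b < q → ∮ u in C(0, b), g u = ∮ u in C(0, a), g u := by
      intro a b ha hab hb
      refine Complex.circleIntegral_eq_of_differentiable_on_annulus_off_countable (by linarith) hab
        countable_empty ?_ ?_
      · refine hg.continuousOn.mono ?_
        rintro u ⟨h1, h2⟩
        rw [mem_closedBall, dist_zero_right] at h1
        rw [mem_ball, dist_zero_right, not_lt] at h2
        exact ⟨by linarith, by linarith⟩
      · rintro u ⟨⟨h1, h2⟩, -⟩
        rw [mem_ball, dist_zero_right] at h1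
        rw [mem_closedBall, dist_zero_right, not_le] at h2
        exact hg.differentiableAt ((isOpen_ao q).mem_nhds ⟨by linarith, by linarith⟩)
    intro ρ h1 h2
    rcases le_total ρ r with h3 | h3
    · exact (hmain ρ r h1 h3 hrq).symm
    · exact hmain r ρ hr1 h3 h2
  set c : ℂ := ∮ u in C(0, r), g u with hc
  have hinner : ∀ ρ ∈ Ioi (0:ℝ), ∫ θ in Ioo (-π) π, ρ • H ((ρ : ℂ) * uu θ) =
      ((deriv (fun t : ℝ => L (t ^ 2)) ρ : ℝ) : ℂ) * (-Complex.I * c) := by
    intro ρ hρ
    have hρ0 : 0 < ρ := hρ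
    have hdL : deriv (fun t : ℝ => L (t ^ 2)) ρ = deriv L (ρ ^ 2) * (2 * ρ) := by
      have h1 : HasDerivAt L (deriv L (ρ ^ 2)) (ρ ^ 2) := (hL.differentiable (by simp) _).hasDerivAt
      have h2 : HasDerivAt (fun t : ℝ => t ^ 2) (2 * ρ) ρ := by
        simpa using hasDerivAt_pow 2 ρ
      have h3 : HasDerivAt (fun t : ℝ => L (t ^ 2)) (deriv L (ρ ^ 2) * (2 * ρ)) ρ :=
        HasDerivAt.comp (h₂ := L) (h := fun t : ℝ => t ^ 2) ρ h1 h2
      exact h3.deriv
    by_cases hρq : 1 < ρ ∧ ρ < q
    · have hmem : ∀ θ, (ρ : ℂ) * uu θ ∈ ao q := by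
        intro θ
        have : ‖(ρ : ℂ) * uu θ‖ = ρ := by
          rw [norm_mul, norm_uu, mul_one, Complex.norm_real, Real.norm_of_nonneg hρ0.le]
        exact ⟨by rw [this]; exact hρq.1, by rw [this]; exact hρq.2⟩
      have hns : ∀ θ, Complex.normSq ((ρ : ℂ) * uu θ) = ρ ^ 2 := by
        intro θ
        rw [Complex.normSq_eq_norm_sq, norm_mul, norm_uu, mul_one, Complex.norm_real,
          Real.norm_of_nonneg hρ0.le]
      have h1 : ∀ θ, ρ • H ((ρ : ℂ) * uu θ) = ((deriv (fun t : ℝ => L (t ^ 2)) ρ : ℝ) : ℂ) *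
          (-Complex.I) * (deriv (circleMap 0 ρ) θ • g (circleMap 0 ρ θ)) := by
        intro θ
        have e1 : circleMap 0 ρ θ = (ρ : ℂ) * uu θ := by simp [circleMap, uu]
        simp only [hH]
        rw [indicator_of_mem (hmem θ), db_rad hL, hns, hdL, deriv_circleMap, e1, Complex.real_smul]
        push_cast
        simp only [smul_eq_mul]
        linear_combination (2 * (ρ:ℂ) ^ 2 * ((deriv L (ρ ^ 2) : ℝ) : ℂ) * uu θ * g (ρ * uu θ)) * Complex.I_mul_I
      simp only [h1]
      rw [integral_const_mul, ← integral_Ioc_eq_integral_Ioo,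
        ← intervalIntegral.integral_of_le (by linarith [Real.pi_pos])]
      have h2 : ∫ θ in (-π)..π, deriv (circleMap 0 ρ) θ • g (circleMap 0 ρ θ) =
          ∮ u in C(0, ρ), g u := by
        rw [circleIntegral]
        have hper : Function.Periodic
            (fun θ => deriv (circleMap 0 ρ) θ • g (circleMap 0 ρ θ)) (2 * π) := by
          intro θ
          simp only [deriv_circleMap, periodic_circleMap 0 ρ θ]
        have h3 := hper.intervalIntegral_add_eq (-π) 0
        rw [show -π + 2 * π = π by ring, zero_add] at h3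
        exact h3
      rw [h2, hcirc ρ hρq.1 hρq.2]
      ring
    · have h1 : ∀ θ, H ((ρ : ℂ) * uu θ) = 0 := by
        intro θ
        simp only [hH]
        rw [indicator_of_notMem]
        intro hmem
        have : ‖(ρ : ℂ) * uu θ‖ = ρ := by
          rw [norm_mul, norm_uu, mul_one, Complex.norm_real, Real.norm_of_nonneg hρ0.le]
        exact hρq ⟨this ▸ hmem.1, this ▸ hmem.2⟩
      simp only [h1, smul_zero, integral_zero]
      have h2 : deriv (fun t : ℝ => L (t ^ 2)) ρ = 0 := by
        rcases lt_or_ge ρ s₁ with h3 | h3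
        · have h4 : (fun t : ℝ => L (t ^ 2)) =ᶠ[𝓝 ρ] fun _ => 0 := by
            filter_upwards [Ioo_mem_nhds hρ0 h3] with t ht
            exact hL0 _ (by nlinarith [ht.1, ht.2])
          rw [h4.deriv_eq]
          simp
        · have h3' : s₂ < ρ := by
            by_contra hcon
            push Not at hcon
            exact hρq ⟨by linarith, by linarith⟩
          have h4 : (fun t : ℝ => L (t ^ 2)) =ᶠ[𝓝 ρ] fun _ => 1 := by
            filter_upwards [lt_mem_nhds h3'] with t ht
            exact hL1 _ (by nlinarith)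
          rw [h4.deriv_eq]
          simp
      rw [h2]
      simp
  rw [setIntegral_congr_fun measurableSet_Ioi hinner, integral_mul_const]
  have hLs : ContDiff ℝ 1 (fun t : ℝ => L (t ^ 2)) := hL.comp (contDiff_id.pow 2)
  have hfin : ∫ ρ in Ioi (0:ℝ), ((deriv (fun t : ℝ => L (t ^ 2)) ρ : ℝ) : ℂ) = 1 := by
    rw [integral_complex_ofReal]
    have h0 : L ((0:ℝ) ^ 2) = 0 := hL0 _ (by
      rw [zero_pow two_ne_zero]
      positivity)
    have hz : ∀ ρ, q < ρ → deriv (fun t : ℝ => L (t ^ 2)) ρ = 0 := by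
      intro ρ hρ
      have h4 : (fun t : ℝ => L (t ^ 2)) =ᶠ[𝓝 ρ] fun _ => 1 := by
        filter_upwards [lt_mem_nhds hρ] with t ht
        exact hL1 _ (by nlinarith)
      rw [h4.deriv_eq]
      simp
    have h1 : ∫ ρ in Ioi (0:ℝ), deriv (fun t : ℝ => L (t ^ 2)) ρ =
        ∫ ρ in (0:ℝ)..(q + 1), deriv (fun t : ℝ => L (t ^ 2)) ρ := by
      rw [intervalIntegral.integral_of_le (by linarith)]
      refine setIntegral_eq_of_subset_of_forall_sdiff_eq_zero measurableSet_Ioi
        Ioc_subset_Ioi_self ?_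
      rintro x ⟨hx1, hx2⟩
      refine hz x ?_
      by_contra hcon
      push Not at hcon
      exact hx2 ⟨hx1, by linarith⟩
    rw [h1, intervalIntegral.integral_deriv_eq_sub]
    · rw [h0, hL1 _ (by nlinarith)]
      simp
    · exact fun x _ => hLs.differentiable (by simp) x
    · exact (hLs.continuous_deriv (by simp)).intervalIntegrable _ _
  rw [hfin, one_mul]

end Vale.Agent.P116.H906
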