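import Mathlib
import Vale.Agent.P116.H906.Res
import Vale.Agent.P116.H906.LL

/-!
The residue theorem for collars, II.
-/

open Filter Topology Set Metric Bornology MeasureTheory
open scoped Real ComplexConjugate

namespace Vale.Agent.P116.H906

open Pomp

/-- collars of finitely many compact sets -/
structure Col {ι : Type*} (K : ι → Set ℂ) (ψ : ι → ℂ → ℂ) (q : ℝ) : Prop where
  q1 : 1 < q
  cpt : ∀ i, IsCompact (K i)
  diff : ∀ i, DifferentiableOn ℂ (ψ i) (ao q)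
  maps : ∀ i, ∀ u ∈ ao q, ψ i u ∉ ⋃ j, K j
  inj : ∀ i, InjOn (ψ i) (ao q)
  disj : ∀ i j, i ≠ j → Disjoint (ψ i '' ao q) (ψ j '' ao q)
  near : ∀ i, ∀ N : Set ℂ, IsOpen N → K i ⊆ N → ∃ s > 1, ∀ u ∈ ao q, ‖u‖ < s → ψ i u ∈ N
  conv : ∀ i, ∀ s > 1, ∃ N : Set ℂ, IsOpen N ∧ K i ⊆ N ∧
    ∀ z ∈ N, z ∉ ⋃ j, K j → ∃ u ∈ ao q, ‖u‖ < s ∧ ψ i u = z

/-- the pull back of the d-bar operator -/
lemma db_comp {χ ψ : ℂ → ℂ} {u : ℂ} (hχ : DifferentiableAt ℝ χ (ψ u))
    (hψ : DifferentiableAt ℂ ψ u) :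
    db (fun u => χ (ψ u)) u = conj (deriv ψ u) * db χ (ψ u) := by
  have h1 : HasFDerivAt ψ ((ContinuousLinearMap.toSpanSingleton ℂ (deriv ψ u)).restrictScalars ℝ) u :=
    hψ.hasDerivAt.hasFDerivAt.restrictScalars ℝ
  have h2 := hχ.hasFDerivAt.comp u h1
  have h3 : fderiv ℝ (fun u => χ (ψ u)) u = _ := h2.fderiv
  set D := fderiv ℝ χ (ψ u) with hD
  set a := deriv ψ u with ha
  rw [db, h3]
  simp only [ContinuousLinearMap.comp_apply, ContinuousLinearMap.coe_restrictScalars',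
    ContinuousLinearMap.toSpanSingleton_apply, smul_eq_mul, one_mul]
  have e1 : D a = (a.re : ℂ) * D 1 + (a.im : ℂ) * D Complex.I := by
    have : a = a.re • (1 : ℂ) + a.im • Complex.I := by
      conv_lhs => rw [← Complex.re_add_im a]
      simp
    conv_lhs => rw [this]
    rw [map_add, map_smul, map_smul]
    simp only [Complex.real_smul]
  have e2 : D (Complex.I * a) = -(a.im : ℂ) * D 1 + (a.re : ℂ) * D Complex.I := by
    have : Complex.I * a = (-a.im) • (1 : ℂ) + a.re • Complex.I := by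
      conv_lhs => rw [← Complex.re_add_im a]
      simp only [Complex.real_smul]
      push_cast
      linear_combination (a.im : ℂ) * Complex.I_mul_I
    rw [this, map_add, map_smul, map_smul]
    simp only [Complex.real_smul]
    push_cast
    ring
  rw [e1, e2, db, ← hD]
  have e3 : conj a = (a.re : ℂ) - a.im * Complex.I := by
    apply Complex.ext <;> simp
  rw [e3]
  linear_combination ((a.im : ℂ) * D Complex.I) * Complex.I_mul_I

/-- smooth cutoffs on the line -/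
lemma exists_L {a b : ℝ} (hab : a < b) : ∃ L : ℝ → ℝ, ContDiff ℝ 1 L ∧ (∀ t ≤ a, L t = 0) ∧
    ∀ t, b ≤ t → L t = 1 := by
  refine ⟨fun t => Real.smoothTransition ((t - a) / (b - a)), ?_, ?_, ?_⟩
  · exact Real.smoothTransition.contDiff.comp ((contDiff_id.sub contDiff_const).div_const _)
  · intro t ht
    exact Real.smoothTransition.zero_of_nonpos (div_nonpos_of_nonpos_of_nonneg (by linarith)
      (by linarith))
  · intro t ht
    refine Real.smoothTransition.one_of_one_le ?_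
    rw [one_le_div (by linarith)]
    linarith

variable {ι : Type*} {K : ι → Set ℂ} {ψ : ι → ℂ → ℂ} {q : ℝ}

lemma Col.isOpen_img (h : Col K ψ q) (i : ι) : IsOpen (ψ i '' ao q) :=
  isOpen_image_of_inj (isOpen_ao q) (h.diff i) (h.inj i) (isOpen_ao q) subset_rfl

/-- the change of variables in a collar -/
lemma Col.integral_img (h : Col K ψ q) (i : ι) {χ ω : ℂ → ℂ} (hχ : ContDiff ℝ 1 χ) {L : ℝ → ℝ}
    (hL : ∀ u ∈ ao q, χ (ψ i u) = rad L u) :
    ∫ z in ψ i '' ao q, db χ z * ω z =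
      ∫ u in ao q, db (rad L) u * (ω (ψ i u) * deriv (ψ i) u) := by
  rw [integral_image_eq_integral_abs_det_fderiv_smul volume (isOpen_ao q).measurableSet
    (f' := fun u => (ContinuousLinearMap.toSpanSingleton ℂ (deriv (ψ i) u)).restrictScalars ℝ)
    (fun u hu => (((h.diff i).differentiableAt ((isOpen_ao q).mem_nhds hu)).hasDerivAt.hasFDerivAt.restrictScalars
      ℝ).hasFDerivWithinAt) (h.inj i)]
  refine setIntegral_congr_fun (isOpen_ao q).measurableSet fun u hu => ?_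
  have hd : DifferentiableAt ℂ (ψ i) u := (h.diff i).differentiableAt ((isOpen_ao q).mem_nhds hu)
  simp only [abs_det_toSpanSingleton']
  have h1 : db (rad L) u = conj (deriv (ψ i) u) * db χ (ψ i u) := by
    rw [← db_comp (hχ.differentiable (by simp) _) hd]
    refine db_of_eventuallyEq ?_
    filter_upwards [(isOpen_ao q).mem_nhds hu] with x hx using (hL x hx).symm
  rw [h1, Complex.real_smul, ← Complex.normSq_eq_norm_sq, ← Complex.mul_conj]
  ring

/-- the cutoff function of a family of collars -/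
lemma Col.exists_chi [Finite ι] (h : Col K ψ q) {R : ℝ} (hR : ∀ i, K i ⊆ ball 0 R) {s₁ s₂ : ℝ}
    (hs₁ : 1 < s₁) (hs₁₂ : s₁ < s₂) (hs₂ : s₂ < q)
    (hsR : ∀ i, ∀ u, 1 < ‖u‖ → ‖u‖ ≤ s₂ → ψ i u ∈ ball 0 R) {L : ℝ → ℝ}
    (hL : ContDiff ℝ 1 L) (hL0 : ∀ t ≤ s₁ ^ 2, L t = 0) (hL1 : ∀ t, s₂ ^ 2 ≤ t → L t = 1) :
    ∃ χ : ℂ → ℂ, ContDiff ℝ 1 χ ∧ (∀ z ∈ ⋃ i, K i, ∀ᶠ w in 𝓝 z, χ w = 0) ∧
      (∀ z, R < ‖z‖ → χ z = 1) ∧ (∀ i, ∀ u ∈ ao q, χ (ψ i u) = rad L u) ∧
      ∀ z, z ∉ ⋃ i, K i → z ∉ ⋃ i, ψ i '' ao q → ∀ᶠ w in 𝓝 z, χ w = 1 := by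
  classical
  have hq1 := h.q1
  have hrad0 : ∀ u : ℂ, ‖u‖ ≤ s₁ → rad L u = 0 := by
    intro u hu
    rw [rad, hL0 _ (by
      rw [Complex.normSq_eq_norm_sq]
      nlinarith [norm_nonneg u]), Complex.ofReal_zero]
  have hrad1 : ∀ u : ℂ, s₂ ≤ ‖u‖ → rad L u = 1 := by
    intro u hu
    rw [rad, hL1 _ (by
      rw [Complex.normSq_eq_norm_sq]
      nlinarith [norm_nonneg u]), Complex.ofReal_one]
  set χ : ℂ → ℂ := fun z => if hz : ∃ i, z ∈ ψ i '' ao q then
    rad L (Function.invFunOn (ψ hz.choose) (ao q) z) else if z ∈ ⋃ i, K i then 0 else 1 with hχ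
  have hA : ∀ i, ∀ u ∈ ao q, χ (ψ i u) = rad L u := by
    intro i u hu
    have hz : ∃ j, ψ i u ∈ ψ j '' ao q := ⟨i, mem_image_of_mem _ hu⟩
    have hji : hz.choose = i := by
      by_contra hne
      exact disjoint_left.1 (h.disj _ _ hne) hz.choose_spec (mem_image_of_mem _ hu)
    simp only [hχ]
    rw [dif_pos hz, hji]
    congr 1
    have h1 := Function.invFunOn_mem (mem_image_of_mem (ψ i) hu)
    have h2 := Function.invFunOn_eq (mem_image_of_mem (ψ i) hu)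
    exact h.inj i h1 hu h2
  have hKimg : ∀ z ∈ ⋃ i, K i, ¬ ∃ i, z ∈ ψ i '' ao q := by
    rintro z hz ⟨i, u, hu, rfl⟩
    exact h.maps i u hu hz
  have hB : ∀ z ∈ ⋃ i, K i, χ z = 0 := by
    intro z hz
    simp only [hχ]
    rw [dif_neg (hKimg z hz), if_pos hz]
  have hCc : ∀ z, z ∉ ⋃ i, K i → (¬ ∃ i, z ∈ ψ i '' ao q) → χ z = 1 := by
    intro z hz1 hz2
    simp only [hχ]
    rw [dif_neg hz2, if_neg hz1]
  have hKc : IsClosed (⋃ i, K i) := isClosed_iUnion_of_finite fun i => (h.cpt i).isClosed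
  have hev0 : ∀ z ∈ ⋃ i, K i, ∀ᶠ w in 𝓝 z, χ w = 0 := by
    intro z hz
    obtain ⟨i, hi⟩ := mem_iUnion.1 hz
    obtain ⟨N, hN, hKN, hNc⟩ := h.conv i s₁ hs₁
    filter_upwards [hN.mem_nhds (hKN hi)] with w hw
    by_cases hwK : w ∈ ⋃ i, K i
    · exact hB w hwK
    · obtain ⟨u, hu, hus, rfl⟩ := hNc w hw hwK
      rw [hA i u hu, hrad0 u hus.le]
  have hev1 : ∀ z, z ∉ ⋃ i, K i → z ∉ ⋃ i, ψ i '' ao q → ∀ᶠ w in 𝓝 z, χ w = 1 := by
    intro z hz1 hz2
    have hW : ∀ i, ∀ᶠ w in 𝓝 z, ∀ u ∈ ao q, ψ i u = w → s₂ < ‖u‖ := by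
      intro i
      obtain ⟨A, B, hA', hB', hKA, hzB, hAB⟩ := SeparatedNhds.of_isCompact_isCompact
        (h.cpt i) (isCompact_singleton (x := z)) (disjoint_singleton_right.2 fun hmem =>
          hz1 (mem_iUnion.2 ⟨i, hmem⟩))
      obtain ⟨s, hs, hsA⟩ := h.near i A hA' hKA
      set T : Set ℂ := {u | s ≤ ‖u‖ ∧ ‖u‖ ≤ s₂} with hT
      have hTc : IsCompact T := by
        refine (isCompact_closedBall (0:ℂ) s₂).of_isClosed_subset ?_ ?_
        · exact (isClosed_le continuous_const continuous_norm).inter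
            (isClosed_le continuous_norm continuous_const)
        · intro u hu
          rw [mem_closedBall, dist_zero_right]
          exact hu.2
      have hTa : T ⊆ ao q := fun u hu => ⟨hs.trans_le hu.1, hu.2.trans_lt hs₂⟩
      have hTi : IsClosed (ψ i '' T) := (hTc.image_of_continuousOn
        ((h.diff i).continuousOn.mono hTa)).isClosed
      have hzT : z ∉ ψ i '' T := fun hmem => hz2 (mem_iUnion.2 ⟨i, image_mono hTa hmem⟩)
      filter_upwards [hB'.mem_nhds (hzB rfl), hTi.isOpen_compl.mem_nhds hzT] with w hwB hwT u hu huw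
      by_contra hcon
      push Not at hcon
      rcases lt_or_ge ‖u‖ s with h1 | h1
      · exact disjoint_left.1 hAB (hsA u hu h1) (huw ▸ hwB)
      · exact hwT ⟨u, ⟨h1, hcon⟩, huw⟩
    filter_upwards [eventually_all.2 hW, hKc.isOpen_compl.mem_nhds hz1] with w hw hwK
    by_cases hwi : ∃ i, w ∈ ψ i '' ao q
    · obtain ⟨i, u, hu, rfl⟩ := hwi
      rw [hA i u hu, hrad1 u (hw i u hu rfl).le]
    · exact hCc w hwK hwi
  refine ⟨χ, ?_, hev0, ?_, hA, hev1⟩
  · rw [contDiff_iff_contDiffAt]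
    intro z
    by_cases hz1 : z ∈ ⋃ i, K i
    · exact contDiffAt_const.congr_of_eventuallyEq (hev0 z hz1)
    by_cases hz2 : z ∈ ⋃ i, ψ i '' ao q
    · obtain ⟨i, u, hu, rfl⟩ := mem_iUnion.1 hz2
      have h1 : χ =ᶠ[𝓝 (ψ i u)] fun z => rad L (Function.invFunOn (ψ i) (ao q) z) := by
        filter_upwards [(h.isOpen_img i).mem_nhds (mem_image_of_mem _ hu)] with w hw
        have h2 := Function.invFunOn_mem hw
        have h3 := Function.invFunOn_eq hw
        conv_lhs => rw [← h3]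
        rw [hA i _ h2]
      refine ContDiffAt.congr_of_eventuallyEq ?_ h1
      have h4 : AnalyticAt ℂ (Function.invFunOn (ψ i) (ao q)) (ψ i u) :=
        (inv_diff (isOpen_ao q) (h.diff i) (h.inj i)).analyticAt
          ((h.isOpen_img i).mem_nhds (mem_image_of_mem _ hu))
      exact (contDiff_rad hL).contDiffAt.comp _ ((h4.contDiffAt (n := 1)).restrict_scalars ℝ)
    · exact contDiffAt_const.congr_of_eventuallyEq (hev1 z hz1 hz2)
  · intro z hz
    by_cases hz1 : z ∈ ⋃ i, K i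
    · obtain ⟨i, hi⟩ := mem_iUnion.1 hz1
      have := hR i hi
      rw [mem_ball, dist_zero_right] at this
      linarith
    by_cases hz2 : ∃ i, z ∈ ψ i '' ao q
    · obtain ⟨i, u, hu, rfl⟩ := hz2
      rw [hA i u hu]
      refine hrad1 u ?_
      by_contra hcon
      push Not at hcon
      have := hsR i u hu.1 hcon.le
      rw [mem_ball, dist_zero_right] at this
      linarith
    · exact hCc z hz1 hz2

/-- **the residue theorem for collars** -/
theorem Col.residue_sum [Fintype ι] (h : Col K ψ q) {ω : ℂ → ℂ}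
    (hω : DifferentiableOn ℂ ω (⋃ i, K i)ᶜ) {C₀ R₀ : ℝ}
    (hinf : ∀ z, R₀ < ‖z‖ → ‖ω z‖ ≤ C₀ / ‖z‖ ^ 2) {r : ℝ} (hr1 : 1 < r) (hrq : r < q) :
    ∑ i, ∮ u in C(0, r), ω (ψ i u) * deriv (ψ i) u = 0 := by
  classical
  have hKc : IsCompact (⋃ i, K i) := isCompact_iUnion h.cpt
  obtain ⟨R₁, hR₁⟩ := hKc.isBounded.subset_closedBall 0
  set R : ℝ := max (max R₀ (R₁ + 1)) 1 with hR
  have hR0 : 0 < R := lt_max_of_lt_right one_pos
  have hRK : ∀ i, K i ⊆ ball 0 R := by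
    intro i z hz
    have h1 := hR₁ (mem_iUnion.2 ⟨i, hz⟩)
    rw [mem_closedBall] at h1
    rw [mem_ball]
    have h2 : R₁ + 1 ≤ R := (le_max_right _ _).trans (le_max_left _ _)
    linarith
  have hs : ∀ i, ∃ s > 1, ∀ u ∈ ao q, ‖u‖ < s → ψ i u ∈ ball (0:ℂ) R := fun i =>
    h.near i _ isOpen_ball (hRK i)
  choose s hs1 hsR using hs
  obtain ⟨t, ht1, hts, htq⟩ : ∃ t > 1, (∀ i, t < s i) ∧ t < q := by
    have hq1 := h.q1
    by_cases hne : Nonempty ι
    · have hpos : 1 < min (Finset.univ.inf' Finset.univ_nonempty s) q := by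
        refine lt_min ?_ hq1
        rw [Finset.lt_inf'_iff]
        exact fun k _ => hs1 k
      obtain ⟨t, ht1, ht2⟩ := exists_between hpos
      exact ⟨t, ht1, fun i => ht2.trans_le ((min_le_left _ _).trans
        (Finset.inf'_le _ (Finset.mem_univ i))), ht2.trans_le (min_le_right _ _)⟩
    · obtain ⟨t, ht1, ht2⟩ := exists_between hq1
      exact ⟨t, ht1, fun i => absurd ⟨i⟩ hne, ht2⟩
  obtain ⟨s₁, hs₁, hs₁t⟩ := exists_between ht1
  obtain ⟨L, hL, hL0, hL1⟩ := exists_L (show s₁ ^ 2 < t ^ 2 by nlinarith)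
  obtain ⟨χ, hχ, hχ0, hχ1, hχψ, hχe⟩ := h.exists_chi hRK hs₁ hs₁t htq (fun i u hu1 hu2 =>
    hsR i u ⟨hu1, hu2.trans_lt htq⟩ (hu2.trans_lt (hts i))) hL hL0 hL1
  obtain ⟨hmc, hms, hmz⟩ := mass_zero hKc hω hR0 (fun z hz => hinf z (lt_of_le_of_lt
    ((le_max_left _ _).trans (le_max_left _ _)) hz)) hχ hχ0 hχ1
  have hmi : Integrable (fun w => db χ w * ω w) := hmc.integrable_of_hasCompactSupport hms
  have hsupp : ∀ z, z ∉ ⋃ i, ψ i '' ao q → db χ z * ω z = 0 := by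
    intro z hz
    by_cases hzK : z ∈ ⋃ i, K i
    · have h2 : χ =ᶠ[𝓝 z] fun _ => 0 := hχ0 z hzK
      rw [db_of_eventuallyEq h2]
      simp [db]
    · have h2 : χ =ᶠ[𝓝 z] fun _ => 1 := hχe z hzK hz
      rw [db_of_eventuallyEq h2]
      simp [db]
  have h1 : ∫ z in ⋃ i, ψ i '' ao q, db χ z * ω z = 0 := by
    rw [setIntegral_eq_integral_of_forall_compl_eq_zero hsupp]
    exact hmz
  rw [integral_iUnion_fintype (fun i => (h.isOpen_img i).measurableSet)
    (fun i j hij => h.disj i j hij) (fun i => hmi.integrableOn)] at h1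
  have h2 : ∀ i, ∫ z in ψ i '' ao q, db χ z * ω z =
      -Complex.I * ∮ u in C(0, r), ω (ψ i u) * deriv (ψ i) u := by
    intro i
    rw [h.integral_img i hχ (hχψ i)]
    refine annulus_integral hs₁ hs₁t htq hL hL0 hL1 ?_ hr1 hrq
    refine DifferentiableOn.mul ?_ ?_
    · exact hω.comp (h.diff i) fun u hu => h.maps i u hu
    · exact ((h.diff i).analyticOnNhd (isOpen_ao q)).deriv.differentiableOn
  simp only [h2] at h1
  rw [← Finset.mul_sum] at h1
  rcases mul_eq_zero.1 h1 with h3 | h3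
  · exact absurd h3 (neg_ne_zero.2 Complex.I_ne_zero)
  · exact h3

end Vale.Agent.P116.H906
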