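import Mathlib
import Vale.Agent.P116.H906.Erm
import Vale.Agent.P116.H906.Sys

/-!
Tools for rigidity: derivative bounds by area, winding numbers.
-/

open Filter Topology Set Metric Bornology MeasureTheory
open scoped Real ComplexConjugate

namespace Vale.Agent.P116.H906

/-- a weak quarter theorem -/
theorem koebe_ten {F : ℂ → ℂ} {u : ℂ} {ρ : ℝ} (hρ : 0 < ρ) (hd : DifferentiableOn ℂ F (ball u ρ))
    (hinj : InjOn F (ball u ρ)) : ball (F u) (ρ * ‖deriv F u‖ / 10) ⊆ F '' ball u ρ := by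
  have hu : u ∈ ball u ρ := mem_ball_self hρ
  have hne : deriv F u ≠ 0 := Vale.Agent.P142.injOn_deriv_ne_zero isOpen_ball hd hinj hu
  have hρC : (ρ : ℂ) ≠ 0 := by exact_mod_cast hρ.ne'
  set a : ℂ := ρ * deriv F u with ha
  have ha0 : a ≠ 0 := mul_ne_zero hρC hne
  have han : ‖a‖ = ρ * ‖deriv F u‖ := by
    rw [ha, norm_mul, Complex.norm_real, Real.norm_of_nonneg hρ.le]
  set P : Set ℂ := closedBall (0:ℂ) 1 with hP
  have hz1 : ∀ z ∈ Pᶜ, 1 < ‖z‖ := by
    intro z hz
    rwa [hP, mem_compl_iff, mem_closedBall, dist_zero_right, not_le] at hz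
  have hz0 : ∀ z ∈ Pᶜ, z ≠ 0 := fun z hz => norm_pos_iff.1 (one_pos.trans (hz1 z hz))
  have hmem : ∀ z ∈ Pᶜ, u + ρ / z ∈ ball u ρ := by
    intro z hz
    rw [mem_ball, dist_eq_norm, add_sub_cancel_left, norm_div, Complex.norm_real,
      Real.norm_of_nonneg hρ.le, div_lt_iff₀ (one_pos.trans (hz1 z hz))]
    nlinarith [hz1 z hz]
  have hFne : ∀ z ∈ Pᶜ, F (u + ρ / z) - F u ≠ 0 := by
    intro z hz h
    have h1 := hinj (hmem z hz) hu (sub_eq_zero.1 h)
    have h2 : (ρ : ℂ) / z = 0 := by linear_combination h1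
    exact (div_ne_zero hρC (hz0 z hz)) h2
  set G : ℂ → ℂ := fun z => a / (F (u + ρ / z) - F u) with hG
  have hGd : DifferentiableOn ℂ G Pᶜ := by
    intro z hz
    have h1 : DifferentiableAt ℂ F (u + ρ / z) := hd.differentiableAt (isOpen_ball.mem_nhds (hmem z hz))
    have h2 : DifferentiableAt ℂ (fun z : ℂ => u + ρ / z) z :=
      ((differentiableAt_const _).div differentiableAt_id (hz0 z hz)).const_add _
    have h3 : DifferentiableAt ℂ (fun z : ℂ => F (u + ρ / z)) z := h1.comp z h2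
    exact ((differentiableAt_const _).div (h3.sub_const _) (hFne z hz)).differentiableWithinAt
  have hGinj : InjOn G Pᶜ := by
    intro z hz w hw hzw
    simp only [hG] at hzw
    rw [div_eq_div_iff (hFne z hz) (hFne w hw)] at hzw
    have h1 := mul_left_cancel₀ ha0 hzw
    have h2 := hinj (hmem w hw) (hmem z hz) (sub_left_injective h1)
    have h3 : (ρ : ℂ) / w = ρ / z := by linear_combination h2
    rw [div_eq_div_iff (hz0 w hw) (hz0 z hz)] at h3
    exact mul_left_cancel₀ hρC h3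
  have hGlim : Tendsto (fun z => G z / z) (cobounded ℂ) (𝓝 1) := by
    have h1 : HasDerivAt F (deriv F u) u := (hd.differentiableAt (isOpen_ball.mem_nhds hu)).hasDerivAt
    have h2 := hasDerivAt_iff_tendsto_slope_zero.1 h1
    have h3 : Tendsto (fun z : ℂ => (ρ : ℂ) / z) (cobounded ℂ) (𝓝[≠] 0) := by
      rw [tendsto_nhdsWithin_iff]
      constructor
      · have := (tendsto_inv₀_cobounded (α := ℂ)).const_mul (ρ : ℂ)
        rw [mul_zero] at this
        exact this.congr fun z => by rw [div_eq_mul_inv]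
      · filter_upwards [tendsto_norm_cobounded_atTop.eventually_gt_atTop 0] with z hz
        exact div_ne_zero hρC (norm_pos_iff.1 hz)
    have h4 := (h2.comp h3).inv₀ hne
    have h5 := h4.const_mul (deriv F u)
    rw [mul_inv_cancel₀ hne] at h5
    refine h5.congr' ?_
    have hb : ∀ᶠ z : ℂ in cobounded ℂ, z ∈ Pᶜ := by
      have := (isCompact_closedBall (0:ℂ) 1).isBounded
      rwa [isBounded_def] at this
    filter_upwards [hb] with z hz
    have h6 := hz0 z hz
    have h7 := hFne z hz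
    simp only [Function.comp_apply, hG, smul_eq_mul, ha]
    field_simp
  obtain ⟨κ, hκ⟩ := nu_of_ratio (isCompact_closedBall (0:ℂ) 1) hGd hGinj hGlim
  have h1 : ‖-κ‖ ≤ 5 * 1 := by
    refine hκ.omitted one_pos subset_rfl fun z hz h => ?_
    have h2 : G z = 0 := by linear_combination h
    exact (div_ne_zero ha0 (hFne z hz)) h2
  intro y hy
  by_contra hcon
  have hyu : y ≠ F u := fun h => hcon (h ▸ mem_image_of_mem _ hu)
  have hy0 : y - F u ≠ 0 := sub_ne_zero.2 hyu
  have h2 : ‖a / (y - F u) - κ‖ ≤ 5 * 1 := by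
    refine hκ.omitted one_pos subset_rfl fun z hz h => hcon ?_
    have h3 : G z = a / (y - F u) := by linear_combination h
    simp only [hG] at h3
    rw [div_eq_div_iff (hFne z hz) hy0] at h3
    have h4 := mul_left_cancel₀ ha0 h3
    refine ⟨_, hmem z hz, ?_⟩
    linear_combination -h4
  have h3 : ‖a / (y - F u)‖ ≤ 10 := by
    calc ‖a / (y - F u)‖ = ‖(a / (y - F u) - κ) + κ‖ := by rw [sub_add_cancel]
      _ ≤ ‖a / (y - F u) - κ‖ + ‖κ‖ := norm_add_le _ _
      _ ≤ 10 := by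
        rw [norm_neg] at h1
        linarith
  rw [norm_div, div_le_iff₀ (norm_pos_iff.2 hy0), han] at h3
  rw [mem_ball, dist_eq_norm] at hy
  linarith

/-- the derivative is controlled by the area of the image -/
lemma deriv_sq_le {F : ℂ → ℂ} {u : ℂ} {ρ : ℝ} (hρ : 0 < ρ) (hd : DifferentiableOn ℂ F (ball u ρ))
    (hinj : InjOn F (ball u ρ)) {A : Set ℂ} (hA : F '' ball u ρ ⊆ A) (hAf : volume A ≠ ⊤) :
    ‖deriv F u‖ ^ 2 ≤ 100 / ρ ^ 2 * volume.real A := by
  have h1 : volume (ball (F u) (ρ * ‖deriv F u‖ / 10)) ≤ volume A :=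
    measure_mono ((koebe_ten hρ hd hinj).trans hA)
  have h2 : volume.real (ball (F u) (ρ * ‖deriv F u‖ / 10)) ≤ volume.real A :=
    ENNReal.toReal_mono hAf h1
  have h3 : volume.real (ball (F u) (ρ * ‖deriv F u‖ / 10)) = (ρ * ‖deriv F u‖ / 10) ^ 2 * π := by
    rw [Measure.real, Complex.volume_ball, ENNReal.toReal_mul, ENNReal.toReal_pow,
      ENNReal.toReal_ofReal (by positivity)]
    rfl
  rw [h3] at h2
  have h4 : (ρ * ‖deriv F u‖ / 10) ^ 2 ≤ volume.real A := by
    have h5 : 0 ≤ (ρ * ‖deriv F u‖ / 10) ^ 2 := by positivity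
    nlinarith [Real.pi_gt_three]
  have h5 : (ρ * ‖deriv F u‖ / 10) ^ 2 = ρ ^ 2 / 100 * ‖deriv F u‖ ^ 2 := by ring
  rw [h5] at h4
  have h6 : 100 / ρ ^ 2 * (ρ ^ 2 / 100 * ‖deriv F u‖ ^ 2) = ‖deriv F u‖ ^ 2 := by
    field_simp
  rw [← h6]
  exact mul_le_mul_of_nonneg_left h4 (by positivity)

/-- the winding number vanishes in an unbounded connected set -/
lemma wind_zero {Ψ : ℂ → ℂ} {U : Set ℂ} (hU : IsOpen U) (hΨ : DifferentiableOn ℂ Ψ U) {r : ℝ}
    (hr : 0 ≤ r) (hrU : sphere (0:ℂ) r ⊆ U) {D : Set ℂ} (hDo : IsOpen D) (hDc : IsPreconnected D)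
    (hDu : ¬ Bornology.IsBounded D) (hD : Disjoint D (Ψ '' sphere (0:ℂ) r)) {z₀ : ℂ}
    (hz₀ : z₀ ∈ D) : ∮ u in C(0, r), deriv Ψ u / (Ψ u - z₀) = 0 := by
  have hΨc : ContinuousOn Ψ (sphere (0:ℂ) r) := hΨ.continuousOn.mono hrU
  have hΨ'c : ContinuousOn (deriv Ψ) (sphere (0:ℂ) r) :=
    ((hΨ.analyticOnNhd hU).deriv.continuousOn).mono hrU
  have hsc : IsCompact (sphere (0:ℂ) r) := isCompact_sphere _ _
  obtain ⟨M, hM⟩ := hsc.exists_bound_of_continuousOn hΨc
  obtain ⟨M', hM'⟩ := hsc.exists_bound_of_continuousOn hΨ'c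
  have hne : ∀ z ∈ D, ∀ u ∈ sphere (0:ℂ) r, Ψ u - z ≠ 0 := by
    intro z hz u hu h
    refine disjoint_left.1 hD hz ⟨u, hu, sub_eq_zero.1 h⟩
  have hrn : (sphere (0:ℂ) r).Nonempty := NormedSpace.sphere_nonempty.2 hr
  obtain ⟨u₀, hu₀⟩ := hrn
  have hM'0 : 0 ≤ M' := (norm_nonneg _).trans (hM' u₀ hu₀)
  set I : ℂ → ℂ := fun z => ∮ u in C(0, r), deriv Ψ u / (Ψ u - z) with hI
  have hci : ∀ z ∈ D, CircleIntegrable (fun u => deriv Ψ u / (Ψ u - z)) 0 r := fun z hz =>
    (hΨ'c.div (hΨc.sub continuousOn_const) (hne z hz)).circleIntegrable hr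
  have hder : ∀ z ∈ D, HasDerivAt I 0 z := by
    intro z hz
    obtain ⟨δ, hδ, hδD⟩ := Metric.isOpen_iff.1 hDo z hz
    have hδ2 : ∀ y ∈ ball z (δ / 2), ∀ u ∈ sphere (0:ℂ) r, δ / 2 ≤ ‖Ψ u - y‖ := by
      intro y hy u hu
      by_contra hcon
      push Not at hcon
      have h1 : Ψ u ∈ ball z δ := by
        rw [mem_ball]
        rw [mem_ball] at hy
        have := dist_triangle (Ψ u) y z
        rw [← dist_eq_norm] at hcon
        linarith
      exact disjoint_left.1 hD (hδD h1) (mem_image_of_mem _ hu)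
    have hsq : ∮ u in C(0, r), deriv Ψ u / (Ψ u - z) ^ 2 = 0 := by
      refine circleIntegral.integral_eq_zero_of_hasDerivWithinAt (f := fun u => -(Ψ u - z)⁻¹) hr
        fun u hu => ?_
      have h1 : HasDerivAt Ψ (deriv Ψ u) u := (hΨ.differentiableAt (hU.mem_nhds (hrU hu))).hasDerivAt
      have h2 := ((h1.sub_const z).fun_inv (hne z hz u hu)).neg
      refine (h2.congr_deriv ?_).hasDerivWithinAt
      ring
    have hcisq : ∀ c : ℂ, CircleIntegrable (fun u => c * (deriv Ψ u / (Ψ u - z) ^ 2)) 0 r :=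
      fun c => (continuousOn_const.mul (hΨ'c.div ((hΨc.sub continuousOn_const).pow 2)
        (fun u hu => pow_ne_zero 2 (hne z hz u hu)))).circleIntegrable hr
    have hest : ∀ y ∈ ball z (δ / 2), ‖I y - I z‖ ≤
        2 * π * r * (M' * (‖y - z‖ ^ 2 / (δ / 2) ^ 3)) := by
      intro y hy
      have hyD : y ∈ D := hδD (ball_subset_ball (by linarith) hy)
      have h1 : I y - I z = ∮ u in C(0, r),
          (deriv Ψ u / (Ψ u - y) - deriv Ψ u / (Ψ u - z) - (y - z) * (deriv Ψ u / (Ψ u - z) ^ 2)) := by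
        have hcid : CircleIntegrable
            (fun u => deriv Ψ u / (Ψ u - y) - deriv Ψ u / (Ψ u - z)) 0 r :=
          (hci y hyD).sub (hci z hz)
        rw [circleIntegral.integral_sub hcid (hcisq _),
          circleIntegral.integral_sub (hci y hyD) (hci z hz), circleIntegral.integral_const_mul,
          hsq, mul_zero, sub_zero]
      rw [h1]
      refine circleIntegral.norm_integral_le_of_norm_le_const hr fun u hu => ?_
      have h2 := hne y hyD u hu
      have h3 := hne z hz u hu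
      have e : deriv Ψ u / (Ψ u - y) - deriv Ψ u / (Ψ u - z) -
          (y - z) * (deriv Ψ u / (Ψ u - z) ^ 2) =
          deriv Ψ u * ((y - z) ^ 2 / ((Ψ u - y) * (Ψ u - z) ^ 2)) := by
        field_simp
        ring
      rw [e, norm_mul, norm_div, norm_mul, norm_pow, norm_pow]
      have h4 := hδ2 y hy u hu
      have h5 := hδ2 z (mem_ball_self (by positivity)) u hu
      have h6 : (δ / 2) ^ 3 ≤ ‖Ψ u - y‖ * ‖Ψ u - z‖ ^ 2 := by
        calc (δ / 2) ^ 3 = (δ / 2) * (δ / 2) ^ 2 := by ring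
          _ ≤ _ := by gcongr
      have h7 : ‖y - z‖ ^ 2 / (‖Ψ u - y‖ * ‖Ψ u - z‖ ^ 2) ≤ ‖y - z‖ ^ 2 / (δ / 2) ^ 3 :=
        div_le_div_of_nonneg_left (by positivity) (by positivity) h6
      exact mul_le_mul (hM' u hu) h7 (by positivity) hM'0
    rw [hasDerivAt_iff_tendsto]
    simp only [smul_zero, sub_zero]
    set C : ℝ := 2 * π * r * (M' / (δ / 2) ^ 3) with hC
    have hC0 : 0 ≤ C := by positivity
    have hlim : Tendsto (fun y => C * ‖y - z‖) (𝓝 z) (𝓝 0) := by
      have h1 : Tendsto (fun y => C * ‖y - z‖) (𝓝 z) (𝓝 (C * ‖z - z‖)) := by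
        refine Continuous.tendsto ?_ z
        fun_prop
      simpa using h1
    refine squeeze_zero' (Eventually.of_forall fun y => by positivity) ?_ hlim
    filter_upwards [ball_mem_nhds z (half_pos hδ)] with y hy
    have h1 := hest y hy
    by_cases hyz : y = z
    · rw [hyz]
      simp
    have hpos : 0 < ‖y - z‖ := norm_pos_iff.2 (sub_ne_zero.2 hyz)
    calc ‖y - z‖⁻¹ * ‖I y - I z‖ ≤ ‖y - z‖⁻¹ * (2 * π * r * (M' * (‖y - z‖ ^ 2 / (δ / 2) ^ 3))) := by
          gcongr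
      _ = C * ‖y - z‖ := by
          rw [hC]
          field_simp
  have hconst : ∀ z ∈ D, I z₀ = I z := fun z hz =>
    hDo.is_const_of_deriv_eq_zero hDc (fun x hx => (hder x hx).differentiableAt.differentiableWithinAt)
      (fun x hx => (hder x hx).deriv) hz₀ hz
  have hbound : ∀ T : ℝ, 0 < T → ‖I z₀‖ ≤ 2 * π * r * (M' / T) := by
    intro T hT
    obtain ⟨z, hz, hzT⟩ : ∃ z ∈ D, M + T < ‖z‖ := by
      by_contra hcon
      push Not at hcon
      refine hDu ((isBounded_closedBall (x := (0:ℂ)) (r := M + T)).subset fun z hz => ?_)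
      rw [mem_closedBall, dist_zero_right]
      exact hcon z hz
    rw [hconst z hz]
    refine circleIntegral.norm_integral_le_of_norm_le_const hr fun u hu => ?_
    rw [norm_div]
    have h1 : T ≤ ‖Ψ u - z‖ := by
      have h2 := norm_sub_norm_le z (Ψ u)
      rw [norm_sub_rev] at h2
      have h3 := hM u hu
      linarith
    exact div_le_div₀ hM'0 (hM' u hu) hT h1
  have hlim : Tendsto (fun T : ℝ => 2 * π * r * (M' / T)) atTop (𝓝 0) := by
    have h1 : Tendsto (fun T : ℝ => M' / T) atTop (𝓝 0) := tendsto_const_nhds.div_atTop tendsto_id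
    have := h1.const_mul (2 * π * r)
    rwa [mul_zero] at this
  have h6 : ‖I z₀‖ ≤ 0 := by
    refine ge_of_tendsto hlim ?_
    filter_upwards [eventually_gt_atTop (0:ℝ)] with T hT using hbound T hT
  exact norm_le_zero_iff.1 h6

/-- bounded analytic functions near infinity have limits -/
lemma exists_lim_infty {R M : ℝ} {H : ℂ → ℂ}
    (hd : DifferentiableOn ℂ H (closedBall (0:ℂ) R)ᶜ) (hb : ∀ z ∈ (closedBall (0:ℂ) R)ᶜ, ‖H z‖ ≤ M) :
    ∃ a, Tendsto H (cobounded ℂ) (𝓝 a) := by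
  have hev : ∀ᶠ z : ℂ in 𝓝[≠] 0, z⁻¹ ∈ (closedBall (0:ℂ) R)ᶜ := by
    have h1 : ∀ᶠ z : ℂ in cobounded ℂ, z ∈ (closedBall (0:ℂ) R)ᶜ := by
      have := isBounded_closedBall (x := (0:ℂ)) (r := R)
      rwa [isBounded_def] at this
    exact tendsto_inv₀_nhdsNE_zero.eventually h1
  have h1 := Complex.tendsto_limUnder_of_differentiable_on_punctured_nhds_of_bounded_under
    (f := fun z => H z⁻¹) (c := 0) (by
      filter_upwards [hev, self_mem_nhdsWithin] with z hz hz0
      have h1 : DifferentiableAt ℂ H z⁻¹ :=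
        hd.differentiableAt (isClosed_closedBall.isOpen_compl.mem_nhds hz)
      exact h1.comp z (differentiableAt_inv hz0)) (by
      refine ⟨M + ‖H 0⁻¹‖, ?_⟩
      rw [eventually_map]
      filter_upwards [hev] with z hz
      exact (norm_sub_le _ _).trans (add_le_add (hb _ hz) le_rfl))
  refine ⟨_, (h1.comp tendsto_inv₀_cobounded').congr fun z => ?_⟩
  simp

end Vale.Agent.P116.H906
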