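import Mathlib
import Vale.Agent.P116.H906.Res2
import Vale.Agent.P116.H906.Rig1
import Vale.Agent.P116.H906.Hull

/-!
Collars of the holes, and of the holes together with a small disk.
-/

open Filter Topology Set Metric Bornology MeasureTheory
open scoped Real ComplexConjugate

namespace Vale.Agent.P116.H906

variable {S : Set (Set ℂ)} {ψ : Hl S → ℂ → ℂ} {q : ℝ}

lemma iUnion_hl (S : Set (Set ℂ)) : (⋃ k : Hl S, k.1) = ⋃₀ S := sUnion_eq_iUnion.symm

lemma Collar.col (hS : Adm S) (hC : Collar S ψ q) : Col (fun k : Hl S => k.1) ψ q where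
  q1 := hC.q1
  cpt := fun k => hS.cpt k.1 k.2
  diff := hC.diff
  maps := fun k u hu => by
    rw [iUnion_hl]
    exact hC.maps k u hu
  inj := hC.inj
  disj := hC.disj
  near := hC.near
  conv := fun k s hs => by
    obtain ⟨N, h1, h2, h3⟩ := hC.conv k s hs
    refine ⟨N, h1, h2, fun z hz hzK => h3 z ⟨hz, ?_⟩⟩
    rwa [iUnion_hl] at hzK

/-- holes and a disk -/
def ok (S : Set (Set ℂ)) (a : ℂ) (δ : ℝ) : Option (Hl S) → Set ℂ
  | none => closedBall a δ
  | some k => k.1

/-- collars of holes and a disk -/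
def oψ (ψ : Hl S → ℂ → ℂ) (a : ℂ) (δ : ℝ) : Option (Hl S) → ℂ → ℂ
  | none => fun u => a + δ * u
  | some k => ψ k

lemma iUnion_ok (S : Set (Set ℂ)) (a : ℂ) (δ : ℝ) : (⋃ k, ok S a δ k) = closedBall a δ ∪ ⋃₀ S := by
  ext z
  simp only [mem_iUnion, mem_union]
  constructor
  · rintro ⟨k, hk⟩
    cases k with
    | none => exact Or.inl hk
    | some k => exact Or.inr ⟨k.1, k.2, hk⟩
  · rintro (h | ⟨P, hP, hz⟩)
    · exact ⟨none, h⟩
    · exact ⟨some ⟨P, hP⟩, hz⟩

lemma Collar.col_point (hS : Adm S) (hC : Collar S ψ q) {a : ℂ} (ha : a ∈ (⋃₀ S)ᶜ) :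
    ∃ q' δ, 1 < q' ∧ q' ≤ q ∧ 0 < δ ∧ closedBall a (δ * q') ⊆ (⋃₀ S)ᶜ ∧
      Col (ok S a δ) (oψ ψ a δ) q' := by
  have hfin : Finite (Hl S) := hS.fin
  have := Fintype.ofFinite (Hl S)
  have hsep : ∀ k : Hl S, ∃ A B : Set ℂ, IsOpen A ∧ IsOpen B ∧ k.1 ⊆ A ∧ a ∈ B ∧ Disjoint A B := by
    intro k
    obtain ⟨A, B, hA, hB, hkA, haB, hAB⟩ := SeparatedNhds.of_isCompact_isCompact
      (hS.cpt k.1 k.2) (isCompact_singleton (x := a)) (disjoint_singleton_right.2 fun hmem =>
        ha ⟨k.1, k.2, hmem⟩)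
    exact ⟨A, B, hA, hB, hkA, haB rfl, hAB⟩
  choose A B hA hB hkA haB hAB using hsep
  have hs : ∀ k, ∃ s > 1, ∀ u ∈ ao q, ‖u‖ < s → ψ k u ∈ A k := fun k =>
    hC.near k (A k) (hA k) (hkA k)
  choose s hs1 hsA using hs
  obtain ⟨q', hq'1, hq'q, hq'2, hq's⟩ : ∃ q', 1 < q' ∧ q' ≤ q ∧ q' ≤ 2 ∧ ∀ k, q' ≤ s k := by
    by_cases hne : Nonempty (Hl S)
    · refine ⟨min (min q 2) (Finset.univ.inf' Finset.univ_nonempty s), ?_, ?_, ?_, ?_⟩
      · refine lt_min (lt_min hC.q1 one_lt_two) ?_
        rw [Finset.lt_inf'_iff]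
        exact fun k _ => hs1 k
      · exact (min_le_left _ _).trans (min_le_left _ _)
      · exact (min_le_left _ _).trans (min_le_right _ _)
      · exact fun k => (min_le_right _ _).trans (Finset.inf'_le _ (Finset.mem_univ k))
    · exact ⟨min q 2, lt_min hC.q1 one_lt_two, min_le_left _ _, min_le_right _ _,
        fun k => absurd ⟨k⟩ hne⟩
  have hVo : IsOpen ((⋂ k, B k) ∩ (⋃₀ S)ᶜ) := (isOpen_iInter_of_finite hB).inter hS.isOpen_compl
  obtain ⟨ε, hε, hεV⟩ := Metric.isOpen_iff.1 hVo a ⟨mem_iInter.2 haB, ha⟩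
  set δ : ℝ := ε / 4 with hδ
  have hδ0 : 0 < δ := by positivity
  have hδC : (δ : ℂ) ≠ 0 := by exact_mod_cast hδ0.ne'
  have hq'0 : 0 < q' := one_pos.trans hq'1
  have hball : ∀ z, ‖z - a‖ ≤ δ * q' → z ∈ (⋂ k, B k) ∩ (⋃₀ S)ᶜ := by
    intro z hz
    refine hεV ?_
    rw [mem_ball, dist_eq_norm]
    have : δ * q' ≤ δ * 2 := by gcongr
    rw [hδ] at this hz
    linarith
  have hcB : closedBall a δ ⊆ (⋂ k, B k) ∩ (⋃₀ S)ᶜ := by
    intro z hz
    refine hball z ?_
    rw [mem_closedBall, dist_eq_norm] at hz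
    nlinarith
  have hau : ∀ u ∈ ao q', ‖(a + δ * u) - a‖ = δ * ‖u‖ := by
    intro u _
    rw [add_sub_cancel_left, norm_mul, Complex.norm_real, Real.norm_of_nonneg hδ0.le]
  have hauB : ∀ u ∈ ao q', a + δ * u ∈ (⋂ k, B k) ∩ (⋃₀ S)ᶜ := by
    intro u hu
    refine hball _ ?_
    rw [hau u hu]
    exact mul_le_mul_of_nonneg_left hu.2.le hδ0.le
  have hψA : ∀ k, ∀ u ∈ ao q', ψ k u ∈ A k := fun k u hu =>
    hsA k u (ao_mono hq'q hu) (hu.2.trans_le (hq's k))
  refine ⟨q', δ, hq'1, hq'q, hδ0, fun z hz => (hball z ?_).2, ?_⟩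
  · rwa [mem_closedBall, dist_eq_norm] at hz
  refine ⟨hq'1, ?_, ?_, ?_, ?_, ?_, ?_, ?_⟩
  · intro k
    cases k with
    | none => exact isCompact_closedBall a δ
    | some k => exact hS.cpt k.1 k.2
  · intro k
    cases k with
    | none => exact ((differentiableOn_id.const_mul (δ:ℂ)).const_add a)
    | some k => exact (hC.diff k).mono (ao_mono hq'q)
  · intro k u hu
    rw [iUnion_ok]
    cases k with
    | none =>
      rintro (h | h)
      · change a + δ * u ∈ closedBall a δ at h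
        rw [mem_closedBall, dist_eq_norm, hau u hu] at h
        nlinarith [hu.1]
      · exact (hauB u hu).2 h
    | some k =>
      rintro (h | h)
      · exact disjoint_left.1 (hAB k) (hψA k u hu) (mem_iInter.1 (hcB h).1 k)
      · exact hC.maps k u (ao_mono hq'q hu) h
  · intro k
    cases k with
    | none =>
      intro u _ v _ huv
      change a + δ * u = a + δ * v at huv
      exact mul_left_cancel₀ hδC (add_left_cancel huv)
    | some k => exact (hC.inj k).mono (ao_mono hq'q)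
  · intro k l hkl
    cases k with
    | none =>
      cases l with
      | none => exact absurd rfl hkl
      | some l =>
        rw [disjoint_left]
        rintro _ ⟨u, hu, rfl⟩ ⟨v, hv, huv⟩
        change ψ l v = a + δ * u at huv
        refine disjoint_left.1 (hAB l) (hψA l v hv) ?_
        rw [huv]
        exact mem_iInter.1 (hauB u hu).1 l
    | some k =>
      cases l with
      | none =>
        rw [disjoint_left]
        rintro _ ⟨u, hu, rfl⟩ ⟨v, hv, huv⟩
        change a + δ * v = ψ k u at huv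
        refine disjoint_left.1 (hAB k) (hψA k u hu) ?_
        rw [← huv]
        exact mem_iInter.1 (hauB v hv).1 k
      | some l =>
        refine (hC.disj k l fun h => hkl (by rw [h])).mono ?_ ?_
        · exact image_mono (ao_mono hq'q)
        · exact image_mono (ao_mono hq'q)
  · intro k N hN hkN
    cases k with
    | none =>
      obtain ⟨η, hη, hηN⟩ := (isCompact_closedBall a δ).exists_thickening_subset_open hN hkN
      rw [thickening_closedBall hη hδ0.le] at hηN
      refine ⟨1 + η / δ, by have := div_pos hη hδ0; linarith, fun u hu hus => hηN ?_⟩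
      change a + δ * u ∈ ball a (η + δ)
      rw [mem_ball, dist_eq_norm, hau u hu]
      calc δ * ‖u‖ < δ * (1 + η / δ) := by gcongr
        _ = η + δ := by field_simp; ring
    | some k =>
      obtain ⟨t, ht, htN⟩ := hC.near k N hN hkN
      exact ⟨t, ht, fun u hu hut => htN u (ao_mono hq'q hu) hut⟩
  · intro k t ht
    have htm : 1 < min t q' := lt_min ht hq'1
    cases k with
    | none =>
      refine ⟨ball a (δ * min t q'), isOpen_ball, ?_, ?_⟩
      · exact closedBall_subset_ball (by nlinarith)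
      · intro z hz hzK
        rw [iUnion_ok] at hzK
        have h1 : δ < ‖z - a‖ := by
          by_contra hcon
          exact hzK (Or.inl (by rw [mem_closedBall, dist_eq_norm]; exact not_lt.1 hcon))
        rw [mem_ball, dist_eq_norm] at hz
        have h2 : ‖(z - a) / δ‖ = ‖z - a‖ / δ := by
          rw [norm_div, Complex.norm_real, Real.norm_of_nonneg hδ0.le]
        have h3 : ‖(z - a) / δ‖ < min t q' := by
          rw [h2, div_lt_iff₀ hδ0]
          linarith
        refine ⟨(z - a) / δ, ⟨?_, h3.trans_le (min_le_right _ _)⟩, h3.trans_le (min_le_left _ _), ?_⟩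
        · rw [h2, one_lt_div hδ0]
          exact h1
        · change a + δ * ((z - a) / δ) = z
          field_simp
          ring
    | some k =>
      obtain ⟨N, hN, hkN, hNc⟩ := hC.conv k (min t q') htm
      refine ⟨N, hN, hkN, fun z hz hzK => ?_⟩
      rw [iUnion_ok] at hzK
      obtain ⟨u, hu, hut, huz⟩ := hNc z ⟨hz, fun h => hzK (Or.inr h)⟩
      exact ⟨u, ⟨hu.1, hut.trans_le (min_le_right _ _)⟩, hut.trans_le (min_le_left _ _), huz⟩

end Vale.Agent.P116.H906
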