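import Mathlib
import Vale.Agent.P116.H906.Rig2
import Vale.Agent.P116.H906.FullSys

/-!
The boundary functional: vertex and edge relations.
-/

open Filter Topology Set Metric Bornology MeasureTheory
open scoped Real ComplexConjugate

namespace Vale.Agent.P116.H906

variable {S : Set (Set ℂ)} {ψ : Hl S → ℂ → ℂ} {q : ℝ} {𝒲 : Set (List (Hl S))}
  {f f' : List (Hl S) → ℂ → ℂ}

/-- the boundary functions -/
noncomputable def Fk (ψ : Hl S → ℂ → ℂ) (f : List (Hl S) → ℂ → ℂ) (w : List (Hl S)) (k : Hl S)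
    (u : ℂ) : ℂ := cj w.length (f w (ψ k u))

/-- the boundary functional -/
noncomputable def Bf (ψ : Hl S → ℂ → ℂ) (f f' : List (Hl S) → ℂ → ℂ) (z₀ : ℂ) (r : ℝ)
    (w : List (Hl S)) (k : Hl S) : ℂ :=
  ∮ u in C(0, r), (Fk ψ f' w k u - Fk ψ f w k u) * deriv (Fk ψ f w k) u /
    (Fk ψ f w k u - cj w.length z₀)

lemma Sys.Fk_diff (h : Sys S ψ q 𝒲 f) (hC : Collar S ψ q) {w : List (Hl S)} (hw : w ∈ 𝒲)
    (k : Hl S) : DifferentiableOn ℂ (Fk ψ f w k) (ao q) :=
  (h.ana w hw).comp (hC.diff k) fun u hu => hC.maps k u hu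

lemma Sys.Fk_inj (h : Sys S ψ q 𝒲 f) (hC : Collar S ψ q) {w : List (Hl S)} (hw : w ∈ 𝒲)
    (k : Hl S) : InjOn (Fk ψ f w k) (ao q) := fun u hu v hv huv =>
  hC.inj k hu hv (h.inj w hw (hC.maps k u hu) (hC.maps k v hv) (cj_inj huv))

lemma Sys.Fk_deriv (h : Sys S ψ q 𝒲 f) (hS : Adm S) (hC : Collar S ψ q) {w : List (Hl S)}
    (hw : w ∈ 𝒲) (k : Hl S) {u : ℂ} (hu : u ∈ ao q) :
    deriv (Fk ψ f w k) u = deriv (fun z => cj w.length (f w z)) (ψ k u) * deriv (ψ k) u := by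
  have h1 : DifferentiableAt ℂ (fun z => cj w.length (f w z)) (ψ k u) :=
    (h.ana w hw).differentiableAt (hS.isOpen_compl.mem_nhds (hC.maps k u hu))
  have h2 : DifferentiableAt ℂ (ψ k) u := (hC.diff k).differentiableAt ((isOpen_ao q).mem_nhds hu)
  exact deriv_comp (h₂ := fun z => cj w.length (f w z)) (h := ψ k) u h1 h2

/-- distance of the other pieces from a point of the base piece -/
lemma Sys.dist_le (h : Sys S ψ q 𝒲 f) (h0 : [] ∈ 𝒲) {z₀ : ℂ} {δ : ℝ}
    (hδ : ball z₀ δ ⊆ f [] '' (⋃₀ S)ᶜ) {w : List (Hl S)} (hw : w ∈ 𝒲) (hw0 : w ≠ []) {z : ℂ}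
    (hz : z ∈ (⋃₀ S)ᶜ) : δ ≤ ‖cj w.length (f w z) - cj w.length z₀‖ := by
  rw [← cj_sub, cj_norm]
  by_contra hcon
  push Not at hcon
  refine disjoint_left.1 (h.disj w hw [] h0 hw0) (mem_image_of_mem _ hz) (hδ ?_)
  rwa [mem_ball, dist_eq_norm]

/-- **vertex relation**, away from the base piece -/
theorem Sys.vertex [Fintype (Hl S)] (h : Sys S ψ q 𝒲 f) (h' : Sys S ψ q 𝒲 f') (hS : Adm S)
    (hC : Collar S ψ q) (h0 : [] ∈ 𝒲) {z₀ : ℂ} {δ : ℝ} (hδ0 : 0 < δ)
    (hδ : ball z₀ δ ⊆ f [] '' (⋃₀ S)ᶜ) {w : List (Hl S)} (hw : w ∈ 𝒲) (hw0 : w ≠ []) {r : ℝ}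
    (hr1 : 1 < r) (hrq : r < q) : ∑ k, Bf ψ f f' z₀ r w k = 0 := by
  obtain ⟨R, hR, hSR⟩ := hS.bdd
  have hU : (closedBall (0:ℂ) R)ᶜ ⊆ (⋃₀ S)ᶜ := compl_subset_compl.2 hSR
  have hΩo := hS.isOpen_compl
  set n := w.length with hn
  set F : ℂ → ℂ := fun z => cj n (f w z) with hF
  set F' : ℂ → ℂ := fun z => cj n (f' w z) with hF'
  have hFd : DifferentiableOn ℂ F (⋃₀ S)ᶜ := h.ana w hw
  have hF'd : DifferentiableOn ℂ F' (⋃₀ S)ᶜ := h'.ana w hw
  have hFb : ∀ z ∈ (⋃₀ S)ᶜ, ‖F z‖ ≤ 5 * R := fun z hz => by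
    simp only [hF, cj_norm]
    exact h.bound' hR hSR h0 hw hw0 hz
  have hF'b : ∀ z ∈ (⋃₀ S)ᶜ, ‖F' z‖ ≤ 5 * R := fun z hz => by
    simp only [hF', cj_norm]
    exact h'.bound' hR hSR h0 hw hw0 hz
  have hdist : ∀ z ∈ (⋃₀ S)ᶜ, δ ≤ ‖F z - cj n z₀‖ := fun z hz => h.dist_le h0 hδ hw hw0 hz
  have hne : ∀ z ∈ (⋃₀ S)ᶜ, F z - cj n z₀ ≠ 0 := fun z hz =>
    norm_pos_iff.1 (hδ0.trans_le (hdist z hz))
  obtain ⟨a, ha⟩ := exists_lim_infty (hFd.mono hU) fun z hz => hFb z (hU hz)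
  obtain ⟨C, R₀, hR₀, hCd⟩ := deriv_decay hR hU hFd ha
  set ω : ℂ → ℂ := fun z => (F' z - F z) * deriv F z / (F z - cj n z₀) with hω
  have hωd : DifferentiableOn ℂ ω (⋃ k : Hl S, k.1)ᶜ := by
    rw [iUnion_hl]
    refine ((hF'd.sub hFd).mul ?_).div (hFd.sub_const _) hne
    exact (hFd.analyticOnNhd hΩo).deriv.differentiableOn
  have hωinf : ∀ z, max R R₀ < ‖z‖ → ‖ω z‖ ≤ (10 * R * C / δ) / ‖z‖ ^ 2 := by
    intro z hz
    have h1 : z ∈ (⋃₀ S)ᶜ := hU (by
      rw [mem_compl_iff, mem_closedBall, dist_zero_right, not_le]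
      exact (le_max_left _ _).trans_lt hz)
    have h2 := hCd z ((le_max_right _ _).trans_lt hz)
    have h3 := hdist z h1
    have h4 : ‖F' z - F z‖ ≤ 10 * R := by
      refine (norm_sub_le _ _).trans ?_
      linarith [hFb z h1, hF'b z h1]
    simp only [hω]
    rw [norm_div, norm_mul]
    have h5 : 0 < ‖z‖ := hR.trans ((le_max_left _ _).trans_lt hz)
    calc ‖F' z - F z‖ * ‖deriv F z‖ / ‖F z - cj n z₀‖
        ≤ (10 * R) * (C / ‖z‖ ^ 2) / δ := by
          have h6 : 0 ≤ C / ‖z‖ ^ 2 := (norm_nonneg _).trans h2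
          gcongr
      _ = (10 * R * C / δ) / ‖z‖ ^ 2 := by field_simp
  have key := (hC.col hS).residue_sum hωd hωinf hr1 hrq
  rw [← key]
  refine Finset.sum_congr rfl fun k _ => ?_
  refine circleIntegral.integral_congr (by linarith) fun u hu => ?_
  have hua : u ∈ ao q := by
    rw [mem_sphere, dist_zero_right] at hu
    exact ⟨by linarith, by linarith⟩
  simp only [hω, h.Fk_deriv hS hC hw k hua, ← hn]
  simp only [Fk, ← hn, hF, hF']
  ring

/-- **vertex relation** at the base piece -/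
theorem Sys.vertex_nil [Fintype (Hl S)] (h : Sys S ψ q 𝒲 f) (h' : Sys S ψ q 𝒲 f') (hS : Adm S)
    (hC : Collar S ψ q) (h0 : [] ∈ 𝒲) {a : ℂ} {q' δ : ℝ}
    (hδ : 0 < δ) (hball : closedBall a (δ * q') ⊆ (⋃₀ S)ᶜ) (hq' : q' ≤ q)
    (hcol : Col (ok S a δ) (oψ ψ a δ) q') {r : ℝ} (hr1 : 1 < r) (hrq : r < q') :
    ∑ k, Bf ψ f f' (f [] a) r [] k = -(2 * π * Complex.I * (f' [] a - f [] a)) := by
  obtain ⟨R, hR, hSR⟩ := hS.bdd
  have hU : (closedBall (0:ℂ) R)ᶜ ⊆ (⋃₀ S)ᶜ := compl_subset_compl.2 hSR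
  have hΩo := hS.isOpen_compl
  have hq'0 : 0 < q' := one_pos.trans hcol.q1
  have haΩ : a ∈ (⋃₀ S)ᶜ := hball (mem_closedBall_self (by positivity))
  set F : ℂ → ℂ := f [] with hF
  set F' : ℂ → ℂ := f' [] with hF'
  have hFd : DifferentiableOn ℂ F (⋃₀ S)ᶜ := h.norm.diff
  have hF'd : DifferentiableOn ℂ F' (⋃₀ S)ᶜ := h'.norm.diff
  have hne : ∀ z ∈ (⋃₀ S)ᶜ, z ≠ a → F z - F a ≠ 0 := fun z hz hza hh =>
    hza (h.norm.inj hz haΩ (sub_eq_zero.1 hh))
  have hdF : DifferentiableOn ℂ (deriv F) (⋃₀ S)ᶜ :=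
    (hFd.analyticOnNhd hΩo).deriv.differentiableOn
  set ω : ℂ → ℂ := fun z => (F' z - F z) * deriv F z / (F z - F a) with hω
  have hsubΩ : (⋃ k, ok S a δ k)ᶜ ⊆ (⋃₀ S)ᶜ \ {a} := by
    rw [iUnion_ok]
    intro z hz
    refine ⟨fun hmem => hz (Or.inr hmem), fun hza => hz (Or.inl ?_)⟩
    rw [mem_singleton_iff.1 hza]
    exact mem_closedBall_self hδ.le
  have hωd : DifferentiableOn ℂ ω (⋃ k, ok S a δ k)ᶜ := by
    have h1 : DifferentiableOn ℂ ω ((⋃₀ S)ᶜ \ {a}) := by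
      refine (((hF'd.sub hFd).mul hdF).mono sdiff_subset).div
        ((hFd.sub_const _).mono sdiff_subset) fun z hz => hne z hz.1 hz.2
    exact h1.mono hsubΩ
  -- decay
  obtain ⟨C, R₀, hR₀, hCd⟩ := deriv_decay hR hU (hFd.sub differentiableOn_id) h.norm.norm
  set T : ℝ := max (max (2 * R) R₀) (max 1 (48 * R + 4 * ‖F a‖)) with hT
  have hT1 : 2 * R ≤ T := (le_max_left _ _).trans (le_max_left _ _)
  have hT2 : R₀ ≤ T := (le_max_right _ _).trans (le_max_left _ _)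
  have hT3 : 1 ≤ T := (le_max_left _ _).trans (le_max_right _ _)
  have hT4 : 48 * R + 4 * ‖F a‖ ≤ T := (le_max_right _ _).trans (le_max_right _ _)
  have hωinf : ∀ z, T < ‖z‖ → ‖ω z‖ ≤ (48 * R ^ 2 * (1 + |C|) * 4) / ‖z‖ ^ 2 := by
    intro z hz
    have hz0 : 0 < ‖z‖ := by linarith
    have hzR : 2 * R < ‖z‖ := by linarith
    have h1 : z ∈ (⋃₀ S)ᶜ := hU (by
      rw [mem_compl_iff, mem_closedBall, dist_zero_right, not_le]
      linarith)
    have h2 := h.norm.tail hR hU hzR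
    have h2' := h'.norm.tail hR hU hzR
    have h3 : ‖F' z - F z‖ ≤ 48 * R ^ 2 / ‖z‖ := by
      calc ‖F' z - F z‖ = ‖(F' z - z) - (F z - z)‖ := by rw [sub_sub_sub_cancel_right]
        _ ≤ ‖F' z - z‖ + ‖F z - z‖ := norm_sub_le _ _
        _ ≤ 24 * R ^ 2 / ‖z‖ + 24 * R ^ 2 / ‖z‖ := add_le_add h2' h2
        _ = 48 * R ^ 2 / ‖z‖ := by ring
    have hFz : DifferentiableAt ℂ F z := hFd.differentiableAt (hΩo.mem_nhds h1)
    have h4 : deriv (F - id) z = deriv F z - 1 := by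
      rw [deriv_sub hFz differentiableAt_id, deriv_id]
    have h5 : ‖deriv F z‖ ≤ 1 + |C| := by
      have h6 : ‖deriv F z - 1‖ ≤ C / ‖z‖ ^ 2 := by
        rw [← h4]
        exact hCd z (by linarith)
      have h7 : C / ‖z‖ ^ 2 ≤ |C| := by
        calc C / ‖z‖ ^ 2 ≤ |C| / ‖z‖ ^ 2 := by gcongr; exact le_abs_self C
          _ ≤ |C| := div_le_self (abs_nonneg C) (by nlinarith)
      calc ‖deriv F z‖ = ‖1 + (deriv F z - 1)‖ := by rw [add_sub_cancel]
        _ ≤ ‖(1:ℂ)‖ + ‖deriv F z - 1‖ := norm_add_le _ _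
        _ ≤ 1 + |C| := by rw [norm_one]; linarith
    have h8 : ‖z‖ / 4 ≤ ‖F z - F a‖ := by
      have h9 : 24 * R ^ 2 / ‖z‖ ≤ ‖z‖ / 4 := by
        rw [div_le_div_iff₀ hz0 (by norm_num)]
        nlinarith [norm_nonneg (F a)]
      have h10 := norm_sub_norm_le z (z - F z)
      rw [sub_sub_cancel] at h10
      have h11 : ‖z - F z‖ = ‖F z - z‖ := norm_sub_rev _ _
      have h12 := norm_sub_norm_le (F z) (F a)
      linarith
    simp only [hω]
    rw [norm_div, norm_mul]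
    calc ‖F' z - F z‖ * ‖deriv F z‖ / ‖F z - F a‖
        ≤ (48 * R ^ 2 / ‖z‖) * (1 + |C|) / (‖z‖ / 4) := by gcongr
      _ = (48 * R ^ 2 * (1 + |C|) * 4) / ‖z‖ ^ 2 := by field_simp
  have key := hcol.residue_sum hωd hωinf hr1 hrq
  rw [Fintype.sum_option] at key
  have e1 : ∑ k : Hl S, ∮ u in C(0, r), ω (oψ ψ a δ (some k) u) * deriv (oψ ψ a δ (some k)) u =
      ∑ k, Bf ψ f f' (f [] a) r [] k := by
    refine Finset.sum_congr rfl fun k _ => ?_
    refine circleIntegral.integral_congr (by linarith) fun u hu => ?_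
    have hua : u ∈ ao q := by
      rw [mem_sphere, dist_zero_right] at hu
      exact ⟨by linarith, by linarith⟩
    change ω (ψ k u) * deriv (ψ k) u = _
    simp only [hω, h.Fk_deriv hS hC h0 k hua]
    simp only [Fk, List.length_nil, cj_zero', hF, hF']
    ring
  have e2 : ∮ u in C(0, r), ω (oψ ψ a δ none u) * deriv (oψ ψ a δ none) u =
      2 * π * Complex.I * (F' a - F a) := by
    have hδC : (δ : ℂ) ≠ 0 := by exact_mod_cast hδ.ne'
    set N : ℂ → ℂ := fun z => (F' z - F z) * deriv F z / dslope F a z with hN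
    have hds : ∀ z ∈ (⋃₀ S)ᶜ, dslope F a z ≠ 0 := by
      intro z hz
      by_cases hza : z = a
      · rw [hza, dslope_same]
        exact Vale.Agent.P142.injOn_deriv_ne_zero hΩo hFd h.norm.inj haΩ
      · rw [dslope_of_ne _ hza, slope_def_field]
        exact div_ne_zero (hne z hz hza) (sub_ne_zero.2 hza)
    have hNd : DifferentiableOn ℂ N (⋃₀ S)ᶜ := by
      refine ((hF'd.sub hFd).mul hdF).div ?_ hds
      exact (Complex.differentiableOn_dslope (hΩo.mem_nhds haΩ)).2 hFd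
    have haff : ∀ u : ℂ, ‖u‖ ≤ r → a + δ * u ∈ (⋃₀ S)ᶜ := by
      intro u hu
      refine hball ?_
      rw [mem_closedBall, dist_eq_norm, add_sub_cancel_left, norm_mul, Complex.norm_real,
        Real.norm_of_nonneg hδ.le]
      nlinarith
    have hNa : N a = F' a - F a := by
      simp only [hN, dslope_same]
      have := Vale.Agent.P142.injOn_deriv_ne_zero hΩo hFd h.norm.inj haΩ
      field_simp
    have hcau := Complex.circleIntegral_sub_inv_smul_of_differentiable_on_off_countable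
      (R := r) (c := 0) (w := 0) (f := fun u => N (a + δ * u)) countable_empty
      (mem_ball_self (by linarith)) (by
        intro u hu
        rw [mem_closedBall, dist_zero_right] at hu
        have h1 : DifferentiableAt ℂ N (a + δ * u) :=
          hNd.differentiableAt (hΩo.mem_nhds (haff u hu))
        have h2 : DifferentiableAt ℂ (fun u : ℂ => a + δ * u) u := by fun_prop
        exact (h1.comp u h2).continuousAt.continuousWithinAt) (by
        rintro u ⟨hu, -⟩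
        rw [mem_ball, dist_zero_right] at hu
        have h1 : DifferentiableAt ℂ N (a + δ * u) :=
          hNd.differentiableAt (hΩo.mem_nhds (haff u hu.le))
        have h2 : DifferentiableAt ℂ (fun u : ℂ => a + δ * u) u := by fun_prop
        exact h1.comp u h2)
    simp only [mul_zero, add_zero, hNa, smul_eq_mul, sub_zero] at hcau
    rw [← hcau]
    refine circleIntegral.integral_congr (by linarith) fun u hu => ?_
    rw [mem_sphere, dist_zero_right] at hu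
    have hu0 : u ≠ 0 := by
      rw [← norm_pos_iff, hu]
      linarith
    have h1 : deriv (oψ ψ a δ none) u = δ := by
      change deriv (fun u : ℂ => a + δ * u) u = δ
      simp
    rw [h1]
    change ω (a + δ * u) * δ = u⁻¹ * N (a + δ * u)
    have hza : a + δ * u ≠ a := by
      intro hh
      have : (δ : ℂ) * u = 0 := by linear_combination hh
      exact (mul_ne_zero hδC hu0) this
    have h2 := hne _ (haff u hu.le) hza
    simp only [hω, hN]
    rw [dslope_of_ne _ hza, slope_def_field, add_sub_cancel_left]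
    field_simp
  rw [e1, e2] at key
  linear_combination key

end Vale.Agent.P116.H906
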