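import Mathlib
import Vale.Agent.P116.H906.Rig3

/-!
The boundary functional: edge relation and bounds.
-/

open Filter Topology Set Metric Bornology MeasureTheory
open scoped Real ComplexConjugate

namespace Vale.Agent.P116.H906

variable {S : Set (Set ℂ)} {ψ : Hl S → ℂ → ℂ} {q : ℝ} {𝒲 : Set (List (Hl S))}
  {f f' : List (Hl S) → ℂ → ℂ}

/-- conjugating a circle integral by reflection -/
lemma circle_reflect {r : ℝ} (hr : 0 < r) (η : ℂ → ℂ) :
    ∮ v in C(0, r), conj (η (conj v)⁻¹) * (-(v ^ 2)⁻¹) = conj (∮ u in C(0, r⁻¹), η u) := by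
  rw [circleIntegral, circleIntegral, ← intervalIntegral.intervalIntegral_conj]
  congr 1
  funext θ
  have hE : Complex.exp (θ * Complex.I) ≠ 0 := Complex.exp_ne_zero _
  have hrC : (r : ℂ) ≠ 0 := by exact_mod_cast hr.ne'
  have hEc : conj (Complex.exp (θ * Complex.I)) = (Complex.exp (θ * Complex.I))⁻¹ := by
    rw [← Complex.exp_conj, map_mul, Complex.conj_I, Complex.conj_ofReal, mul_neg, Complex.exp_neg]
  have h1 : circleMap 0 r θ = r * Complex.exp (θ * Complex.I) := by simp [circleMap]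
  have h2 : circleMap 0 r⁻¹ θ = (r:ℂ)⁻¹ * Complex.exp (θ * Complex.I) := by simp [circleMap]
  have h3 : (conj (circleMap 0 r θ))⁻¹ = circleMap 0 r⁻¹ θ := by
    rw [h1, h2, map_mul, Complex.conj_ofReal, hEc, mul_inv, inv_inv]
  simp only [deriv_circleMap, smul_eq_mul]
  rw [h3]
  rw [map_mul, map_mul, Complex.conj_I]
  rw [h2, map_mul, map_inv₀, Complex.conj_ofReal, hEc, ← h2, h1]
  field_simp

/-- **edge relation** -/
theorem Sys.edge (h : Sys S ψ q 𝒲 f) (h' : Sys S ψ q 𝒲 f') (hS : Adm S)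
    (hC : Collar S ψ q) (h0 : [] ∈ 𝒲) {z₀ : ℂ} {q' : ℝ} (hq'1 : 1 < q') (hq' : q' ≤ q)
    (hz₀ : z₀ ∈ f [] '' (⋃₀ S)ᶜ)
    (hz₀' : ∀ k, ∀ u ∈ ao q', f [] (ψ k u) ≠ z₀) {w : List (Hl S)} {k : Hl S}
    (hw : w ∈ 𝒲) (hwk : w ++ [k] ∈ 𝒲) {r : ℝ} (hr1 : 1 < r) (hrq : r < q') :
    Bf ψ f f' z₀ r (w ++ [k]) k = conj (Bf ψ f f' z₀ r w k) := by
  have hq1 := hC.q1
  obtain ⟨Φ, hΦ⟩ := h.glue w k hw hwk
  obtain ⟨Φ', hΦ'⟩ := h'.glue w k hw hwk
  set n := w.length with hn
  have hq'0 : 0 < q' := one_pos.trans hq'1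
  have hana : an q' ⊆ an q := fun u hu =>
    ⟨lt_of_le_of_lt (inv_anti₀ hq'0 hq') hu.1, hu.2.trans_le hq'⟩
  have hne : ∀ u ∈ an q', Φ u - cj n z₀ ≠ 0 := by
    intro u hu hh
    have hh' : Φ u = cj n z₀ := sub_eq_zero.1 hh
    rcases an_cases hu with h1 | h1 | h1
    · have h1q : u ∈ ao q := ao_mono hq' h1
      rw [hΦ.out u h1q] at hh'
      have h2 := cj_inj hh'
      by_cases hw0 : w = []
      · subst hw0
        exact hz₀' k u h1 h2
      · refine disjoint_left.1 (h.disj w hw [] h0 hw0) (mem_image_of_mem _ (hC.maps k u h1q)) ?_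
        rw [h2]
        exact hz₀
    · refine h.cp hS hC hw hwk hΦ h1 h0 ?_
      rw [hh', cj_cj]
      exact hz₀
    · have h1q : u ∈ ai q := ⟨(hana hu).1, h1.2⟩
      rw [hΦ.inn u h1q] at hh'
      have h2 := cj_inj hh'
      refine disjoint_left.1 (h.disj _ hwk [] h0 (by simp))
        (mem_image_of_mem _ (hC.maps k _ (conj_inv_mem_ao hq1 h1q))) ?_
      rw [h2]
      exact hz₀
  set η : ℂ → ℂ := fun u => (Φ' u - Φ u) * deriv Φ u / (Φ u - cj n z₀) with hη
  have hdΦ : DifferentiableOn ℂ (deriv Φ) (an q) :=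
    (hΦ.diff.analyticOnNhd (isOpen_an q)).deriv.differentiableOn
  have hηd : DifferentiableOn ℂ η (an q') :=
    (((hΦ'.diff.sub hΦ.diff).mul hdΦ).mono hana).div ((hΦ.diff.sub_const _).mono hana) hne
  have hr0 : 0 < r := one_pos.trans hr1
  have hrinv : r⁻¹ < 1 := inv_lt_one_of_one_lt₀ hr1
  have hrinv' : q'⁻¹ < r⁻¹ := (inv_lt_inv₀ hq'0 hr0).2 hrq
  have e1 : Bf ψ f f' z₀ r w k = ∮ u in C(0, r), η u := by
    refine circleIntegral.integral_congr hr0.le fun u hu => ?_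
    have hua : u ∈ ao q := by
      rw [mem_sphere, dist_zero_right] at hu
      exact ⟨by linarith, by linarith⟩
    have h1 : Fk ψ f w k =ᶠ[𝓝 u] Φ := by
      filter_upwards [(isOpen_ao q).mem_nhds hua] with x hx
      exact (hΦ.out x hx).symm
    have h2 : Fk ψ f' w k u = Φ' u := (hΦ'.out u hua).symm
    simp only [hη]
    rw [h1.deriv_eq, h1.eq_of_nhds, h2]
  have e2 : ∮ u in C(0, r), η u = ∮ u in C(0, r⁻¹), η u := by
    refine Complex.circleIntegral_eq_of_differentiable_on_annulus_off_countable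
      (inv_pos.2 hr0) (by linarith) countable_empty ?_ ?_
    · refine hηd.continuousOn.mono ?_
      rintro u ⟨h1, h2⟩
      rw [mem_closedBall, dist_zero_right] at h1
      rw [mem_ball, dist_zero_right, not_lt] at h2
      exact ⟨by linarith, by linarith⟩
    · rintro u ⟨⟨h1, h2⟩, -⟩
      rw [mem_ball, dist_zero_right] at h1
      rw [mem_closedBall, dist_zero_right, not_le] at h2
      exact hηd.differentiableAt ((isOpen_an q').mem_nhds ⟨by linarith, by linarith⟩)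
  rw [e1, e2, ← circle_reflect hr0]
  refine circleIntegral.integral_congr hr0.le fun v hv => ?_
  have hva : v ∈ ao q := by
    rw [mem_sphere, dist_zero_right] at hv
    exact ⟨by linarith, by linarith⟩
  have hv0 : v ≠ 0 := by
    rw [mem_sphere, dist_zero_right] at hv
    rw [← norm_pos_iff, hv]
    exact hr0
  have hFkΦ : ∀ {g : List (Hl S) → ℂ → ℂ} {Ψ : ℂ → ℂ}, Glu ψ q g w k Ψ → ∀ x ∈ ao q,
      Fk ψ g (w ++ [k]) k x = conj (Ψ (conj x)⁻¹) := by
    intro g Ψ hΨ x hx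
    rw [hΨ.inn _ (conj_inv_mem_ai hq1 hx), conj_inv_conj_inv, Fk, List.length_append,
      List.length_singleton, cj_succ]
  have h1 : Fk ψ f (w ++ [k]) k =ᶠ[𝓝 v] fun x => conj (Φ (conj x)⁻¹) := by
    filter_upwards [(isOpen_ao q).mem_nhds hva] with x hx using hFkΦ hΦ x hx
  have h2 : HasDerivAt (fun x => conj (Φ (conj x)⁻¹)) (conj (deriv Φ (conj v)⁻¹) * (-(v ^ 2)⁻¹)) v := by
    have hd : DifferentiableAt ℂ Φ (conj v)⁻¹ :=
      hΦ.diff.differentiableAt ((isOpen_an q).mem_nhds (ai_subset_an hq1 (conj_inv_mem_ai hq1 hva)))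
    have h3 : HasDerivAt (fun y => conj (Φ (conj y))) (conj (deriv Φ (conj v)⁻¹))
        (conj (conj v)⁻¹) := hd.hasDerivAt.conj_conj
    have h4 : conj (conj v)⁻¹ = v⁻¹ := by rw [map_inv₀, Complex.conj_conj]
    rw [h4] at h3
    have h5 : HasDerivAt (fun u : ℂ => u⁻¹) (-(v ^ 2)⁻¹) v := hasDerivAt_inv hv0
    have h6 := h3.comp v h5
    refine h6.congr_of_eventuallyEq (Eventually.of_forall fun y => ?_)
    simp only [Function.comp_apply, map_inv₀]
  simp only [hη]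
  rw [h1.deriv_eq, h2.deriv, hFkΦ hΦ v hva, hFkΦ hΦ' v hva, List.length_append,
    List.length_singleton, cj_succ, map_div₀, map_mul, map_sub, map_sub]
  ring

lemma volume_cj_image (n : ℕ) (A : Set ℂ) : volume (cj n '' A) = volume A := by
  by_cases h : Even n
  · have : cj n = id := funext fun z => cj_even h z
    rw [this, image_id]
  · have h1 : cj n '' A = Complex.conjLIE '' A := by
      refine image_congr fun z _ => ?_
      rw [cj_odd h]
      rfl
    rw [h1]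
    have h2 := Complex.conjLIE.measurePreserving
    have h3 : Complex.conjLIE '' A = Complex.conjLIE.symm ⁻¹' A :=
      Complex.conjLIE.toEquiv.image_eq_preimage_symm A
    rw [h3]
    exact Complex.conjLIE.symm.measurePreserving.measure_preimage_emb
      Complex.conjLIE.symm.toHomeomorph.measurableEmbedding A

/-- the area of a bounded piece -/
lemma Sys.area_lt_top (h : Sys S ψ q 𝒲 f) {R : ℝ} (hR : 0 < R)
    (hSR : ⋃₀ S ⊆ closedBall (0:ℂ) R) (h0 : [] ∈ 𝒲) {w : List (Hl S)} (hw : w ∈ 𝒲)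
    (hw0 : w ≠ []) : volume (f w '' (⋃₀ S)ᶜ) < ⊤ := by
  refine lt_of_le_of_lt (measure_mono (t := closedBall (0:ℂ) (5 * R)) ?_)
    (isCompact_closedBall _ _).measure_lt_top
  rintro _ ⟨z, hz, rfl⟩
  rw [mem_closedBall, dist_zero_right]
  exact h.bound' hR hSR h0 hw hw0 hz

/-- derivative bound on a circle -/
lemma Sys.Fk_deriv_le (h : Sys S ψ q 𝒲 f) (hC : Collar S ψ q) {w : List (Hl S)} (hw : w ∈ 𝒲)
    (hA : volume (f w '' (⋃₀ S)ᶜ) < ⊤) (k : Hl S) {r ρ : ℝ} (hρ : 0 < ρ) (h1 : ρ ≤ r - 1)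
    (h2 : ρ ≤ q - r) {u : ℂ} (hu : ‖u‖ = r) :
    ‖deriv (Fk ψ f w k) u‖ ^ 2 ≤ 100 / ρ ^ 2 * volume.real (f w '' (⋃₀ S)ᶜ) := by
  have hball : ball u ρ ⊆ ao q := by
    intro v hv
    rw [mem_ball, dist_eq_norm] at hv
    have h3 := norm_sub_norm_le v u
    have h4 := norm_sub_norm_le u v
    rw [norm_sub_rev u v] at h4
    exact ⟨by linarith, by linarith⟩
  have h3 := deriv_sq_le hρ ((h.Fk_diff hC hw k).mono hball) ((h.Fk_inj hC hw k).mono hball)
    (A := cj w.length '' (f w '' (⋃₀ S)ᶜ)) (by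
      rintro _ ⟨v, hv, rfl⟩
      exact ⟨_, mem_image_of_mem _ (hC.maps k v (hball hv)), rfl⟩) (by
      rw [volume_cj_image]
      exact hA.ne)
  rw [Measure.real, volume_cj_image] at h3
  exact h3

/-- **the bound** -/
theorem Sys.bf_le (h : Sys S ψ q 𝒲 f) (h' : Sys S ψ q 𝒲 f') (hS : Adm S)
    (hC : Collar S ψ q) (h0 : [] ∈ 𝒲) {r : ℝ} (hr1 : 1 < r) (hrq : r < q) {δ : ℝ} (hδ0 : 0 < δ) :
    ∃ C : ℝ, 0 ≤ C ∧ ∀ z₀, ball z₀ δ ⊆ f [] '' (⋃₀ S)ᶜ → ∀ w ∈ 𝒲, w ≠ [] → ∀ k,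
      ‖Bf ψ f f' z₀ r w k‖ ≤ C * (volume.real (f w '' (⋃₀ S)ᶜ) +
        volume.real (f' w '' (⋃₀ S)ᶜ)) := by
  obtain ⟨R, hR, hSR⟩ := hS.bdd
  have hU : (closedBall (0:ℂ) R)ᶜ ⊆ (⋃₀ S)ᶜ := compl_subset_compl.2 hSR
  have hΩc : IsPreconnected (⋃₀ S)ᶜ := hS.full.isPreconnected_compl hS.isCompact.isBounded
  obtain ⟨ρ, hρ, hρ1, hρ2⟩ : ∃ ρ > 0, ρ ≤ r - 1 ∧ ρ ≤ q - r :=
    ⟨min (r - 1) (q - r), lt_min (by linarith) (by linarith), min_le_left _ _, min_le_right _ _⟩
  have hr0 : 0 < r := one_pos.trans hr1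
  refine ⟨2 * π * r * (2 * π * r / δ) * 2 * (100 / ρ ^ 2), by positivity, ?_⟩
  intro z₀ hδ w hw hw0 k
  set A := volume.real (f w '' (⋃₀ S)ᶜ) with hA
  set A' := volume.real (f' w '' (⋃₀ S)ᶜ) with hA'
  have hsph : ∀ u : ℂ, ‖u‖ = r → u ∈ ao q := fun u hu => ⟨by linarith, by linarith⟩
  set m := Real.sqrt (100 / ρ ^ 2 * A) with hm
  set m' := Real.sqrt (100 / ρ ^ 2 * A') with hm'
  have hA0 : 0 ≤ A := measureReal_nonneg
  have hA'0 : 0 ≤ A' := measureReal_nonneg
  have hm2 : m ^ 2 = 100 / ρ ^ 2 * A := Real.sq_sqrt (by positivity)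
  have hm'2 : m' ^ 2 = 100 / ρ ^ 2 * A' := Real.sq_sqrt (by positivity)
  have hm0 : 0 ≤ m := Real.sqrt_nonneg _
  have hm'0 : 0 ≤ m' := Real.sqrt_nonneg _
  have hd1 : ∀ u : ℂ, ‖u‖ = r → ‖deriv (Fk ψ f w k) u‖ ≤ m := by
    intro u hu
    refine Real.le_sqrt_of_sq_le ?_
    exact h.Fk_deriv_le hC hw (h.area_lt_top hR hSR h0 hw hw0) k hρ hρ1 hρ2 hu
  have hd2 : ∀ u : ℂ, ‖u‖ = r → ‖deriv (Fk ψ f' w k) u‖ ≤ m' := by
    intro u hu
    refine Real.le_sqrt_of_sq_le ?_
    exact h'.Fk_deriv_le hC hw (h'.area_lt_top hR hSR h0 hw hw0) k hρ hρ1 hρ2 hu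
  have hFd := h.Fk_diff hC hw k
  have hF'd := h'.Fk_diff hC hw k
  set G : ℂ → ℂ := fun u => Fk ψ f' w k u - Fk ψ f w k u with hG
  have hGd : DifferentiableOn ℂ G (ao q) := hF'd.sub hFd
  have hdist : ∀ u ∈ ao q, δ ≤ ‖Fk ψ f w k u - cj w.length z₀‖ := fun u hu =>
    h.dist_le h0 hδ hw hw0 (hC.maps k u hu)
  have hne : ∀ u ∈ ao q, Fk ψ f w k u - cj w.length z₀ ≠ 0 := fun u hu =>
    norm_pos_iff.1 (hδ0.trans_le (hdist u hu))
  -- the winding number
  have hwind : ∮ u in C(0, r), deriv (Fk ψ f w k) u / (Fk ψ f w k u - cj w.length z₀) = 0 := by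
    refine wind_zero (isOpen_ao q) hFd hr0.le (fun u hu => hsph u (by simpa using hu))
      (D := cj w.length '' (f [] '' (⋃₀ S)ᶜ)) ?_ ?_ ?_ ?_ ?_
    · exact isOpen_cj_image (h.isOpen_image hS h0 hS.isOpen_compl subset_rfl)
    · exact (hΩc.image _ h.norm.diff.continuousOn).image _ (continuous_cj _).continuousOn
    · intro hb
      refine h.norm.not_bdd hR hU ?_
      obtain ⟨T, hT⟩ := hb.subset_closedBall 0
      refine (isBounded_closedBall (x := (0:ℂ)) (r := T)).subset ?_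
      intro y hy
      have h1 := hT (mem_image_of_mem _ hy)
      rw [mem_closedBall, dist_zero_right] at h1 ⊢
      rwa [cj_norm] at h1
    · rw [disjoint_left]
      rintro _ ⟨y, hy, rfl⟩ ⟨u, hu, huy⟩
      have hua := hsph u (by simpa using hu)
      have h1 : f w (ψ k u) = y := cj_inj huy
      refine disjoint_left.1 (h.disj w hw [] h0 hw0) (mem_image_of_mem _ (hC.maps k u hua)) ?_
      rw [h1]
      exact hy
    · exact mem_image_of_mem _ (hδ (mem_ball_self hδ0))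
  -- oscillation
  have hosc : ∀ u : ℂ, ‖u‖ = r → ‖G u - G (circleMap 0 r 0)‖ ≤ 2 * π * r * (m + m') := by
    intro u hu
    have hu' : u ∈ circleMap (0:ℂ) r '' Ioc 0 (2 * π) := by
      rw [image_circleMap_Ioc, abs_of_pos hr0]
      simpa using hu
    obtain ⟨θ, hθ, rfl⟩ := hu'
    have hcm : ∀ t : ℝ, ‖circleMap (0:ℂ) r t‖ = r := fun t => by
      rw [norm_circleMap_zero, abs_of_pos hr0]
    have hder : ∀ t : ℝ, HasDerivAt (fun t => G (circleMap 0 r t))
        (deriv G (circleMap 0 r t) * (circleMap 0 r t * Complex.I)) t := by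
      intro t
      have h1 : HasDerivAt G (deriv G (circleMap 0 r t)) (circleMap 0 r t) :=
        (hGd.differentiableAt ((isOpen_ao q).mem_nhds (hsph _ (hcm t)))).hasDerivAt
      have h2 := hasDerivAt_circleMap (0:ℂ) r t
      exact h1.comp_of_eq t h2 rfl
    have h1 := norm_image_sub_le_of_norm_deriv_le_segment' (f := fun t => G (circleMap 0 r t))
      (C := r * (m + m')) (a := 0) (b := 2 * π)
      (fun t _ => (hder t).hasDerivWithinAt) (fun t _ => by
        have hc := hcm t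
        have hG' : deriv G (circleMap 0 r t) = deriv (Fk ψ f' w k) (circleMap 0 r t) -
            deriv (Fk ψ f w k) (circleMap 0 r t) := by
          have h3 := hF'd.differentiableAt ((isOpen_ao q).mem_nhds (hsph _ hc))
          have h4 := hFd.differentiableAt ((isOpen_ao q).mem_nhds (hsph _ hc))
          exact deriv_fun_sub h3 h4
        rw [norm_mul, norm_mul, Complex.norm_I, mul_one, hc, hG']
        have h5 := norm_sub_le (deriv (Fk ψ f' w k) (circleMap 0 r t))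
          (deriv (Fk ψ f w k) (circleMap 0 r t))
        have h6 := hd1 _ hc
        have h7 := hd2 _ hc
        have h8 : ‖deriv (Fk ψ f' w k) (circleMap 0 r t) - deriv (Fk ψ f w k) (circleMap 0 r t)‖ ≤
          m + m' := by linarith
        calc _ ≤ (m + m') * r := by gcongr
          _ = r * (m + m') := by ring) θ ⟨hθ.1.le, hθ.2⟩
    refine h1.trans ?_
    have h2 : θ - 0 ≤ 2 * π := by linarith [hθ.2]
    calc r * (m + m') * (θ - 0) ≤ r * (m + m') * (2 * π) := by gcongr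
      _ = 2 * π * r * (m + m') := by ring
  have hcont : ContinuousOn (fun u => deriv (Fk ψ f w k) u / (Fk ψ f w k u - cj w.length z₀))
      (sphere (0:ℂ) r) := by
    have h1 : DifferentiableOn ℂ (deriv (Fk ψ f w k)) (ao q) :=
      (hFd.analyticOnNhd (isOpen_ao q)).deriv.differentiableOn
    exact (h1.div (hFd.sub_const _) hne).continuousOn.mono fun u hu => hsph u (by simpa using hu)
  have hGc : ContinuousOn G (sphere (0:ℂ) r) :=
    hGd.continuousOn.mono fun u hu => hsph u (by simpa using hu)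
  have e1 : Bf ψ f f' z₀ r w k = ∮ u in C(0, r), (G u - G (circleMap 0 r 0)) *
      (deriv (Fk ψ f w k) u / (Fk ψ f w k u - cj w.length z₀)) := by
    have h1 : CircleIntegrable (fun u => G u *
        (deriv (Fk ψ f w k) u / (Fk ψ f w k u - cj w.length z₀))) 0 r :=
      (hGc.mul hcont).circleIntegrable hr0.le
    have h2 : CircleIntegrable (fun u => G (circleMap 0 r 0) *
        (deriv (Fk ψ f w k) u / (Fk ψ f w k u - cj w.length z₀))) 0 r :=
      (continuousOn_const.mul hcont).circleIntegrable hr0.le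
    have h3 : ∮ u in C(0, r), (G u - G (circleMap 0 r 0)) *
        (deriv (Fk ψ f w k) u / (Fk ψ f w k u - cj w.length z₀)) =
        (∮ u in C(0, r), G u * (deriv (Fk ψ f w k) u / (Fk ψ f w k u - cj w.length z₀))) -
        ∮ u in C(0, r), G (circleMap 0 r 0) *
          (deriv (Fk ψ f w k) u / (Fk ψ f w k u - cj w.length z₀)) := by
      rw [← circleIntegral.integral_sub h1 h2]
      refine circleIntegral.integral_congr hr0.le fun u _ => ?_
      ring
    rw [h3, circleIntegral.integral_const_mul, hwind, mul_zero, sub_zero, Bf]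
    refine circleIntegral.integral_congr hr0.le fun u _ => ?_
    simp only [hG]
    ring
  have e2 : ‖Bf ψ f f' z₀ r w k‖ ≤ 2 * π * r * ((2 * π * r * (m + m')) * (m / δ)) := by
    rw [e1]
    refine circleIntegral.norm_integral_le_of_norm_le_const hr0.le fun u hu => ?_
    have hu' : ‖u‖ = r := by simpa using hu
    rw [norm_mul, norm_div]
    have h1 := hosc u hu'
    have h2 : ‖deriv (Fk ψ f w k) u‖ / ‖Fk ψ f w k u - cj w.length z₀‖ ≤ m / δ :=
      div_le_div₀ hm0 (hd1 u hu') hδ0 (hdist u (hsph u hu'))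
    exact mul_le_mul h1 h2 (by positivity) (by positivity)
  refine e2.trans ?_
  have h3 : (m + m') * m ≤ 2 * (m ^ 2 + m' ^ 2) := by nlinarith [sq_nonneg (m - m')]
  calc 2 * π * r * ((2 * π * r * (m + m')) * (m / δ))
      = 2 * π * r * (2 * π * r / δ) * ((m + m') * m) := by ring
    _ ≤ 2 * π * r * (2 * π * r / δ) * (2 * (m ^ 2 + m' ^ 2)) := by gcongr
    _ = 2 * π * r * (2 * π * r / δ) * 2 * (100 / ρ ^ 2) * (A + A') := by
        rw [hm2, hm'2]
        ring

end Vale.Agent.P116.H906
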