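import Mathlib
import Vale.Agent.P116.H906.Rig4

/-!
Rigidity of full systems.
-/

open Filter Topology Set Metric Bornology MeasureTheory
open scoped Real ComplexConjugate ENNReal

namespace Vale.Agent.P116.H906

variable {S : Set (Set ℂ)} {ψ : Hl S → ℂ → ℂ} {q : ℝ} {𝒲 : Set (List (Hl S))}
  {f f' : List (Hl S) → ℂ → ℂ}

open Classical in
/-- reduced words of length `n` -/
noncomputable def Wn (S : Set (Set ℂ)) [Finite (Hl S)] (n : ℕ) : Finset (List (Hl S)) :=
  (List.finite_length_eq (Hl S) n).toFinset.filter fun w => Rd w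

lemma mem_Wn [Finite (Hl S)] {n : ℕ} {w : List (Hl S)} : w ∈ Wn S n ↔ Rd w ∧ w.length = n := by
  classical
  rw [Wn, Finset.mem_filter, Set.Finite.mem_toFinset]
  exact and_comm

open Classical in
/-- admissible next letters -/
noncomputable def Ew [Fintype (Hl S)] (w : List (Hl S)) : Finset (Hl S) :=
  Finset.univ.filter fun k => w.getLast? ≠ some k

lemma mem_Ew [Fintype (Hl S)] {w : List (Hl S)} {k : Hl S} : k ∈ Ew w ↔ w.getLast? ≠ some k := by
  classical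
  rw [Ew, Finset.mem_filter]
  simp

lemma sum_Wn_succ [Fintype (Hl S)] (n : ℕ) (g : List (Hl S) → ℝ) :
    ∑ w ∈ Wn S n, ∑ k ∈ Ew w, g (w ++ [k]) = ∑ v ∈ Wn S (n + 1), g v := by
  rw [Finset.sum_sigma']
  refine Finset.sum_bij (fun x _ => x.1 ++ [x.2]) ?_ ?_ ?_ ?_
  · rintro ⟨w, k⟩ hx
    rw [Finset.mem_sigma, mem_Wn, mem_Ew] at hx
    rw [mem_Wn, rd_append, List.length_append, List.length_singleton]
    exact ⟨⟨hx.1.1, hx.2⟩, by rw [hx.1.2]⟩
  · rintro ⟨w, k⟩ _ ⟨w', k'⟩ _ hxy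
    have h1 := List.append_inj' hxy rfl
    simp only at h1
    obtain ⟨h2, h3⟩ := h1
    have h4 : k = k' := by simpa using h3
    subst h2 h4
    rfl
  · intro v hv
    rw [mem_Wn] at hv
    rcases List.eq_nil_or_concat v with h1 | ⟨w, k, h1⟩
    · subst h1
      simp at hv
    · rw [List.concat_eq_append] at h1
      subst h1
      refine ⟨⟨w, k⟩, ?_, rfl⟩
      rw [rd_append, List.length_append, List.length_singleton] at hv
      rw [Finset.mem_sigma, mem_Wn, mem_Ew]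
      exact ⟨⟨hv.1.1, Nat.succ_injective hv.2⟩, hv.1.2⟩
  · rintro ⟨w, k⟩ _
    rfl

/-- the areas of the pieces of level `n` tend to zero -/
lemma Sys.area_tendsto [Fintype (Hl S)] (h : Sys S ψ q {w | Rd w} f) (hS : Adm S) :
    Tendsto (fun n => ∑ w ∈ Wn S (n + 1), volume.real (f w '' (⋃₀ S)ᶜ)) atTop (𝓝 0) := by
  obtain ⟨R, hR, hSR⟩ := hS.bdd
  have h0 : ([] : List (Hl S)) ∈ {w : List (Hl S) | Rd w} := rd_nil
  set U : ℕ → Set ℂ := fun n => ⋃ w ∈ Wn S (n + 1), f w '' (⋃₀ S)ᶜ with hU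
  have hne : ∀ n, ∀ w ∈ Wn S (n + 1), w ≠ [] := by
    intro n w hw hw0
    rw [mem_Wn, hw0] at hw
    simp at hw
  have hmeas : ∀ w : List (Hl S), Rd w → MeasurableSet (f w '' (⋃₀ S)ᶜ) := fun w hw =>
    (h.isOpen_image hS hw hS.isOpen_compl subset_rfl).measurableSet
  have hUm : ∀ n, MeasurableSet (U n) := fun n =>
    Finset.measurableSet_biUnion _ fun w hw => hmeas w (mem_Wn.1 hw).1
  have hUd : Pairwise fun m n => Disjoint (U m) (U n) := by
    intro m n hmn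
    simp only [hU]
    rw [disjoint_iUnion₂_left]
    intro w hw
    rw [disjoint_iUnion₂_right]
    intro v hv
    refine h.disj w (mem_Wn.1 hw).1 v (mem_Wn.1 hv).1 fun he => hmn ?_
    have h1 := (mem_Wn.1 hw).2
    have h2 := (mem_Wn.1 hv).2
    rw [he, h2] at h1
    omega
  have hUb : (⋃ n, U n) ⊆ closedBall (0:ℂ) (5 * R) := by
    refine iUnion_subset fun n => iUnion₂_subset fun w hw => ?_
    rintro _ ⟨z, hz, rfl⟩
    rw [mem_closedBall, dist_zero_right]
    exact h.bound' hR hSR h0 (mem_Wn.1 hw).1 (hne n w hw) hz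
  have hsum : ∑' n, volume (U n) ≠ ⊤ := by
    rw [← measure_iUnion hUd hUm]
    exact (lt_of_le_of_lt (measure_mono hUb) (isCompact_closedBall _ _).measure_lt_top).ne
  have hlim := ENNReal.tendsto_atTop_zero_of_tsum_ne_top hsum
  have hlim' := (ENNReal.tendsto_toReal ENNReal.zero_ne_top).comp hlim
  rw [ENNReal.toReal_zero] at hlim'
  refine hlim'.congr fun n => ?_
  simp only [Function.comp_apply, hU]
  rw [measure_biUnion_finset (fun w hw v hv hwv => h.disj w (mem_Wn.1 hw).1 v (mem_Wn.1 hv).1 hwv)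
    (fun w hw => hmeas w (mem_Wn.1 hw).1), ENNReal.toReal_sum]
  · rfl
  · intro w hw
    exact (h.area_lt_top hR hSR h0 (mem_Wn.1 hw).1 (hne n w hw)).ne

/-- **rigidity**, base piece -/
theorem Sys.rigid (h : Sys S ψ q {w | Rd w} f) (h' : Sys S ψ q {w | Rd w} f') (hS : Adm S)
    (hC : Collar S ψ q) {a : ℂ} (ha : a ∈ (⋃₀ S)ᶜ) : f' [] a = f [] a := by
  classical
  have hfin : Finite (Hl S) := hS.fin
  have := Fintype.ofFinite (Hl S)
  have h0 : ([] : List (Hl S)) ∈ {w : List (Hl S) | Rd w} := rd_nil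
  obtain ⟨q', δ, hq'1, hq', hδ, hball, hcol⟩ := hC.col_point hS ha
  set r : ℝ := (1 + q') / 2 with hr
  have hr1 : 1 < r := by rw [hr]; linarith
  have hrq' : r < q' := by rw [hr]; linarith
  have hrq : r < q := hrq'.trans_le hq'
  set z₀ := f [] a with hz₀
  have hopen := h.isOpen_image hS h0 hS.isOpen_compl subset_rfl
  obtain ⟨δ₀, hδ₀, hδ₀b⟩ := Metric.isOpen_iff.1 hopen z₀ (mem_image_of_mem _ ha)
  have hz₀' : ∀ k, ∀ u ∈ ao q', f [] (ψ k u) ≠ z₀ := by
    intro k u hu he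
    have h1 := h.norm.inj (hC.maps k u (ao_mono hq' hu)) ha he
    refine hcol.maps (some k) u hu ?_
    change ψ k u ∈ _
    rw [h1, iUnion_ok]
    exact Or.inl (mem_closedBall_self hδ.le)
  set T : ℕ → ℝ := fun n => ∑ w ∈ Wn S n, ∑ k ∈ Ew w, ‖Bf ψ f f' z₀ r w k‖ with hT
  have hstep : ∀ n, T n ≤ T (n + 1) := by
    intro n
    simp only [hT]
    rw [← sum_Wn_succ n (fun v => ∑ k' ∈ Ew v, ‖Bf ψ f f' z₀ r v k'‖)]
    refine Finset.sum_le_sum fun w hw => Finset.sum_le_sum fun k hk => ?_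
    have hw' := (mem_Wn.1 hw).1
    have hk' := mem_Ew.1 hk
    have hwk : Rd (w ++ [k]) := rd_append.2 ⟨hw', hk'⟩
    have he := h.edge h' hS hC h0 hq'1 hq' (mem_image_of_mem _ ha) hz₀' hw' hwk hr1 hrq'
    have hv := h.vertex h' hS hC h0 hδ₀ hδ₀b (w := w ++ [k]) hwk (by simp) hr1 hrq
    have h1 : ‖Bf ψ f f' z₀ r w k‖ = ‖Bf ψ f f' z₀ r (w ++ [k]) k‖ := by
      rw [he, Complex.norm_conj]
    have h2 : Ew (w ++ [k]) = Finset.univ.erase k := by
      ext k'
      rw [mem_Ew, Finset.mem_erase]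
      simp [eq_comm]
    rw [h1, h2]
    have h3 : Bf ψ f f' z₀ r (w ++ [k]) k = -∑ k' ∈ Finset.univ.erase k,
        Bf ψ f f' z₀ r (w ++ [k]) k' := by
      rw [← Finset.add_sum_erase _ _ (Finset.mem_univ k)] at hv
      exact eq_neg_of_add_eq_zero_left hv
    rw [h3, norm_neg]
    exact norm_sum_le _ _
  have hT0 : ∀ n, T 0 ≤ T n := by
    intro n
    induction n with
    | zero => exact le_rfl
    | succ n ih => exact ih.trans (hstep n)
  obtain ⟨C, hC0, hCb⟩ := h.bf_le h' hS hC h0 hr1 hrq hδ₀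
  have hTb : ∀ n, T (n + 1) ≤ (Fintype.card (Hl S)) * C *
      (∑ w ∈ Wn S (n + 1), volume.real (f w '' (⋃₀ S)ᶜ) +
        ∑ w ∈ Wn S (n + 1), volume.real (f' w '' (⋃₀ S)ᶜ)) := by
    intro n
    simp only [hT]
    rw [← Finset.sum_add_distrib, Finset.mul_sum]
    refine Finset.sum_le_sum fun w hw => ?_
    have hw' := mem_Wn.1 hw
    have hw0 : w ≠ [] := by
      intro hw0
      rw [hw0] at hw'
      simp at hw'
    calc ∑ k ∈ Ew w, ‖Bf ψ f f' z₀ r w k‖
        ≤ ∑ k ∈ Ew w, C * (volume.real (f w '' (⋃₀ S)ᶜ) + volume.real (f' w '' (⋃₀ S)ᶜ)) :=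
          Finset.sum_le_sum fun k _ => hCb z₀ hδ₀b w hw'.1 hw0 k
      _ = (Ew w).card * (C * (volume.real (f w '' (⋃₀ S)ᶜ) + volume.real (f' w '' (⋃₀ S)ᶜ))) := by
          rw [Finset.sum_const, nsmul_eq_mul]
      _ ≤ (Fintype.card (Hl S)) * (C * (volume.real (f w '' (⋃₀ S)ᶜ) +
          volume.real (f' w '' (⋃₀ S)ᶜ))) := by
          have h1 : ((Ew w).card : ℝ) ≤ Fintype.card (Hl S) := by
            exact_mod_cast Finset.card_le_univ (Ew w)
          have h2 : 0 ≤ C * (volume.real (f w '' (⋃₀ S)ᶜ) + volume.real (f' w '' (⋃₀ S)ᶜ)) :=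
            mul_nonneg hC0 (add_nonneg measureReal_nonneg measureReal_nonneg)
          exact mul_le_mul_of_nonneg_right h1 h2
      _ = _ := by ring
  have hlim : Tendsto (fun n => (Fintype.card (Hl S)) * C *
      (∑ w ∈ Wn S (n + 1), volume.real (f w '' (⋃₀ S)ᶜ) +
        ∑ w ∈ Wn S (n + 1), volume.real (f' w '' (⋃₀ S)ᶜ))) atTop (𝓝 0) := by
    have h1 := (h.area_tendsto hS).add (h'.area_tendsto hS)
    have h2 := h1.const_mul ((Fintype.card (Hl S)) * C)
    rw [add_zero, mul_zero] at h2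
    exact h2
  have hT0' : T 0 ≤ 0 := ge_of_tendsto hlim (Eventually.of_forall fun n =>
    (hT0 (n + 1)).trans (hTb n))
  have hT0'' : T 0 = ∑ k, ‖Bf ψ f f' z₀ r [] k‖ := by
    have h1 : Wn S 0 = {[]} := by
      ext w
      rw [mem_Wn, Finset.mem_singleton]
      constructor
      · rintro ⟨-, hw⟩
        exact List.eq_nil_of_length_eq_zero hw
      · rintro rfl
        exact ⟨rd_nil, rfl⟩
    have h2 : Ew ([] : List (Hl S)) = Finset.univ := by
      ext k
      rw [mem_Ew]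
      simp
    simp only [hT]
    rw [h1, Finset.sum_singleton, h2]
  have hnil := h.vertex_nil h' hS hC h0 hδ hball hq' hcol hr1 hrq'
  have h1 : ‖∑ k, Bf ψ f f' (f [] a) r [] k‖ ≤ 0 :=
    (norm_sum_le _ _).trans (hT0'' ▸ hT0')
  rw [norm_le_zero_iff, hnil, neg_eq_zero] at h1
  have hpi : (2 * π * Complex.I : ℂ) ≠ 0 := by simp [Real.pi_ne_zero, Complex.I_ne_zero]
  exact sub_eq_zero.1 ((mul_eq_zero.1 h1).resolve_left hpi)

/-- **rigidity**, neighbouring pieces -/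
theorem Sys.rigid_one (h : Sys S ψ q {w | Rd w} f) (h' : Sys S ψ q {w | Rd w} f') (hS : Adm S)
    (hC : Collar S ψ q) (k : Hl S) {a : ℂ} (ha : a ∈ (⋃₀ S)ᶜ) : f' [k] a = f [k] a := by
  have hq1 := hC.q1
  have hΩo := hS.isOpen_compl
  have hΩc : IsPreconnected (⋃₀ S)ᶜ := hS.full.isPreconnected_compl hS.isCompact.isBounded
  have hk : Rd ([k] : List (Hl S)) := List.isChain_singleton _
  obtain ⟨Φ, hΦ⟩ := h.glue [] k rd_nil hk
  obtain ⟨Φ', hΦ'⟩ := h'.glue [] k rd_nil hk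
  obtain ⟨u, hu⟩ := ao_nonempty hq1
  have e1 : EqOn Φ' Φ (an q) := by
    refine (hΦ'.diff.analyticOnNhd (isOpen_an q)).eqOn_of_preconnected_of_eventuallyEq
      (hΦ.diff.analyticOnNhd (isOpen_an q)) (isPreconnected_an hq1) (ao_subset_an hq1 hu) ?_
    filter_upwards [(isOpen_ao q).mem_nhds hu] with x hx
    rw [hΦ.out x hx, hΦ'.out x hx, h.rigid h' hS hC (hC.maps k x hx)]
  have e2 : ∀ v ∈ ao q, f' [k] (ψ k v) = f [k] (ψ k v) := by
    intro v hv
    have hv' := conj_inv_mem_ai hq1 hv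
    have h1 := e1 (ai_subset_an hq1 hv')
    rw [hΦ.inn _ hv', hΦ'.inn _ hv', conj_inv_conj_inv] at h1
    exact cj_inj h1
  have hopen : IsOpen (ψ k '' ao q) :=
    isOpen_image_of_inj (isOpen_ao q) (hC.diff k) (hC.inj k) (isOpen_ao q) subset_rfl
  have e3 : EqOn (fun z => cj ([k] : List (Hl S)).length (f' [k] z))
      (fun z => cj ([k] : List (Hl S)).length (f [k] z)) (⋃₀ S)ᶜ := by
    refine ((h'.ana [k] hk).analyticOnNhd hΩo).eqOn_of_preconnected_of_eventuallyEq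
      ((h.ana [k] hk).analyticOnNhd hΩo) hΩc (hC.maps k u hu) ?_
    filter_upwards [hopen.mem_nhds (mem_image_of_mem _ hu)] with x hx
    obtain ⟨v, hv, rfl⟩ := hx
    rw [e2 v hv]
  exact cj_inj (e3 ha)

end Vale.Agent.P116.H906
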