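import Mathlib
import Vale.Agent.P116.H906.Rig5

/-!
The twisted system and the reflection property.
-/

open Filter Topology Set Metric Bornology MeasureTheory
open scoped Real ComplexConjugate

namespace Vale.Agent.P116.H906

variable {S : Set (Set ℂ)} {ψ : Hl S → ℂ → ℂ} {q : ℝ} {𝒲 : Set (List (Hl S))}
  {f f' : List (Hl S) → ℂ → ℂ}

lemma cj_congr {m n : ℕ} (h : Even m ↔ Even n) (z : ℂ) : cj m z = cj n z := by
  simp only [cj, h]

open Classical in
/-- left multiplication by a letter -/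
noncomputable def jw (j : Hl S) (w : List (Hl S)) : List (Hl S) :=
  if w.head? = some j then w.tail else j :: w

lemma jw_cons_self (j : Hl S) (w : List (Hl S)) : jw j (j :: w) = w := by
  simp [jw]

lemma jw_of_ne {j : Hl S} {w : List (Hl S)} (h : w.head? ≠ some j) : jw j w = j :: w := by
  simp only [jw, if_neg h]

lemma jw_cases (j : Hl S) (w : List (Hl S)) :
    (∃ v, w = j :: v ∧ jw j w = v) ∨ (w.head? ≠ some j ∧ jw j w = j :: w) := by
  by_cases h : w.head? = some j
  · left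
    cases w with
    | nil => simp at h
    | cons a v =>
      simp only [List.head?_cons, Option.some.injEq] at h
      subst h
      exact ⟨v, rfl, jw_cons_self a v⟩
  · exact Or.inr ⟨h, jw_of_ne h⟩

lemma rd_jw {j : Hl S} {w : List (Hl S)} (hw : Rd w) : Rd (jw j w) := by
  rcases jw_cases j w with ⟨v, rfl, h2⟩ | ⟨h1, h2⟩
  · rw [h2]
    exact (rd_cons.1 hw).2
  · rw [h2]
    exact rd_cons.2 ⟨h1, hw⟩

lemma jw_jw {j : Hl S} {w : List (Hl S)} (hw : Rd w) : jw j (jw j w) = w := by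
  rcases jw_cases j w with ⟨v, rfl, h2⟩ | ⟨h1, h2⟩
  · rw [h2, jw_of_ne (rd_cons.1 hw).1]
  · rw [h2, jw_cons_self]

lemma cj_jw (j : Hl S) (w : List (Hl S)) (z : ℂ) :
    cj (jw j w).length z = cj (w.length + 1) z := by
  rcases jw_cases j w with ⟨v, rfl, h2⟩ | ⟨h1, h2⟩
  · rw [h2]
    refine cj_congr ?_ z
    rw [List.length_cons]
    simp [Nat.even_add_one]
  · rw [h2, List.length_cons]

lemma jw_append {j : Hl S} {w : List (Hl S)} {k : Hl S} (h : ¬ (w = [] ∧ k = j)) :
    jw j (w ++ [k]) = jw j w ++ [k] := by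
  cases w with
  | nil =>
    have hk : k ≠ j := fun hk => h ⟨rfl, hk⟩
    rw [jw_of_ne (by simpa using hk), jw_of_ne (by simp)]
    rfl
  | cons a v =>
    by_cases haj : a = j
    · subst haj
      rw [List.cons_append, jw_cons_self, jw_cons_self]
    · rw [jw_of_ne (by simpa using haj), jw_of_ne (by simpa using haj)]
      rfl

/-- limits at infinity of a neighbouring piece are not in the closed pieces -/
lemma Sys.lim_notMem (h : Sys S ψ q {w | Rd w} f) (hS : Adm S) (hC : Collar S ψ q) {j : Hl S}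
    {p : ℂ} (hp : Tendsto (f [j]) (cobounded ℂ) (𝓝 p)) :
    (∀ v : List (Hl S), Rd v → p ∉ f v '' (⋃₀ S)ᶜ) ∧
    ∀ w k, Rd w → Rd (w ++ [k]) → ∀ Φ, Glu ψ q f w k Φ → ∀ u ∈ an q, cj w.length (Φ u) ≠ p := by
  obtain ⟨R, hR, hSR⟩ := hS.bdd
  have hU : (closedBall (0:ℂ) R)ᶜ ⊆ (⋃₀ S)ᶜ := compl_subset_compl.2 hSR
  have hj : Rd ([j] : List (Hl S)) := List.isChain_singleton _
  have hlarge : ∀ T : ℝ, ∀ᶠ z : ℂ in cobounded ℂ, z ∈ (⋃₀ S)ᶜ ∧ T < ‖z‖ := by
    intro T
    filter_upwards [tendsto_norm_cobounded_atTop.eventually_gt_atTop (max R T)] with z hz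
    refine ⟨hU ?_, (le_max_right _ _).trans_lt hz⟩
    rw [mem_compl_iff, mem_closedBall, dist_zero_right, not_le]
    exact (le_max_left _ _).trans_lt hz
  have hpc : ∀ v : List (Hl S), Rd v → p ∉ f v '' (⋃₀ S)ᶜ := by
    intro v hv hmem
    by_cases hvj : v = [j]
    · subst hvj
      obtain ⟨z₀, hz₀, hz₀p⟩ := hmem
      have hVo : IsOpen ((⋃₀ S)ᶜ ∩ ball 0 (‖z₀‖ + 1)) := hS.isOpen_compl.inter isOpen_ball
      have hopen := h.isOpen_image hS hv hVo inter_subset_left
      have h1 : p ∈ f [j] '' ((⋃₀ S)ᶜ ∩ ball 0 (‖z₀‖ + 1)) :=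
        ⟨z₀, ⟨hz₀, by rw [mem_ball, dist_zero_right]; linarith⟩, hz₀p⟩
      obtain ⟨z, hz1, hz2, hz3⟩ := ((hp.eventually (hopen.mem_nhds h1)).and
        (hlarge (‖z₀‖ + 1))).exists
      obtain ⟨y, ⟨hy, hyb⟩, hyz⟩ := hz1
      have h2 := h.inj [j] hv hy hz2 hyz
      rw [mem_ball, dist_zero_right, h2] at hyb
      linarith
    · have hopen := h.isOpen_image hS hv hS.isOpen_compl subset_rfl
      obtain ⟨z, hz1, hz2, -⟩ := ((hp.eventually (hopen.mem_nhds hmem)).and (hlarge 0)).exists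
      exact disjoint_left.1 (h.disj v hv [j] hj hvj) hz1 (mem_image_of_mem _ hz2)
  refine ⟨hpc, ?_⟩
  intro w k hw hwk Φ hΦ u hu hup
  rcases an_cases hu with h1 | h1 | h1
  · refine hpc w hw ?_
    rw [← hup, hΦ.out u h1, cj_cj]
    exact mem_image_of_mem _ (hC.maps k u h1)
  · obtain ⟨s, hs1, hsq, hsR⟩ := hC.small hS k hSR
    have hs0 : 0 < s := one_pos.trans hs1
    have hsub : an s ⊆ an q := fun v hv =>
      ⟨lt_of_le_of_lt (inv_anti₀ hs0 hsq) hv.1, hv.2.trans_le hsq⟩
    have hopen := h.isOpen_ap hC hw hΦ (n := w.length) (isOpen_an s) hsub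
    have h2 : p ∈ (fun u => cj w.length (Φ u)) '' an s := ⟨u, circ_mem_an hs1 h1, hup⟩
    obtain ⟨z, hz1, hz2, hz3⟩ := ((hp.eventually (hopen.mem_nhds h2)).and (hlarge (R + 1))).exists
    obtain ⟨v, hv, hvz⟩ := hz1
    simp only at hvz
    rcases an_cases hv with h3 | h3 | h3
    · have h3q : v ∈ ao q := ao_mono hsq h3
      rw [hΦ.out v h3q, cj_cj] at hvz
      have hwj : w = [j] := by
        by_contra hne
        refine disjoint_left.1 (h.disj w hw [j] hj hne) (mem_image_of_mem _ (hC.maps k v h3q)) ?_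
        rw [hvz]
        exact mem_image_of_mem _ hz2
      subst hwj
      have h4 := h.inj [j] hw (hC.maps k v h3q) hz2 hvz
      have h5 := hsR v h3
      rw [h4] at h5
      linarith
    · refine h.cp hS hC hw hwk hΦ h3 hj ?_
      rw [hvz]
      exact mem_image_of_mem _ hz2
    · have h3q : v ∈ ai q := ⟨(hsub hv).1, h3.2⟩
      have h3a : (conj v)⁻¹ ∈ ao s := conj_inv_mem_ao hs1 h3
      rw [hΦ.inn v h3q, cj_cj] at hvz
      have hwj : w ++ [k] = [j] := by
        by_contra hne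
        refine disjoint_left.1 (h.disj _ hwk [j] hj hne)
          (mem_image_of_mem _ (hC.maps k _ (ao_mono hsq h3a))) ?_
        rw [hvz]
        exact mem_image_of_mem _ hz2
      rw [hwj] at hvz
      have h4 := h.inj [j] hj (hC.maps k _ (ao_mono hsq h3a)) hz2 hvz
      have h5 := hsR _ h3a
      rw [h4] at h5
      linarith
  · refine hpc _ hwk ?_
    rw [← hup, hΦ.inn u h1, cj_cj]
    exact mem_image_of_mem _ (hC.maps k _ (conj_inv_mem_ao hC.q1 h1))

/-- anti-Möbius maps -/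
noncomputable def amob (β A p ζ : ℂ) : ℂ := β + A / conj (ζ - p)

lemma cj_amob (n : ℕ) (β A p ζ : ℂ) :
    cj n (amob β A p ζ) = cj n β + cj n A / (cj (n + 1) ζ - cj (n + 1) p) := by
  rw [cj_succ, cj_succ]
  by_cases h : Even n
  · simp only [cj_even h, amob, map_sub]
  · simp only [cj_odd h, amob]
    simp

lemma amob_inj {β A p ζ ξ : ℂ} (hA : A ≠ 0)
    (h : amob β A p ζ = amob β A p ξ) : ζ = ξ := by
  rw [amob, amob, add_right_inj] at h
  have h2 : conj (ζ - p) = conj (ξ - p) := by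
    have h3 := congrArg (fun x : ℂ => A / x) h
    simp only [div_div_cancel₀ hA] at h3
    exact h3
  have h4 := congrArg conj h2
  rw [Complex.conj_conj, Complex.conj_conj] at h4
  exact sub_left_injective h4

/-- the normalising coefficient of a neighbouring piece -/
lemma Sys.exists_coef (h : Sys S ψ q {w | Rd w} f) (hS : Adm S) (hC : Collar S ψ q) (j : Hl S) :
    ∃ p A β : ℂ, A ≠ 0 ∧ Tendsto (f [j]) (cobounded ℂ) (𝓝 p) ∧
      NU (⋃₀ S)ᶜ (fun z => amob β A p (f [j] z)) := by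
  obtain ⟨R, hR, hSR⟩ := hS.bdd
  have hU : (closedBall (0:ℂ) R)ᶜ ⊆ (⋃₀ S)ᶜ := compl_subset_compl.2 hSR
  have hj : Rd ([j] : List (Hl S)) := List.isChain_singleton _
  set F : ℂ → ℂ := fun z => cj 1 (f [j] z) with hF
  have hc1 : ∀ z, cj 1 z = conj z := fun z => cj_odd (by decide) z
  have hFd : DifferentiableOn ℂ F (⋃₀ S)ᶜ := h.ana [j] hj
  have hFb : ∀ z ∈ (closedBall (0:ℂ) R)ᶜ, ‖F z‖ ≤ 5 * R := fun z hz => by
    simp only [hF, cj_norm]
    exact h.bound' hR hSR rd_nil hj (by simp) (hU hz)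
  obtain ⟨p', hp'⟩ := exists_lim_infty (hFd.mono hU) hFb
  set p := conj p' with hp
  have hpl : Tendsto (f [j]) (cobounded ℂ) (𝓝 p) := by
    have h1 := (Complex.continuous_conj.tendsto p').comp hp'
    refine h1.congr fun z => ?_
    simp only [Function.comp_apply, hF, hc1, Complex.conj_conj]
  obtain ⟨hpc, -⟩ := h.lim_notMem hS hC hpl
  have hFne : ∀ z ∈ (⋃₀ S)ᶜ, F z - p' ≠ 0 := by
    intro z hz hh
    refine hpc [j] hj ⟨z, hz, ?_⟩
    have h1 : conj (f [j] z) = p' := by
      rw [← hc1]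
      exact sub_eq_zero.1 hh
    rw [hp, ← h1, Complex.conj_conj]
  obtain ⟨G, hG, hG0, hGF⟩ := chart_inf hR hU hFd hp'
  have hinvmem : ∀ ζ ∈ ball (0:ℂ) R⁻¹, ζ ≠ 0 → ζ⁻¹ ∈ (⋃₀ S)ᶜ := by
    intro ζ hζ h0
    refine hU ?_
    rw [mem_ball, dist_zero_right] at hζ
    rw [mem_compl_iff, mem_closedBall, dist_zero_right, norm_inv, not_le]
    exact (lt_inv_comm₀ hR (norm_pos_iff.2 h0)).2 hζ
  have hGinj : InjOn G (ball 0 R⁻¹) := by
    intro ζ hζ ξ hξ hh
    by_cases h1 : ζ = 0
    · by_cases h2 : ξ = 0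
      · rw [h1, h2]
      · exfalso
        rw [h1, hG0, hGF ξ h2] at hh
        exact hFne _ (hinvmem ξ hξ h2) (sub_eq_zero.2 hh.symm)
    · by_cases h2 : ξ = 0
      · exfalso
        rw [h2, hG0, hGF ζ h1] at hh
        exact hFne _ (hinvmem ζ hζ h1) (sub_eq_zero.2 hh)
      · rw [hGF ζ h1, hGF ξ h2] at hh
        exact inv_injective (h.inj [j] hj (hinvmem ζ hζ h1) (hinvmem ξ hξ h2) (cj_inj hh))
  have h0m : (0:ℂ) ∈ ball (0:ℂ) R⁻¹ := mem_ball_self (inv_pos.2 hR)
  have hA : deriv G 0 ≠ 0 := Vale.Agent.P142.injOn_deriv_ne_zero isOpen_ball hG hGinj h0m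
  set A := deriv G 0 with hAdef
  have hF0d : DifferentiableOn ℂ (fun z => A / (F z - p')) (⋃₀ S)ᶜ :=
    (differentiableOn_const _).div (hFd.sub_const _) hFne
  have hF0inj : InjOn (fun z => A / (F z - p')) (⋃₀ S)ᶜ := by
    intro x hx y hy hxy
    simp only at hxy
    rw [div_eq_div_iff (hFne x hx) (hFne y hy)] at hxy
    have h1 := mul_left_cancel₀ hA hxy
    exact h.inj [j] hj hx hy (cj_inj (sub_left_injective h1).symm)
  have hratio : Tendsto (fun z => A / (F z - p') / z) (cobounded ℂ) (𝓝 1) := by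
    have h1 : HasDerivAt G A 0 := (hG.differentiableAt (isOpen_ball.mem_nhds h0m)).hasDerivAt
    have h2 := (hasDerivAt_iff_tendsto_slope_zero.1 h1).comp (tendsto_inv₀_cobounded' (α := ℂ))
    have h3 := (h2.inv₀ hA).const_mul A
    rw [mul_inv_cancel₀ hA] at h3
    refine h3.congr' ?_
    filter_upwards [tendsto_norm_cobounded_atTop.eventually_gt_atTop R] with z hz
    have hz0 : z ≠ 0 := norm_pos_iff.1 (hR.trans hz)
    have hzΩ : z ∈ (⋃₀ S)ᶜ := hU (by
      rw [mem_compl_iff, mem_closedBall, dist_zero_right, not_le]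
      exact hz)
    have h4 := hFne z hzΩ
    simp only [Function.comp_apply, zero_add, hG0, hGF _ (inv_ne_zero hz0), inv_inv, smul_eq_mul]
    field_simp
  obtain ⟨κ, hκ⟩ := nu_of_ratio hS.isCompact hF0d hF0inj hratio
  refine ⟨p, A, -κ, hA, hpl, ?_⟩
  have e : (fun z => amob (-κ) A p (f [j] z)) = fun z => A / (F z - p') - κ := by
    funext z
    rw [amob, map_sub, hp, Complex.conj_conj, ← hc1]
    ring
  rw [e]
  exact hκ

/-- **the twisted system** -/
theorem Sys.twist (h : Sys S ψ q {w | Rd w} f) (hS : Adm S) (hC : Collar S ψ q) {j : Hl S}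
    {p A β : ℂ} (hA : A ≠ 0) (hp : Tendsto (f [j]) (cobounded ℂ) (𝓝 p))
    (hN : NU (⋃₀ S)ᶜ (fun z => amob β A p (f [j] z))) :
    Sys S ψ q {w | Rd w} (fun w z => amob β A p (f (jw j w) z)) := by
  have hq1 := hC.q1
  obtain ⟨hpc, hpa⟩ := h.lim_notMem hS hC hp
  have hne : ∀ w : List (Hl S), Rd w → ∀ z ∈ (⋃₀ S)ᶜ,
      cj (w.length + 1) (f (jw j w) z) - cj (w.length + 1) p ≠ 0 := by
    intro w hw z hz hh
    have h1 := cj_inj (sub_eq_zero.1 hh)
    refine hpc _ (rd_jw (j := j) hw) ?_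
    rw [← h1]
    exact mem_image_of_mem _ hz
  refine ⟨?_, ?_, ?_, ?_, ?_⟩
  · intro w hw
    simp only [cj_amob]
    have h1 : DifferentiableOn ℂ (fun z => cj (w.length + 1) (f (jw j w) z)) (⋃₀ S)ᶜ := by
      have h2 := h.ana (jw j w) (rd_jw hw)
      refine h2.congr fun z _ => ?_
      rw [cj_jw]
    have h3 : DifferentiableOn ℂ (fun z => cj w.length A / (cj (w.length + 1) (f (jw j w) z) -
        cj (w.length + 1) p)) (⋃₀ S)ᶜ := (differentiableOn_const _).div (h1.sub_const _) (hne w hw)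
    exact h3.const_add _
  · intro w hw x hx y hy hxy
    exact h.inj _ (rd_jw hw) hx hy (amob_inj hA hxy)
  · intro v hv w hw hvw
    rw [disjoint_left]
    rintro _ ⟨x, hx, rfl⟩ ⟨y, hy, hxy⟩
    have h1 := amob_inj hA hxy
    have h2 : jw j v ≠ jw j w := fun he => hvw (by rw [← jw_jw (j := j) hv, he, jw_jw hw])
    refine disjoint_left.1 (h.disj _ (rd_jw hv) _ (rd_jw hw) h2) (mem_image_of_mem _ hx) ?_
    rw [← h1]
    exact mem_image_of_mem _ hy
  · intro w k hw hwk
    by_cases hcase : w = [] ∧ k = j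
    · obtain ⟨rfl, rfl⟩ := hcase
      obtain ⟨Φ, hΦ⟩ := h.glue [] k hw hwk
      have hconj : ∀ u ∈ an q, (conj u)⁻¹ ∈ an q := by
        intro u hu
        rcases an_cases hu with h1 | h1 | h1
        · exact ai_subset_an hq1 (conj_inv_mem_ai hq1 h1)
        · refine circ_mem_an hq1 ?_
          rw [norm_inv, Complex.norm_conj, h1, inv_one]
        · exact ao_subset_an hq1 (conj_inv_mem_ao hq1 h1)
      have hj1 : jw k ([] : List (Hl S)) = [k] := jw_of_ne (by simp)
      have hj2 : jw k ([] ++ [k] : List (Hl S)) = [] := jw_cons_self k []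
      refine ⟨fun u => amob β A p (Φ (conj u)⁻¹), ?_, ?_, ?_⟩
      · intro u hu
        have hu0 : u ≠ 0 := by
          intro h0
          have := hu.1
          rw [h0, norm_zero] at this
          exact absurd this (not_lt.2 (inv_nonneg.2 (one_pos.trans hq1).le))
        have h1 := diff_conj_inv hu0
          (hΦ.diff.differentiableAt ((isOpen_an q).mem_nhds (hconj u hu)))
        have h2 : conj (Φ (conj u)⁻¹) - conj p ≠ 0 := by
          rw [← map_sub]
          refine (map_ne_zero _).2 (sub_ne_zero.2 ?_)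
          have := hpa [] k hw hwk Φ hΦ _ (hconj u hu)
          simpa using this
        have h3 : DifferentiableAt ℂ (fun u => A / (conj (Φ (conj u)⁻¹) - conj p)) u :=
          (differentiableAt_const _).div (h1.sub_const _) h2
        have h4 : (fun u => amob β A p (Φ (conj u)⁻¹)) =
            fun u => β + A / (conj (Φ (conj u)⁻¹) - conj p) := by
          funext u
          rw [amob, map_sub]
        rw [h4]
        exact (h3.const_add _).differentiableWithinAt
      · intro u hu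
        simp only [hj1, List.length_nil, cj_zero']
        rw [hΦ.inn _ (conj_inv_mem_ai hq1 hu), conj_inv_conj_inv]
        simp
      · intro u hu
        simp only [hj2, List.length_nil, cj_zero']
        rw [hΦ.out _ (conj_inv_mem_ao hq1 hu)]
        simp
    · have hj2 := jw_append hcase
      have hw' : Rd (jw j w) := rd_jw hw
      have hwk' : Rd (jw j w ++ [k]) := hj2 ▸ rd_jw hwk
      obtain ⟨Φ, hΦ⟩ := h.glue (jw j w) k hw' hwk'
      refine ⟨fun u => cj w.length β + cj w.length A / (Φ u - cj (w.length + 1) p), ?_, ?_, ?_⟩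
      · have h2 : ∀ u ∈ an q, Φ u - cj (w.length + 1) p ≠ 0 := by
          intro u hu hh
          refine hpa _ k hw' hwk' Φ hΦ u hu ?_
          rw [sub_eq_zero.1 hh, cj_jw, cj_cj]
        have h3 : DifferentiableOn ℂ (fun u => cj w.length A / (Φ u - cj (w.length + 1) p))
            (an q) := (differentiableOn_const _).div (hΦ.diff.sub_const _) h2
        exact h3.const_add _
      · intro u hu
        simp only [cj_amob]
        rw [hΦ.out u hu, cj_jw]
      · intro u hu
        simp only [cj_amob]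
        rw [hΦ.inn u hu, cj_jw, hj2]
  · have hj1 : jw j ([] : List (Hl S)) = [j] := jw_of_ne (by simp)
    simp only [hj1]
    exact hN

/-- **reflection property** of the full system -/
theorem Sys.reflect (h : Sys S ψ q {w | Rd w} f) (hS : Adm S) (hC : Collar S ψ q) (j : Hl S) :
    ∃ (p : ℂ) (t : ℝ), 0 < t ∧ ∀ z ∈ (⋃₀ S)ᶜ, f [] z ≠ p ∧ f [j] z = cinv p t (f [] z) := by
  obtain ⟨R, hR, hSR⟩ := hS.bdd
  have hU : (closedBall (0:ℂ) R)ᶜ ⊆ (⋃₀ S)ᶜ := compl_subset_compl.2 hSR
  have hq1 := hC.q1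
  obtain ⟨p, A, β, hA, hp, hN⟩ := h.exists_coef hS hC j
  have htw := h.twist hS hC hA hp hN
  obtain ⟨hpc, -⟩ := h.lim_notMem hS hC hp
  have hj : Rd ([j] : List (Hl S)) := List.isChain_singleton _
  have hfp : ∀ z ∈ (⋃₀ S)ᶜ, f [] z ≠ p := fun z hz he => hpc [] rd_nil ⟨z, hz, he⟩
  have e1 : ∀ z ∈ (⋃₀ S)ᶜ, amob β A p (f [] z) = f [j] z := by
    intro z hz
    have h1 := h.rigid_one htw hS hC j hz
    rw [jw_cons_self] at h1
    exact h1
  -- the constant term
  have hβ : β = p := by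
    have h1 : Tendsto (fun z => amob β A p (f [] z)) (cobounded ℂ) (𝓝 β) := by
      have h2 := (Complex.continuous_conj.tendsto 0).comp (h.norm.tendsto_inv p)
      have h3 := (h2.const_mul A).const_add β
      rw [map_zero, mul_zero, add_zero] at h3
      refine h3.congr fun z => ?_
      simp only [Function.comp_apply, amob, map_inv₀, div_eq_mul_inv]
    refine tendsto_nhds_unique (h1.congr' ?_) hp
    filter_upwards [tendsto_norm_cobounded_atTop.eventually_gt_atTop R] with z hz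
    refine e1 z (hU ?_)
    rw [mem_compl_iff, mem_closedBall, dist_zero_right, not_le]
    exact hz
  subst hβ
  have e2 : ∀ z ∈ (⋃₀ S)ᶜ, (f [j] z - β) * conj (f [] z - β) = A := by
    intro z hz
    have h1 : conj (f [] z - β) ≠ 0 := (map_ne_zero _).2 (sub_ne_zero.2 (hfp z hz))
    rw [← e1 z hz, amob, add_sub_cancel_left, div_mul_cancel₀ _ h1]
  -- positivity
  obtain ⟨Φ, hΦ⟩ := h.glue [] j rd_nil hj
  have h1an : (1:ℂ) ∈ an q := circ_mem_an hq1 norm_one
  have hcont : ContinuousAt Φ 1 :=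
    hΦ.diff.continuousOn.continuousAt ((isOpen_an q).mem_nhds h1an)
  have hΦA : (Φ 1 - β) * conj (Φ 1 - β) = A := by
    have hl : Tendsto (fun t : ℝ => (t : ℂ) * 1) (𝓝[>] 1) (𝓝 1) :=
      tendsto_mul_right_one 1 nhdsWithin_le_nhds
    have hl1 : Tendsto (fun t : ℝ => (t : ℂ)) (𝓝[>] 1) (𝓝 1) := by simpa using hl
    have hl2 : Tendsto (fun t : ℝ => (conj (t : ℂ))⁻¹) (𝓝[>] 1) (𝓝 1) := by
      have h2 := ((Complex.continuous_conj.tendsto 1).comp hl1).inv₀ (by simp)
      simpa [Function.comp_def] using h2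
    have h3 := hcont.tendsto.comp hl1
    have h4 := hcont.tendsto.comp hl2
    have h5 := (h4.sub_const β).mul ((Complex.continuous_conj.tendsto _).comp (h3.sub_const β))
    refine tendsto_nhds_unique h5 ?_
    refine tendsto_const_nhds.congr' ?_
    have hev : ∀ᶠ t : ℝ in 𝓝[>] 1, t < q := nhdsWithin_le_nhds (gt_mem_nhds hq1)
    filter_upwards [self_mem_nhdsWithin, hev] with t ht htq
    have ht1 : 1 < t := ht
    have hta : (t : ℂ) ∈ ao q := by
      refine ⟨?_, ?_⟩ <;> rw [Complex.norm_real, Real.norm_of_nonneg (by linarith)] <;> assumption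
    have h6 := e2 _ (hC.maps j _ hta)
    simp only [Function.comp_apply]
    rw [hΦ.out _ hta, hΦ.inn _ (conj_inv_mem_ai hq1 hta), conj_inv_conj_inv]
    simp only [List.length_nil, cj_zero', List.nil_append]
    exact h6.symm
  set t : ℝ := ‖Φ 1 - β‖ with ht
  have hAt : A = (t : ℂ) ^ 2 := by
    rw [← hΦA, Complex.mul_conj, Complex.normSq_eq_norm_sq]
    push_cast
    rfl
  have ht0 : 0 < t := by
    rcases (norm_nonneg (Φ 1 - β)).lt_or_eq with h1 | h1
    · exact h1
    · exfalso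
      apply hA
      rw [hAt, ht, ← h1]
      simp
  refine ⟨β, t, ht0, fun z hz => ⟨hfp z hz, ?_⟩⟩
  rw [← e1 z hz, amob, cinv, hAt]

end Vale.Agent.P116.H906
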