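import Mathlib
import Vale.Agent.P116.H906.Fin1

/-!
**Koebe's theorem** for finitely connected domains.
-/

open Filter Topology Set Metric Bornology MeasureTheory
open scoped Real ComplexConjugate

namespace Vale.Agent.P116.H906

variable {S : Set (Set ℂ)} {ψ : Hl S → ℂ → ℂ} {q : ℝ} {𝒲 : Set (List (Hl S))}
  {f f' : List (Hl S) → ℂ → ℂ}

lemma cinv_fix {c ζ : ℂ} {ρ : ℝ} (hρ : 0 < ρ) (h : ‖ζ - c‖ = ρ) : cinv c ρ ζ = ζ := by
  have h0 : ζ - c ≠ 0 := by
    rw [← norm_pos_iff, h]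
    exact hρ
  have h0' : conj (ζ - c) ≠ 0 := (map_ne_zero _).2 h0
  have h1 : (ρ : ℂ) ^ 2 = (ζ - c) * conj (ζ - c) := by
    rw [Complex.mul_conj, Complex.normSq_eq_norm_sq, h]
    push_cast
    rfl
  rw [cinv, h1, mul_div_cancel_right₀ _ h0']
  ring

/-- the data of one boundary circle -/
structure Circ (ψ : Hl S → ℂ → ℂ) (q : ℝ) (g : ℂ → ℂ) (j : Hl S) (p : ℂ) (t : ℝ)
    (Φ : ℂ → ℂ) : Prop where
  tpos : 0 < t
  cont : ContinuousOn Φ (an q)
  opn : ∀ u ∈ an q, 𝓝 (Φ u) ≤ map Φ (𝓝 u)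
  out : ∀ u ∈ ao q, Φ u = g (ψ j u)
  circ : ∀ u, ‖u‖ = 1 → ‖Φ u - p‖ = t
  inn : ∀ u ∈ ai q, ‖Φ u - p‖ < t
  avoid : ∀ z ∈ (⋃₀ S)ᶜ, t < ‖g z - p‖

/-- every hole gives a circle -/
lemma Sys.circ (h : Sys S ψ q {w | Rd w} f) (hS : Adm S) (hC : Collar S ψ q) (j : Hl S) :
    ∃ (p : ℂ) (t : ℝ) (Φ : ℂ → ℂ), Circ ψ q (f []) j p t Φ := by
  obtain ⟨R, hR, hSR⟩ := hS.bdd
  have hU : (closedBall (0:ℂ) R)ᶜ ⊆ (⋃₀ S)ᶜ := compl_subset_compl.2 hSR
  have hΩc : IsPreconnected (⋃₀ S)ᶜ := hS.full.isPreconnected_compl hS.isCompact.isBounded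
  have hq1 := hC.q1
  have hj : Rd ([j] : List (Hl S)) := List.isChain_singleton _
  obtain ⟨p, t, ht, hpt⟩ := h.reflect hS hC j
  obtain ⟨Φ, hΦ⟩ := h.glue [] j rd_nil hj
  -- the base piece avoids the circle
  have hsph : Disjoint (f [] '' (⋃₀ S)ᶜ) (sphere p t) := by
    rw [disjoint_left]
    rintro _ ⟨z, hz, rfl⟩ hs
    rw [mem_sphere, dist_eq_norm] at hs
    have h1 := (hpt z hz).2
    rw [cinv_fix ht hs] at h1
    refine disjoint_left.1 (h.disj [] rd_nil [j] hj (by simp)) (mem_image_of_mem _ hz) ?_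
    rw [← h1]
    exact mem_image_of_mem _ hz
  have hUc : IsPreconnected (f [] '' (⋃₀ S)ᶜ) := hΩc.image _ h.norm.diff.continuousOn
  have hsub : f [] '' (⋃₀ S)ᶜ ⊆ (closedBall p t)ᶜ := by
    refine subset_of_frontier_disjoint hUc ?_ ?_
    · exact inter_compl_ball_nonempty (h.norm.not_bdd hR hU) p t
    · rw [frontier_compl, frontier_closedBall p ht.ne']
      exact hsph
  have havoid : ∀ z ∈ (⋃₀ S)ᶜ, t < ‖f [] z - p‖ := by
    intro z hz
    have h1 := hsub (mem_image_of_mem _ hz)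
    rwa [mem_compl_iff, mem_closedBall, dist_eq_norm, not_le] at h1
  have hout : ∀ u ∈ ao q, Φ u = f [] (ψ j u) := fun u hu => by
    rw [hΦ.out u hu]
    simp
  have hinn : ∀ u ∈ ai q, Φ u = cinv p t (f [] (ψ j (conj u)⁻¹)) := fun u hu => by
    rw [hΦ.inn u hu]
    simp only [List.length_nil, cj_zero', List.nil_append]
    exact (hpt _ (hC.maps j _ (conj_inv_mem_ao hq1 hu))).2
  refine ⟨p, t, Φ, ht, hΦ.diff.continuousOn, fun u hu => h.nhds_le hC rd_nil hΦ hu, hout, ?_, ?_,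
    havoid⟩
  · intro v hv
    have hva : v ∈ an q := circ_mem_an hq1 hv
    have hcont : ContinuousAt Φ v :=
      hΦ.diff.continuousOn.continuousAt ((isOpen_an q).mem_nhds hva)
    have hv0 : v ≠ 0 := by
      rw [← norm_pos_iff, hv]
      exact one_pos
    have hvc : (conj v)⁻¹ = v := by
      have h1 : v * conj v = 1 := by
        rw [Complex.mul_conj, Complex.normSq_eq_norm_sq, hv]
        simp
      exact (eq_inv_of_mul_eq_one_left h1).symm
    have hl1 : Tendsto (fun s : ℝ => (s : ℂ) * v) (𝓝[>] 1) (𝓝 v) :=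
      tendsto_mul_right_one v nhdsWithin_le_nhds
    have hl2 : Tendsto (fun s : ℝ => (conj ((s : ℂ) * v))⁻¹) (𝓝[>] 1) (𝓝 v) := by
      have h2 := ((Complex.continuous_conj.tendsto v).comp hl1).inv₀ ((map_ne_zero _).2 hv0)
      rw [hvc] at h2
      exact h2
    have h3 := hcont.tendsto.comp hl1
    have h4 := hcont.tendsto.comp hl2
    have h5 := (h4.sub_const p).mul ((Complex.continuous_conj.tendsto _).comp (h3.sub_const p))
    have h6 : (Φ v - p) * conj (Φ v - p) = (t:ℂ) ^ 2 := by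
      refine tendsto_nhds_unique h5 ?_
      refine tendsto_const_nhds.congr' ?_
      have hev : ∀ᶠ s : ℝ in 𝓝[>] 1, s < q := nhdsWithin_le_nhds (gt_mem_nhds hq1)
      filter_upwards [self_mem_nhdsWithin, hev] with s hs hsq
      have hs1 : 1 < s := hs
      have hn : ‖(s : ℂ) * v‖ = s := by
        rw [norm_mul, hv, mul_one, Complex.norm_real, Real.norm_of_nonneg (by linarith)]
      have hsa : (s : ℂ) * v ∈ ao q := ⟨by rw [hn]; exact hs1, by rw [hn]; exact hsq⟩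
      simp only [Function.comp_apply]
      rw [hout _ hsa, hinn _ (conj_inv_mem_ai hq1 hsa), conj_inv_conj_inv]
      have h7 : conj (f [] (ψ j (s * v)) - p) ≠ 0 :=
        (map_ne_zero _).2 (sub_ne_zero.2 (hpt _ (hC.maps j _ hsa)).1)
      rw [cinv, add_sub_cancel_left, div_mul_cancel₀ _ h7]
    rw [Complex.mul_conj, Complex.normSq_eq_norm_sq] at h6
    have h7 : ‖Φ v - p‖ ^ 2 = t ^ 2 := by exact_mod_cast h6
    exact (pow_left_inj₀ (norm_nonneg _) ht.le two_ne_zero).1 h7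
  · intro u hu
    rw [hinn u hu, norm_cinv_sub]
    have h1 := havoid _ (hC.maps j _ (conj_inv_mem_ao hq1 hu))
    rw [div_lt_iff₀ (ht.trans h1)]
    nlinarith

variable {g : ℂ → ℂ} {j k : Hl S} {p p' : ℂ} {t t' : ℝ} {Φ Φ' : ℂ → ℂ}

lemma Circ.isOpen_img (h : Circ ψ q g j p t Φ) : IsOpen (Φ '' an q) := by
  rw [isOpen_iff_mem_nhds]
  rintro _ ⟨u, hu, rfl⟩
  exact h.opn u hu (image_mem_map ((isOpen_an q).mem_nhds hu))

lemma Circ.img_inter_sphere (hC : Collar S ψ q) (h : Circ ψ q g j p t Φ) :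
    Φ '' an q ∩ sphere p t ⊆ Φ '' sphere (0:ℂ) 1 := by
  rintro _ ⟨⟨u, hu, rfl⟩, hs⟩
  rw [mem_sphere, dist_eq_norm] at hs
  rcases an_cases hu with h1 | h1 | h1
  · have h2 := h.avoid _ (hC.maps j u h1)
    rw [← h.out u h1] at h2
    linarith
  · exact ⟨u, by simpa using h1, rfl⟩
  · have h2 := h.inn u h1
    linarith

lemma Circ.sphere_subset (hC : Collar S ψ q) (h : Circ ψ q g j p t Φ) :
    sphere p t ⊆ Φ '' sphere (0:ℂ) 1 := by
  have hsa : sphere (0:ℂ) 1 ⊆ an q := fun u hu => circ_mem_an hC.q1 (by simpa using hu)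
  have hcl : IsClosed (Φ '' sphere (0:ℂ) 1) :=
    ((isCompact_sphere _ _).image_of_continuousOn (h.cont.mono hsa)).isClosed
  have hpre : IsPreconnected (sphere p t) := isPreconnected_sphere (by
    rw [Complex.rank_real_complex]; norm_num) p t
  have key := isPreconnected_iff_subset_of_disjoint.1 hpre (Φ '' an q) (Φ '' sphere (0:ℂ) 1)ᶜ
    h.isOpen_img hcl.isOpen_compl (by
      intro y hy
      by_cases hy' : y ∈ Φ '' sphere (0:ℂ) 1
      · exact Or.inl (image_mono hsa hy')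
      · exact Or.inr hy') (by
      rw [eq_empty_iff_forall_notMem]
      rintro y ⟨hy, hy1, hy2⟩
      exact hy2 (h.img_inter_sphere hC ⟨hy1, hy⟩))
  rcases key with h1 | h1
  · intro y hy
    exact h.img_inter_sphere hC ⟨h1 hy, hy⟩
  · exfalso
    have h2 : Φ 1 ∈ sphere p t := by
      rw [mem_sphere, dist_eq_norm]
      exact h.circ 1 norm_one
    exact h1 h2 ⟨1, by simp, rfl⟩

/-- points of the circle are limits of points of the base piece -/
lemma Circ.exists_near (hC : Collar S ψ q) (h : Circ ψ q g j p t Φ) {y : ℂ} (hy : y ∈ sphere p t)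
    {W : Set ℂ} (hW : IsOpen W) (hyW : y ∈ W) : ∃ u ∈ ao q, g (ψ j u) ∈ W := by
  obtain ⟨v, hv, rfl⟩ := h.sphere_subset hC hy
  have hv1 : ‖v‖ = 1 := by simpa using hv
  have hva := circ_mem_an hC.q1 hv1
  have hcont : ContinuousAt Φ v := h.cont.continuousAt ((isOpen_an q).mem_nhds hva)
  obtain ⟨u, ⟨hu1, hu2⟩, hu3⟩ := exists_out hv1 (inter_mem ((isOpen_an q).mem_nhds hva)
    (hcont (hW.mem_nhds hyW)))
  have hua : u ∈ ao q := ⟨hu3, hu1.2⟩
  refine ⟨u, hua, ?_⟩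
  rw [← h.out u hua]
  exact hu2

lemma Circ.sphere_disjoint (hC : Collar S ψ q) (hg : InjOn g (⋃₀ S)ᶜ) (h : Circ ψ q g j p t Φ)
    (h' : Circ ψ q g k p' t' Φ') (hjk : j ≠ k) : Disjoint (sphere p t) (sphere p' t') := by
  rw [disjoint_left]
  intro y hy hy'
  have hsa : sphere (0:ℂ) 1 ⊆ an q := fun u hu => circ_mem_an hC.q1 (by simpa using hu)
  have hyO : y ∈ Φ '' an q := image_mono hsa (h.sphere_subset hC hy)
  obtain ⟨u, hu, hgu⟩ := h'.exists_near hC hy' h.isOpen_img hyO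
  obtain ⟨v, hv, hvu⟩ := hgu
  have h3 := h.avoid _ (hC.maps k u hu)
  rw [← hvu] at h3
  rcases an_cases hv with h1 | h1 | h1
  · rw [h.out v h1] at hvu
    have h2 := hg (hC.maps j v h1) (hC.maps k u hu) hvu
    exact disjoint_left.1 (hC.disj j k hjk) (mem_image_of_mem _ h1) (h2 ▸ mem_image_of_mem _ hu)
  · have := h.circ v h1
    linarith
  · have := h.inn v h1
    linarith

lemma Circ.sphere_disjoint_ball (hC : Collar S ψ q) (hg : InjOn g (⋃₀ S)ᶜ)
    (h : Circ ψ q g j p t Φ) (h' : Circ ψ q g k p' t' Φ') (hjk : j ≠ k) :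
    Disjoint (sphere p t) (closedBall p' t') := by
  rw [disjoint_left]
  intro y hy hy'
  rw [← ball_union_sphere] at hy'
  rcases hy' with hy' | hy'
  · obtain ⟨u, hu, hgu⟩ := h.exists_near hC hy isOpen_ball hy'
    have h1 := h'.avoid _ (hC.maps j u hu)
    rw [mem_ball, dist_eq_norm] at hgu
    linarith
  · exact disjoint_left.1 (h.sphere_disjoint hC hg h' hjk) hy hy'

lemma Circ.ball_disjoint (hC : Collar S ψ q) (hg : InjOn g (⋃₀ S)ᶜ)
    (h : Circ ψ q g j p t Φ) (h' : Circ ψ q g k p' t' Φ') (hjk : j ≠ k) :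
    Disjoint (closedBall p t) (closedBall p' t') := by
  by_contra hcon
  rw [not_disjoint_iff] at hcon
  obtain ⟨y, hy, hy'⟩ := hcon
  have h1 : closedBall p' t' ⊆ closedBall p t := by
    refine subset_of_frontier_disjoint (convex_closedBall p' t').isPreconnected ⟨y, hy', hy⟩ ?_
    rw [frontier_closedBall p h.tpos.ne']
    exact (h.sphere_disjoint_ball hC hg h' hjk).symm
  obtain ⟨x, hx⟩ : (sphere p' t').Nonempty := NormedSpace.sphere_nonempty.2 h'.tpos.le
  exact disjoint_left.1 (h'.sphere_disjoint_ball hC hg h (Ne.symm hjk)) hx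
    (h1 (sphere_subset_closedBall hx))

/-- boundary behaviour at a hole -/
lemma Circ.bdry (hC : Collar S ψ q) (h : Circ ψ q g j p t Φ) {x : ℂ}
    (hx : x ∈ j.1) (𝓥 : Ultrafilter ℂ) (h𝓥 : (𝓥 : Filter ℂ) ≤ 𝓝[(⋃₀ S)ᶜ] x) :
    ∃ v, ‖v‖ = 1 ∧ Tendsto g (𝓥 : Filter ℂ) (𝓝 (Φ v)) := by
  have hq1 := hC.q1
  have hconv : ∀ s > 1, ∀ᶠ z in (𝓥 : Filter ℂ), ∃ u ∈ ao q, ‖u‖ < s ∧ ψ j u = z := by
    intro s hs
    obtain ⟨N, hN, hjN, hNc⟩ := hC.conv j s hs
    have h1 : ∀ᶠ z in (𝓥 : Filter ℂ), z ∈ N ∧ z ∈ (⋃₀ S)ᶜ := by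
      refine h𝓥 ?_
      exact inter_mem (nhdsWithin_le_nhds (hN.mem_nhds (hjN hx))) self_mem_nhdsWithin
    filter_upwards [h1] with z hz using hNc z hz
  set U : ℂ → ℂ := Function.invFunOn (ψ j) (ao q) with hU
  have hU1 : ∀ᶠ z in (𝓥 : Filter ℂ), U z ∈ ao q ∧ ψ j (U z) = z := by
    filter_upwards [hconv 2 one_lt_two] with z hz
    obtain ⟨u, hu, -, huz⟩ := hz
    have hmem : z ∈ ψ j '' ao q := ⟨u, hu, huz⟩
    exact ⟨Function.invFunOn_mem hmem, Function.invFunOn_eq hmem⟩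
  have hUs : ∀ s > 1, ∀ᶠ z in (𝓥 : Filter ℂ), ‖U z‖ < s := by
    intro s hs
    filter_upwards [hconv s hs, hU1] with z hz hz1
    obtain ⟨u, hu, hus, huz⟩ := hz
    have h1 : U z = u := hC.inj j hz1.1 hu (hz1.2.trans huz.symm)
    rwa [h1]
  obtain ⟨v, -, hv⟩ := (isCompact_closedBall (0:ℂ) q).ultrafilter_le_nhds (𝓥.map U) (by
    rw [le_principal_iff]
    change ∀ᶠ z in (𝓥 : Filter ℂ), U z ∈ closedBall (0:ℂ) q
    filter_upwards [hU1] with z hz
    rw [mem_closedBall, dist_zero_right]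
    exact hz.1.2.le)
  have hUv : Tendsto U (𝓥 : Filter ℂ) (𝓝 v) := hv
  have hv1 : ‖v‖ = 1 := by
    apply le_antisymm
    · refine le_of_forall_gt_imp_ge_of_dense fun s hs => ?_
      refine le_of_tendsto hUv.norm ?_
      filter_upwards [hUs s hs] with z hz using hz.le
    · refine ge_of_tendsto hUv.norm ?_
      filter_upwards [hU1] with z hz using hz.1.1.le
  refine ⟨v, hv1, ?_⟩
  have hcont : ContinuousAt Φ v := h.cont.continuousAt ((isOpen_an q).mem_nhds (circ_mem_an hq1 hv1))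
  refine (hcont.tendsto.comp hUv).congr' ?_
  filter_upwards [hU1] with z hz
  simp only [Function.comp_apply]
  rw [h.out _ hz.1, hz.2]

/-- **Koebe's theorem**: every finitely connected domain is conformally a circle domain -/
theorem fk : FK := by
  classical
  intro S hS
  obtain ⟨ψ, q, hC⟩ := exists_collar hS
  obtain ⟨f, h⟩ := exists_full_sys hS hC
  obtain ⟨R, hR, hSR⟩ := hS.bdd
  have hU : (closedBall (0:ℂ) R)ᶜ ⊆ (⋃₀ S)ᶜ := compl_subset_compl.2 hSR
  have hΩo := hS.isOpen_compl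
  choose p t Φ hcirc using fun j => h.circ hS hC j
  set g := f [] with hg
  have hgN : NU (⋃₀ S)ᶜ g := h.norm
  set c : Set ℂ → ℂ := fun P => if hP : P ∈ S then p ⟨P, hP⟩ else 0 with hc
  set r : Set ℂ → ℝ := fun P => if hP : P ∈ S then t ⟨P, hP⟩ else 1 with hr
  have hcP : ∀ P (hP : P ∈ S), c P = p ⟨P, hP⟩ := fun P hP => by simp only [hc, dif_pos hP]
  have hrP : ∀ P (hP : P ∈ S), r P = t ⟨P, hP⟩ := fun P hP => by simp only [hr, dif_pos hP]
  set D : Set ℂ := ⋃ P ∈ S, closedBall (c P) (r P) with hD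
  have hDmem : ∀ y, y ∈ D ↔ ∃ j : Hl S, y ∈ closedBall (p j) (t j) := by
    intro y
    rw [hD, mem_iUnion₂]
    constructor
    · rintro ⟨P, hP, hy⟩
      rw [hcP P hP, hrP P hP] at hy
      exact ⟨⟨P, hP⟩, hy⟩
    · rintro ⟨⟨P, hP⟩, hy⟩
      refine ⟨P, hP, ?_⟩
      rwa [hcP P hP, hrP P hP]
  have hDcl : IsClosed D := hS.fin.isClosed_biUnion fun _ _ => isClosed_closedBall
  have hUopen : IsOpen (g '' (⋃₀ S)ᶜ) := h.isOpen_image hS rd_nil hΩo subset_rfl
  have hUD : g '' (⋃₀ S)ᶜ ⊆ Dᶜ := by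
    rintro _ ⟨z, hz, rfl⟩ hmem
    obtain ⟨j, hj⟩ := (hDmem _).1 hmem
    have h1 := (hcirc j).avoid z hz
    rw [mem_closedBall, dist_eq_norm] at hj
    linarith
  -- closure of the image
  have hcls : ∀ y ∈ closure (g '' (⋃₀ S)ᶜ), y ∈ g '' (⋃₀ S)ᶜ ∨ y ∈ D := by
    intro y hy
    rw [mem_closure_iff_ultrafilter] at hy
    obtain ⟨𝒱, h𝒱1, h𝒱2⟩ := hy
    obtain ⟨𝓥, h𝓥1, h𝓥2⟩ : ∃ 𝓥 : Ultrafilter ℂ, (⋃₀ S)ᶜ ∈ 𝓥 ∧ 𝓥.map g = 𝒱 := by
      set G : ℂ → ℂ := Function.invFunOn g (⋃₀ S)ᶜ with hG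
      refine ⟨𝒱.map G, ?_, ?_⟩
      · rw [Ultrafilter.mem_map]
        filter_upwards [h𝒱1] with w hw using Function.invFunOn_mem hw
      · rw [Ultrafilter.map_map]
        apply Ultrafilter.coe_injective
        rw [Ultrafilter.coe_map]
        have h1 : g ∘ G =ᶠ[(𝒱 : Filter ℂ)] id := by
          filter_upwards [h𝒱1] with w hw using Function.invFunOn_eq hw
        rw [map_congr h1, map_id]
    have hgy : Tendsto g (𝓥 : Filter ℂ) (𝓝 y) := by
      have : Filter.map g (𝓥 : Filter ℂ) = 𝒱 := by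
        rw [← h𝓥2, Ultrafilter.coe_map]
      rw [Tendsto, this]
      exact h𝒱2
    -- boundedness
    obtain ⟨M, hM⟩ : ∃ M : ℝ, closedBall (0:ℂ) M ∈ 𝓥 := by
      by_contra hcon
      push Not at hcon
      have h1 : (𝓥 : Filter ℂ) ≤ cobounded ℂ := by
        rw [← comap_norm_atTop]
        intro s hs
        rw [mem_comap] at hs
        obtain ⟨A, hA, hAs⟩ := hs
        obtain ⟨a, ha⟩ := mem_atTop_sets.1 hA
        have h2 := Ultrafilter.compl_mem_iff_notMem.2 (hcon a)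
        filter_upwards [h2] with z hz
        refine hAs (ha _ ?_)
        rw [mem_compl_iff, mem_closedBall, dist_zero_right, not_le] at hz
        exact hz.le
      have h2 := (hgN.tendsto_cobounded.mono_left h1)
      have h3 : Filter.map g (𝓥 : Filter ℂ) ≤ ⊥ :=
        (le_inf hgy h2).trans (disjoint_iff_inf_le.1 (disjoint_nhds_cobounded y))
      exact (inferInstance : (Filter.map g (𝓥 : Filter ℂ)).NeBot).ne (le_bot_iff.1 h3)
    obtain ⟨x, -, hx⟩ := (isCompact_closedBall (0:ℂ) M).ultrafilter_le_nhds 𝓥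
      (le_principal_iff.2 hM)
    by_cases hxΩ : x ∈ (⋃₀ S)ᶜ
    · left
      have h1 : ContinuousAt g x := hgN.diff.continuousOn.continuousAt (hΩo.mem_nhds hxΩ)
      have h2 := tendsto_nhds_unique (h1.tendsto.mono_left hx) hgy
      exact ⟨x, hxΩ, h2⟩
    · right
      rw [mem_compl_iff, not_not] at hxΩ
      obtain ⟨P, hP, hxP⟩ := hxΩ
      obtain ⟨v, hv, hvt⟩ := (hcirc ⟨P, hP⟩).bdry hC hxP 𝓥 (by
        rw [nhdsWithin]
        exact le_inf hx (le_principal_iff.2 h𝓥1))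
      have h2 := tendsto_nhds_unique hgy hvt
      rw [hDmem]
      refine ⟨⟨P, hP⟩, ?_⟩
      rw [h2, mem_closedBall, dist_eq_norm]
      exact ((hcirc ⟨P, hP⟩).circ v hv).le
  -- the image
  have himage : g '' (⋃₀ S)ᶜ = Dᶜ := by
    refine Subset.antisymm hUD ?_
    set Z : Set ℂ := Dᶜ \ g '' (⋃₀ S)ᶜ with hZ
    have hZo : IsOpen Z := by
      have h1 : Z = Dᶜ ∩ (closure (g '' (⋃₀ S)ᶜ))ᶜ := by
        ext y
        constructor
        · rintro ⟨h1, h2⟩
          exact ⟨h1, fun h3 => (hcls y h3).elim h2 h1⟩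
        · rintro ⟨h1, h2⟩
          exact ⟨h1, fun h3 => h2 (subset_closure h3)⟩
      rw [h1]
      exact hDcl.isOpen_compl.inter isClosed_closure.isOpen_compl
    have hsa : sphere (0:ℂ) 1 ⊆ an q := fun u hu => circ_mem_an hC.q1 (by simpa using hu)
    have hZc : IsClosed Z := by
      rw [← isOpen_compl_iff, isOpen_iff_mem_nhds]
      intro y hy
      by_cases hyU : y ∈ g '' (⋃₀ S)ᶜ
      · filter_upwards [hUopen.mem_nhds hyU] with x hx hxZ using hxZ.2 hx
      · have hyD : y ∈ D := by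
          by_contra hyD
          exact hy ⟨hyD, hyU⟩
        obtain ⟨j, hj⟩ := (hDmem y).1 hyD
        rw [← ball_union_sphere] at hj
        rcases hj with hj | hj
        · filter_upwards [isOpen_ball.mem_nhds hj] with x hx hxZ
          exact hxZ.1 ((hDmem x).2 ⟨j, ball_subset_closedBall hx⟩)
        · have h1 : y ∈ Φ j '' an q := image_mono hsa ((hcirc j).sphere_subset hC hj)
          filter_upwards [(hcirc j).isOpen_img.mem_nhds h1] with x hx hxZ
          obtain ⟨u, hu, rfl⟩ := hx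
          rcases an_cases hu with h2 | h2 | h2
          · refine hxZ.2 ?_
            rw [(hcirc j).out u h2]
            exact mem_image_of_mem _ (hC.maps j u h2)
          · refine hxZ.1 ((hDmem _).2 ⟨j, ?_⟩)
            rw [mem_closedBall, dist_eq_norm]
            exact ((hcirc j).circ u h2).le
          · refine hxZ.1 ((hDmem _).2 ⟨j, ?_⟩)
            rw [mem_closedBall, dist_eq_norm]
            exact ((hcirc j).inn u h2).le
    have hZb : Bornology.IsBounded Z := by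
      refine (isBounded_closedBall (x := (0:ℂ)) (r := 5 * R)).subset fun y hy => ?_
      rw [mem_closedBall, dist_zero_right]
      refine hgN.omitted hR hU fun z hz hzy => hy.2 ⟨z, hU hz, hzy⟩
    have hZe : Z = ∅ := by
      rcases isClopen_iff.1 ⟨hZc, hZo⟩ with h1 | h1
      · exact h1
      · rw [h1] at hZb
        exact absurd hZb (NormedSpace.unbounded_univ ℝ ℂ)
    intro y hy
    by_contra hyU
    have : y ∈ Z := ⟨hy, hyU⟩
    rw [hZe] at this
    exact this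
  refine ⟨g, c, r, hgN, ?_, ?_, himage, ?_⟩
  · intro P hP
    rw [hrP P hP]
    exact (hcirc _).tpos
  · intro P hP Q hQ hPQ
    rw [hcP P hP, hrP P hP, hcP Q hQ, hrP Q hQ]
    exact (hcirc _).ball_disjoint hC hgN.inj (hcirc _) fun he => hPQ (congrArg Subtype.val he)
  · intro P hP x hx
    rw [hcP P hP, hrP P hP, tendsto_iff_ultrafilter]
    intro 𝓥 h𝓥
    obtain ⟨v, hv, hvt⟩ := (hcirc ⟨P, hP⟩).bdry hC hx 𝓥 h𝓥
    have h1 : Tendsto (fun z => infDist (g z) (closedBall (p ⟨P, hP⟩) (t ⟨P, hP⟩))) 𝓥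
        (𝓝 (infDist (Φ ⟨P, hP⟩ v) (closedBall (p ⟨P, hP⟩) (t ⟨P, hP⟩)))) :=
      ((continuous_infDist_pt _).tendsto _).comp hvt
    have h2 : infDist (Φ ⟨P, hP⟩ v) (closedBall (p ⟨P, hP⟩) (t ⟨P, hP⟩)) = 0 := by
      refine infDist_zero_of_mem ?_
      rw [mem_closedBall, dist_eq_norm]
      exact ((hcirc ⟨P, hP⟩).circ v hv).le
    rw [h2] at h1
    exact h1

end Vale.Agent.P116.H906
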