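import Mathlib
import Vale.Agent.P116.H906.Nodes

/-!
Structures, good points, and the assembly of the limit circle domain.
-/

open Set Filter Topology Metric Bornology

namespace Vale.Agent.P116.H906

/-- admissible structures -/
abbrev Str : Type := {S : Set (Set ℂ) // Adm S}

/-- the Koebe map of a structure -/
noncomputable def kF (h : FK) (S : Str) : ℂ → ℂ := (h S.1 S.2).choose

/-- centres -/
noncomputable def kc (h : FK) (S : Str) : Set ℂ → ℂ := (h S.1 S.2).choose_spec.choose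

/-- radii -/
noncomputable def kr (h : FK) (S : Str) : Set ℂ → ℝ := (h S.1 S.2).choose_spec.choose_spec.choose

lemma kmap (h : FK) (S : Str) : CMap S.1 (kF h S) (kc h S) (kr h S) :=
  (h S.1 S.2).choose_spec.choose_spec.choose_spec

/-- image of a set under the Koebe map, with holes -/
noncomputable def kT (h : FK) (S : Str) (Γ : Set ℂ) : Set ℂ :=
  Tm S.1 (kF h S) (kc h S) (kr h S) Γ

/-- the holes of the structure shrink to `K` -/
def Fine (K : Set ℂ) (𝔊 : Filter Str) : Prop := ∀ n, ∀ᶠ S in 𝔊, ∀ P ∈ S.1, P ⊆ lev K n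

/-- good points -/
def GoodAt (h : FK) (K : Set ℂ) (𝔊 : Filter Str) (x : ℂ) : Prop :=
  ∃ c : ℂ, ∃ r : ℝ, 0 ≤ r ∧
    (∀ ε > 0, ∃ n, ∀ᶠ S in 𝔊, kT h S (nd K n x) ⊆ closedBall c (r + ε)) ∧
    ∀ z ∉ K, ∃ δ > 0, ∀ᶠ S in 𝔊, r + δ < ‖kF h S z - c‖

section

variable {h : FK} {K : Set ℂ} {𝔊 : Ultrafilter Str}

lemma Fine.disj (hK : IsCompact K) (hf : Full K) (hG : Fine K (𝔊 : Filter Str)) {E : Set ℂ}
    (hE : IsCompact E) (hEK : Disjoint E K) :
    ∀ᶠ S in (𝔊 : Filter Str), Disjoint E (⋃₀ S.1) := by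
  obtain ⟨n, hn⟩ := exists_lev_disjoint hK hf hE hEK
  filter_upwards [hG n] with S hS
  rw [disjoint_left]
  rintro z hz ⟨P, hP, hzP⟩
  exact disjoint_left.1 (hn n le_rfl) hz (hS P hP hzP)

lemma Fine.exh (hK : IsCompact K) (hf : Full K) (hG : Fine K (𝔊 : Filter Str)) {R : ℝ}
    (hR : 0 < R) (hRK : lev K 0 ⊆ closedBall 0 R) :
    Exh (𝔊 : Filter Str) Kᶜ (fun S : Str => (⋃₀ S.1)ᶜ) (kF h) R where
  open' := hK.isClosed.isOpen_compl
  conn := hf.isPreconnected_compl hK.isBounded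
  rpos := hR
  tail := compl_subset_compl.2 ((subset_lev 0).trans hRK)
  vtail := by
    filter_upwards [hG 0] with S hS
    exact compl_subset_compl.2 (sUnion_subset fun P hP => (hS P hP).trans hRK)
  nu := Eventually.of_forall fun S => (kmap h S).nu
  exh := by
    intro z hz
    obtain ⟨r, hr, hb⟩ := Metric.isOpen_iff.1 hK.isClosed.isOpen_compl z hz
    refine ⟨r / 2, by positivity, (ball_subset_ball (by linarith)).trans hb, ?_⟩
    have h1 : Disjoint (closedBall z (r / 2)) K := by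
      rw [disjoint_left]
      intro y hy
      exact hb (closedBall_subset_ball (by linarith) hy)
    filter_upwards [hG.disj hK hf (isCompact_closedBall z (r / 2)) h1] with S hS
    intro y hy hy2
    exact disjoint_left.1 hS (ball_subset_closedBall hy) hy2

/-- escape to the limit: images of points outside level `n` -/
lemma out_lev (hK : IsCompact K) (hf : Full K) (hG : Fine K (𝔊 : Filter Str)) {g : ℂ → ℂ}
    (hg : TendstoLocallyUniformlyOn (kF h) g (𝔊 : Filter Str) Kᶜ) {w : ℂ} (hw : w ∉ g '' Kᶜ)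
    (n : ℕ) : ∀ᶠ S in (𝔊 : Filter Str), w ∉ kT h S (lev K n)ᶜ := by
  by_contra hcon
  rw [Ultrafilter.eventually_not, not_not] at hcon
  obtain ⟨R, hR, hRK⟩ := lev_bdd hK 0
  have hexh : Exh (𝔊 : Filter Str) Kᶜ (fun S : Str => (⋃₀ S.1)ᶜ) (kF h) R := hG.exh hK hf hR hRK
  have h1 : ∀ᶠ S : Str in (𝔊 : Filter Str), ∃ z, z ∉ lev K n ∧ z ∉ (⋃₀ S.1 : Set ℂ) ∧
      kF h S z = w := by
    filter_upwards [hcon, hG n] with S hS hS2
    rcases hS with ⟨z, ⟨hz1, hz2⟩, hzw⟩ | hS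
    · exact ⟨z, hz1, hz2, hzw⟩
    · obtain ⟨P, ⟨hP, z, hz, hzP⟩, hwP⟩ := mem_iUnion₂.1 hS
      exact absurd (hS2 P hP hzP) hz
  have h2 : ∀ S : Str, ∃ z, (∃ z, z ∉ lev K n ∧ z ∉ ⋃₀ S.1 ∧ kF h S z = w) →
      z ∉ lev K n ∧ z ∉ ⋃₀ S.1 ∧ kF h S z = w := by
    intro S
    by_cases hS : ∃ z, z ∉ lev K n ∧ z ∉ ⋃₀ S.1 ∧ kF h S z = w
    · obtain ⟨z, hz⟩ := hS
      exact ⟨z, fun _ => hz⟩
    · exact ⟨0, fun h => absurd h hS⟩
  choose ζ hζ using h2
  have h3 : ∀ᶠ S in (𝔊 : Filter Str), ζ S ∉ lev K n ∧ ζ S ∉ ⋃₀ S.1 ∧ kF h S (ζ S) = w := by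
    filter_upwards [h1] with S hS using hζ S hS
  have hbd : ∀ᶠ S in (𝔊 : Filter Str), ζ S ∈ closedBall (0:ℂ) (2 * R + ‖w‖ + 12 * R) := by
    filter_upwards [h3, hexh.vtail] with S hS hS2
    rw [mem_closedBall, dist_zero_right]
    by_contra hlt
    rw [not_le] at hlt
    have hw0 := norm_nonneg w
    have h4 := (kmap h S).nu.tail hR hS2 (z := ζ S) (by linarith)
    rw [hS.2.2] at h4
    have h5 : 24 * R ^ 2 / ‖ζ S‖ ≤ 12 * R := by
      rw [div_le_iff₀ (by linarith)]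
      nlinarith
    have h6 : ‖ζ S‖ ≤ ‖w - ζ S‖ + ‖w‖ := by
      rw [norm_sub_rev]
      have := norm_add_le (ζ S - w) w
      rwa [sub_add_cancel] at this
    linarith
  obtain ⟨z₀, -, hz₀⟩ := (isCompact_closedBall (0 : ℂ) (2 * R + ‖w‖ + 12 * R)).ultrafilter_le_nhds
    (𝔊.map ζ) (by
      rw [le_principal_iff, Ultrafilter.coe_map, Filter.mem_map]
      exact hbd)
  have hz₀' : Tendsto ζ 𝔊 (𝓝 z₀) := hz₀
  have hz₀K : z₀ ∈ Kᶜ := by
    intro hmem
    have h4 : ∀ᶠ S in (𝔊 : Filter Str), ζ S ∈ ball z₀ (lr n) :=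
      hz₀'.eventually (ball_mem_nhds _ (lr_pos n))
    obtain ⟨S, hS1, hS2⟩ := (h3.and h4).exists
    exact hS1.1 (closedBall_subset_lev hmem n (ball_subset_closedBall hS2))
  have hgc : ContinuousWithinAt g Kᶜ z₀ := (hexh.lim_diff hg).continuousOn z₀ hz₀K
  have h5 : Tendsto (fun S => kF h S (ζ S)) 𝔊 (𝓝 (g z₀)) := by
    refine hg.tendsto_comp hgc hz₀K ?_
    rw [tendsto_nhdsWithin_iff]
    refine ⟨hz₀', ?_⟩
    filter_upwards [h3] with S hS hmem
    exact hS.1 (subset_lev n hmem)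
  have h6 : Tendsto (fun S => kF h S (ζ S)) 𝔊 (𝓝 w) :=
    tendsto_const_nhds.congr' (by filter_upwards [h3] with S hS using hS.2.2.symm)
  exact hw ⟨z₀, hz₀K, tendsto_nhds_unique h5 h6⟩

/-- holes inside a level lie in nodes -/
lemma hole_in_node (hK : IsCompact K) (S : Str) {n : ℕ} (hS : ∀ P ∈ S.1, P ⊆ lev K n)
    {x : ℂ} {P : Set ℂ} (hP : P ∈ S.1) (hne : (nd K n x ∩ P).Nonempty) : P ⊆ nd K n x := by
  obtain ⟨y, hy, hyP⟩ := hne
  rw [← nd_eq hy]
  exact (S.2.conn P hP).isPreconnected.subset_connectedComponentIn hyP (hS P hP)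

lemma kT_nd_disjoint (hK : IsCompact K) (S : Str) {n : ℕ} (hS : ∀ P ∈ S.1, P ⊆ lev K n)
    {x y : ℂ} (hxy : nd K n x ≠ nd K n y) : Disjoint (kT h S (nd K n x)) (kT h S (nd K n y)) := by
  have hd : Disjoint (nd K n x) (nd K n y) := by
    rw [disjoint_left]
    intro z hz hz2
    exact hxy ((nd_eq hz).symm.trans (nd_eq hz2))
  have hmap := kmap h S
  rw [disjoint_left]
  rintro w (⟨z, ⟨hz1, hz2⟩, rfl⟩ | hw) hw2
  · rcases hw2 with ⟨z', ⟨hz1', hz2'⟩, hzz⟩ | hw2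
    · have := hmap.nu.inj hz2' hz2 hzz
      rw [this] at hz1'
      exact disjoint_left.1 hd hz1 hz1'
    · obtain ⟨P, ⟨hP, -⟩, hwP⟩ := mem_iUnion₂.1 hw2
      exact hmap.notMem hz2 hP hwP
  · obtain ⟨P, ⟨hP, hPx⟩, hwP⟩ := mem_iUnion₂.1 hw
    rcases hw2 with ⟨z', ⟨hz1', hz2'⟩, hzz⟩ | hw2
    · exact hmap.notMem hz2' hP (hzz ▸ hwP)
    · obtain ⟨P', ⟨hP', hPy⟩, hwP'⟩ := mem_iUnion₂.1 hw2
      by_cases hPP : P = P'
      · subst hPP
        obtain ⟨z, hz, hzP⟩ := hPx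
        exact disjoint_left.1 hd hz (hole_in_node hK S hS hP hPy hzP)
      · exact disjoint_left.1 (hmap.disj P hP P' hP' hPP) hwP hwP'

/-- each omitted value belongs to a node, at each level -/
lemma exists_node_val (hK : IsCompact K) (hf : Full K) (hG : Fine K (𝔊 : Filter Str)) {g : ℂ → ℂ}
    (hg : TendstoLocallyUniformlyOn (kF h) g (𝔊 : Filter Str) Kᶜ) {w : ℂ} (hw : w ∉ g '' Kᶜ)
    (n : ℕ) : ∃ x ∈ K, ∀ᶠ S in (𝔊 : Filter Str), w ∈ kT h S (nd K n x) := by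
  by_contra hcon
  push Not at hcon
  have h1 : ∀ Q ∈ nodes K n, ∀ᶠ S in (𝔊 : Filter Str), w ∉ kT h S Q := by
    rintro _ ⟨x, hx, rfl⟩
    exact hcon x hx
  have h2 := (eventually_all_finite (finite_nodes hK n)).2 h1
  obtain ⟨S, hS1, hS2⟩ := (h2.and (out_lev hK hf hG hg hw n)).exists
  have h3 : w ∈ kT h S univ := by
    rw [kT, Tm_univ (kmap h S) S.2]
    trivial
  have h4 : (univ : Set ℂ) = (lev K n)ᶜ ∪ lev K n := by rw [compl_union_self]
  rw [h4, kT, Tm_union] at h3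
  rcases h3 with h3 | h3
  · exact hS2 h3
  · rw [lev_eq hK n] at h3
    rcases h3 with ⟨z, ⟨hz1, hz2⟩, hzw⟩ | h3
    · obtain ⟨Q, hQ, hzQ⟩ := mem_iUnion₂.1 hz1
      exact hS1 Q hQ (Or.inl ⟨z, ⟨hzQ, hz2⟩, hzw⟩)
    · obtain ⟨P, ⟨hP, z, hz1, hzP⟩, hwP⟩ := mem_iUnion₂.1 h3
      obtain ⟨Q, hQ, hzQ⟩ := mem_iUnion₂.1 hz1
      exact hS1 Q hQ (Or.inr (mem_iUnion₂.2 ⟨P, ⟨hP, z, hzQ, hzP⟩, hwP⟩))

/-- the node is locally constant -/
lemma ball_in_node (hK : IsCompact K) (hf : Full K) (hG : Fine K (𝔊 : Filter Str)) {g : ℂ → ℂ}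
    (hg : TendstoLocallyUniformlyOn (kF h) g (𝔊 : Filter Str) Kᶜ) {w : ℂ} (hw : w ∉ g '' Kᶜ)
    {n : ℕ} {x : ℂ} (hx : ∀ᶠ S in (𝔊 : Filter Str), w ∈ kT h S (nd K n x)) :
    ∃ δ > 0, ∀ᶠ S in (𝔊 : Filter Str), ball w δ ⊆ kT h S (nd K n x) := by
  obtain ⟨R, hR, hRK⟩ := lev_bdd hK 0
  have hexh : Exh (𝔊 : Filter Str) Kᶜ (fun S : Str => (⋃₀ S.1)ᶜ) (kF h) R := hG.exh hK hf hR hRK
  set E := frontier (nd K n x) with hE
  have hEK : Disjoint E K := frontier_nd_disjoint n x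
  have hEc : IsCompact E := (isCompact_nd hK n x).of_isClosed_subset isClosed_frontier
    ((isCompact_nd hK n x).isClosed.frontier_subset)
  have hEsub : E ⊆ Kᶜ := fun z hz => disjoint_left.1 hEK hz
  have hgE : IsCompact (g '' E) :=
    hEc.image_of_continuousOn ((hexh.lim_diff hg).continuousOn.mono hEsub)
  have hwE : w ∈ (g '' E)ᶜ := fun hmem => hw (image_mono hEsub hmem)
  obtain ⟨δ, hδ, hδw⟩ := Metric.isOpen_iff.1 hgE.isClosed.isOpen_compl w hwE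
  have hunif : ∀ᶠ S in (𝔊 : Filter Str), ∀ z ∈ E, dist (g z) (kF h S z) < δ / 2 := by
    have h1 := (tendstoLocallyUniformlyOn_iff_forall_isCompact hK.isClosed.isOpen_compl).1 hg E
      hEsub hEc
    exact Metric.tendstoUniformlyOn_iff.1 h1 (δ / 2) (by positivity)
  refine ⟨δ / 2, by positivity, ?_⟩
  filter_upwards [hx, hunif, hG.disj hK hf hEc hEK] with S h1 h2 h3
  refine (kmap h S).subset_Tm S.2 (convex_ball w (δ / 2)).isPreconnected
    ⟨w, mem_ball_self (by positivity), h1⟩ ?_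
  rw [disjoint_left]
  rintro y hy (⟨z, ⟨hz1, hz2⟩, rfl⟩ | hy2)
  · refine hδw ?_ ⟨z, hz1, rfl⟩
    have h4 := h2 z hz1
    rw [mem_ball] at hy ⊢
    linarith [dist_triangle (g z) (kF h S z) w]
  · obtain ⟨P, ⟨hP, z, hz, hzP⟩, -⟩ := mem_iUnion₂.1 hy2
    exact disjoint_left.1 h3 hz ⟨P, hP, hzP⟩

/-- **Assembly**: if every point is good, then the limit domain is a circle domain -/
theorem assembly (hK : IsCompact K) (hf : Full K) (hG : Fine K (𝔊 : Filter Str)) {g : ℂ → ℂ}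
    (hg : TendstoLocallyUniformlyOn (kF h) g (𝔊 : Filter Str) Kᶜ)
    (hgood : ∀ x ∈ K, GoodAt h K (𝔊 : Filter Str) x) {w : ℂ} (hw : w ∉ g '' Kᶜ) :
    ∃ c : ℂ, ∃ r : ℝ, 0 ≤ r ∧ connectedComponentIn (g '' Kᶜ)ᶜ w = closedBall c r := by
  have hnode := exists_node_val hK hf hG hg hw
  choose ξ hξK hξ using hnode
  have hanti : ∀ n, nd K (n + 1) (ξ (n + 1)) ⊆ nd K n (ξ n) := by
    intro n
    have h1 : nd K (n + 1) (ξ (n + 1)) ⊆ nd K n (ξ (n + 1)) := nd_anti (Nat.le_succ n)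
    by_cases heq : nd K n (ξ (n + 1)) = nd K n (ξ n)
    · rw [← heq]
      exact h1
    · exfalso
      obtain ⟨S, ⟨hS1, hS2⟩, hS3⟩ := (((hξ (n + 1)).and (hξ n)).and (hG n)).exists
      exact disjoint_left.1 (kT_nd_disjoint (h := h) hK S hS3 heq) (Tm_mono h1 hS1) hS2
  obtain ⟨x, hx⟩ : (⋂ n, nd K n (ξ n) ∩ K).Nonempty := by
    refine IsCompact.nonempty_iInter_of_sequence_nonempty_isCompact_isClosed
      (fun n => nd K n (ξ n) ∩ K) (fun n => inter_subset_inter_left _ (hanti n))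
      (fun n => ⟨ξ n, mem_nd (hξK n) n, hξK n⟩) ((isCompact_nd hK 0 _).inter_right hK.isClosed)
      (fun n => ((isCompact_nd hK n _).inter_right hK.isClosed).isClosed)
  have hxK : x ∈ K := (mem_iInter.1 hx 0).2
  have hxn : ∀ n, nd K n x = nd K n (ξ n) := fun n => nd_eq (mem_iInter.1 hx n).1
  obtain ⟨c, r, hr, hG1, hG2⟩ := hgood x hxK
  refine ⟨c, r, hr, ?_⟩
  have hmem : ∀ v, (∀ n, ∀ᶠ S in (𝔊 : Filter Str), v ∈ kT h S (nd K n x)) → v ∈ closedBall c r := by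
    intro v hv
    rw [mem_closedBall]
    refine le_of_forall_pos_le_add fun ε hε => ?_
    obtain ⟨n, hn⟩ := hG1 ε hε
    obtain ⟨S, hS1, hS2⟩ := ((hv n).and hn).exists
    exact hS2 hS1
  have hw1 : ∀ n, ∀ᶠ S in (𝔊 : Filter Str), w ∈ kT h S (nd K n x) := by
    intro n
    rw [hxn n]
    exact hξ n
  have hball : closedBall c r ⊆ (g '' Kᶜ)ᶜ := by
    rintro v hv ⟨z, hz, rfl⟩
    obtain ⟨δ, hδ, hev⟩ := hG2 z hz
    have h1 : Tendsto (fun S => ‖kF h S z - c‖) 𝔊 (𝓝 ‖g z - c‖) :=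
      ((hg.tendsto_at hz).sub_const c).norm
    have h2 : r + δ ≤ ‖g z - c‖ := ge_of_tendsto h1 (hev.mono fun S hS => hS.le)
    rw [mem_closedBall, dist_eq_norm] at hv
    linarith
  apply Subset.antisymm
  · intro v hv
    refine hmem v fun n => ?_
    set E := connectedComponentIn (g '' Kᶜ)ᶜ w with hE
    have hEsub : E ⊆ (g '' Kᶜ)ᶜ := connectedComponentIn_subset _ _
    -- open sets
    set UU : ℂ → Set ℂ := fun y => {v | ∃ δ > 0, ∀ᶠ S in (𝔊 : Filter Str),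
      ball v δ ⊆ kT h S (nd K n y)} with hUU
    have hopen : ∀ y, IsOpen (UU y) := by
      intro y
      rw [Metric.isOpen_iff]
      rintro v ⟨δ, hδ, hv⟩
      refine ⟨δ / 2, by positivity, fun u hu => ⟨δ / 2, by positivity, ?_⟩⟩
      filter_upwards [hv] with S hS
      refine Subset.trans (ball_subset_ball' ?_) hS
      rw [mem_ball] at hu
      linarith
    have hsep : ∀ y y', nd K n y ≠ nd K n y' → Disjoint (UU y) (UU y') := by
      intro y y' hne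
      rw [disjoint_left]
      rintro v ⟨δ, hδ, hv⟩ ⟨δ', hδ', hv'⟩
      obtain ⟨S, ⟨hS1, hS2⟩, hS3⟩ := ((hv.and hv').and (hG n)).exists
      exact disjoint_left.1 (kT_nd_disjoint (h := h) hK S hS3 hne) (hS1 (mem_ball_self hδ))
        (hS2 (mem_ball_self hδ'))
    have hwU : w ∈ UU x := ball_in_node hK hf hG hg hw (hw1 n)
    have hcov : E ⊆ UU x ∪ ⋃ y ∈ {y | nd K n y ≠ nd K n x}, UU y := by
      intro u hu
      obtain ⟨y, -, hy⟩ := exists_node_val hK hf hG hg (hEsub hu) n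
      have hyU : u ∈ UU y := ball_in_node hK hf hG hg (hEsub hu) hy
      by_cases heq : nd K n y = nd K n x
      · left
        simp only [hUU, mem_ofPred_eq] at hyU ⊢
        rwa [heq] at hyU
      · exact Or.inr (mem_iUnion₂.2 ⟨y, heq, hyU⟩)
    have h2 := isPreconnected_iff_subset_of_disjoint.1
      (isPreconnected_connectedComponentIn (F := (g '' Kᶜ)ᶜ) (x := w)) (UU x)
      (⋃ y ∈ {y | nd K n y ≠ nd K n x}, UU y) (hopen x)
      (isOpen_biUnion fun y _ => hopen y) hcov (by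
        rw [eq_empty_iff_forall_notMem]
        rintro u ⟨-, hu1, hu2⟩
        obtain ⟨y, hy, hu3⟩ := mem_iUnion₂.1 hu2
        exact disjoint_left.1 (hsep x y (fun h => hy h.symm)) hu1 hu3)
    rcases h2 with h2 | h2
    · obtain ⟨δ, hδ, hv2⟩ := h2 hv
      filter_upwards [hv2] with S hS using hS (mem_ball_self hδ)
    · exfalso
      obtain ⟨y, hy, hu3⟩ := mem_iUnion₂.1 (h2 (mem_connectedComponentIn hw))
      exact disjoint_left.1 (hsep x y (fun h => hy h.symm)) hwU hu3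
  · exact (convex_closedBall c r).isPreconnected.subset_connectedComponentIn (hmem w hw1) hball

end

end Vale.Agent.P116.H906
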