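import Mathlib
import Vale.Agent.P116.H906.LL
import Vale.Agent.P116.H906.Asm

/-!
The packing condition at a point, and the choice of annuli.
-/

open Set Filter Topology Metric Bornology MeasureTheory
open scoped Real

namespace Vale.Agent.P116.H906

/-- the components of `K` -/
def comps (K : Set ℂ) : Set (Set ℂ) := connectedComponentIn K '' K

/-- packing bound at radius `r` -/
def PBr (K : Set ℂ) (x : ℂ) (C r : ℝ) : Prop :=
  ∀ T : Finset (Set ℂ), (∀ p ∈ T, p ∈ comps K ∧ x ∉ p) → ∑ p ∈ T, exten x p r ^ 2 ≤ C * r ^ 2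

/-- packing condition at `x`: lower limit of the packing sums is finite -/
def PB (K : Set ℂ) (x : ℂ) : Prop := ∃ C : ℝ, ∃ᶠ r in 𝓝[>] (0:ℝ), PBr K x C r

variable {K : Set ℂ}

lemma comps_isCompact (hK : IsCompact K) {p : Set ℂ} (hp : p ∈ comps K) : IsCompact p := by
  obtain ⟨x, _, rfl⟩ := hp
  exact isCompact_comp hK x

lemma comps_isPreconnected {p : Set ℂ} (hp : p ∈ comps K) : IsPreconnected p := by
  obtain ⟨x, _, rfl⟩ := hp
  exact isPreconnected_connectedComponentIn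

lemma comps_eq {p : Set ℂ} (hp : p ∈ comps K) {x : ℂ} (hx : x ∈ p) :
    p = connectedComponentIn K x := by
  obtain ⟨y, _, rfl⟩ := hp
  exact connectedComponentIn_eq hx

lemma exten_cross {x : ℂ} {p : Set ℂ} (hp : IsPreconnected p) {r : ℝ} (hr : 0 < r) {w₁ w₂ : ℂ}
    (h1 : w₁ ∈ p) (h2 : w₂ ∈ p) (hw1 : dist w₁ x ≤ r) (hw2 : 2 * r ≤ dist w₂ x) :
    exten x p r = r := by
  have h3 : IsPreconnected ((fun w => dist w x) '' p) :=
    hp.image _ (continuous_id.dist continuous_const).continuousOn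
  have h4 : Ioo r (2 * r) ∩ {ρ | (p ∩ sphere x ρ).Nonempty} = Ioo r (2 * r) := by
    refine inter_eq_left.2 fun ρ hρ => ?_
    obtain ⟨w, hw, hwρ⟩ := h3.ordConnected.out ⟨w₁, h1, rfl⟩ ⟨w₂, h2, rfl⟩
      ⟨hw1.trans hρ.1.le, hρ.2.le.trans hw2⟩
    exact ⟨w, hw, hwρ⟩
  rw [exten, h4, Real.volume_real_Ioo_of_le (by linarith)]
  ring

/-- components reaching far do not come close -/
lemma sel_step (hK : IsCompact K) {x : ℂ} {C : ℝ} (hPB : ∃ᶠ r in 𝓝[>] (0:ℝ), PBr K x C r)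
    {s : ℝ} (hs : 0 < s) : ∀ᶠ t in 𝓝[>] (0:ℝ), ∀ p ∈ comps K, x ∉ p → (∃ w ∈ p, s ≤ dist w x) →
      ∀ w ∈ p, t < dist w x := by
  have h1 : ∀ᶠ r in 𝓝[>] (0:ℝ), r < s / 2 := by
    filter_upwards [Ioo_mem_nhdsGT (show (0:ℝ) < s / 2 by positivity)] with r hr using hr.2
  obtain ⟨r, ⟨hr1, hr2⟩, hr0⟩ := ((hPB.and_eventually h1).and_eventually
    (self_mem_nhdsWithin : Ioi (0:ℝ) ∈ 𝓝[>] 0)).exists
  have hr0' : 0 < r := hr0
  set Bad : Set (Set ℂ) := {p | p ∈ comps K ∧ x ∉ p ∧ (∃ w ∈ p, s ≤ dist w x) ∧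
    ∃ w ∈ p, dist w x ≤ r} with hBad
  have hfin : Bad.Finite := by
    by_contra hinf
    have hinf' : Bad.Infinite := hinf
    obtain ⟨n, hn⟩ := exists_nat_gt C
    obtain ⟨T, hT, hTn⟩ := hinf'.exists_subset_card_eq n
    have h2 := hr1 T (fun p hp => ⟨(hT hp).1, (hT hp).2.1⟩)
    have h3 : ∑ p ∈ T, exten x p r ^ 2 = n * r ^ 2 := by
      rw [Finset.sum_congr rfl (g := fun _ => r ^ 2), Finset.sum_const, hTn, nsmul_eq_mul]
      intro p hp
      obtain ⟨hp1, hp2, ⟨w₂, hw2, hw2'⟩, ⟨w₁, hw1, hw1'⟩⟩ := hT hp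
      rw [exten_cross (comps_isPreconnected hp1) hr0' hw1 hw2 hw1' (by linarith)]
    rw [h3] at h2
    have := le_of_mul_le_mul_right h2 (by positivity)
    linarith
  have h4 : ∀ᶠ t in 𝓝[>] (0:ℝ), ∀ p ∈ Bad, ∀ w ∈ p, t < dist w x := by
    rw [eventually_all_finite hfin]
    intro p hp
    have hpc : IsCompact p := comps_isCompact hK hp.1
    have hne : p.Nonempty := by
      obtain ⟨w, hw, -⟩ := hp.2.2.1
      exact ⟨w, hw⟩
    have h5 : 0 < infDist x p :=
      (hpc.isClosed.notMem_iff_infDist_pos hne).1 hp.2.1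
    filter_upwards [Ioo_mem_nhdsGT h5] with t ht w hw
    rw [dist_comm]
    exact ht.2.trans_le (infDist_le_dist_of_mem hw)
  filter_upwards [h4, Ioo_mem_nhdsGT hr0'] with t ht1 ht2 p hp hxp hfar w hw
  by_cases hclose : ∃ w ∈ p, dist w x ≤ r
  · exact ht1 p ⟨hp, hxp, hfar, hclose⟩ w hw
  · push Not at hclose
    exact ht2.2.trans (hclose w hw)

/-- choice of annuli -/
theorem sel (hK : IsCompact K) {x : ℂ} {C : ℝ} (hPB : ∃ᶠ r in 𝓝[>] (0:ℝ), PBr K x C r)
    {ρ₀ : ℝ} (hρ₀ : 0 < ρ₀) : ∃ r : ℕ → ℝ, (∀ k, 0 < r k ∧ 2 * r k < ρ₀ ∧ PBr K x C (r k)) ∧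
      (∀ k l, k ≠ l → Disjoint (ann x (r k)) (ann x (r l))) ∧
      ∀ p ∈ comps K, x ∉ p → ∀ k l, (p ∩ ann x (r k)).Nonempty → (p ∩ ann x (r l)).Nonempty →
        k = l := by
  have step : ∀ s > 0, ∃ t, 0 < t ∧ 2 * t < s ∧ PBr K x C t ∧
      ∀ p ∈ comps K, x ∉ p → (∃ w ∈ p, s ≤ dist w x) → ∀ w ∈ p, 2 * t < dist w x := by
    intro s hs
    have h1 := sel_step hK hPB hs
    have h2 : Tendsto (fun t : ℝ => 2 * t) (𝓝[>] 0) (𝓝[>] 0) := by
      rw [tendsto_nhdsWithin_iff]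
      constructor
      · have : Tendsto (fun t : ℝ => 2 * t) (𝓝 0) (𝓝 (2 * 0)) := tendsto_id.const_mul 2
        rw [mul_zero] at this
        exact this.mono_left nhdsWithin_le_nhds
      · filter_upwards [self_mem_nhdsWithin] with t ht
        have : (0:ℝ) < t := ht
        exact mul_pos two_pos this
    have h3 := h2.eventually h1
    have h4 := h2.eventually (Ioo_mem_nhdsGT hs)
    obtain ⟨t, ⟨⟨ht1, ht2⟩, ht3⟩, ht4⟩ := (((hPB.and_eventually h3).and_eventually h4).and_eventually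
      (self_mem_nhdsWithin : Ioi (0:ℝ) ∈ 𝓝[>] 0)).exists
    exact ⟨t, ht4, ht3.2, ht1, ht2⟩
  choose! T hT0 hT1 hT2 hT3 using step
  set r : ℕ → ℝ := fun k => Nat.rec (T ρ₀) (fun _ s => T s) k with hr
  have hr0 : r 0 = T ρ₀ := rfl
  have hrs : ∀ k, r (k + 1) = T (r k) := fun k => rfl
  have hpos : ∀ k, 0 < r k := by
    intro k
    induction k with
    | zero => exact hT0 _ hρ₀
    | succ k ih => rw [hrs]; exact hT0 _ ih
  have hdec : ∀ k l, k < l → 2 * r l < r k := by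
    intro k l hkl
    induction l with
    | zero => exact absurd hkl (Nat.not_lt_zero k)
    | succ l ih =>
      rw [hrs]
      rcases Nat.lt_succ_iff_lt_or_eq.1 hkl with h | h
      · have h1 := hT1 _ (hpos l)
        have h2 := ih h
        linarith [hpos l]
      · rw [h]
        exact hT1 _ (hpos l)
  have hsep : ∀ k l, k < l → ∀ p ∈ comps K, x ∉ p → (∃ w ∈ p, r k ≤ dist w x) →
      ∀ w ∈ p, 2 * r l < dist w x := by
    intro k l hkl p hp hxp hfar w hw
    have h1 := hT3 (r k) (hpos k) p hp hxp hfar w hw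
    rw [← hrs] at h1
    rcases Nat.lt_or_ge (k + 1) l with h | h
    · have := hdec (k + 1) l h
      linarith [hpos l, hpos (k + 1)]
    · have : l = k + 1 := le_antisymm h hkl
      rw [this]
      exact h1
  refine ⟨r, fun k => ⟨hpos k, ?_, ?_⟩, ?_, ?_⟩
  · cases k with
    | zero => rw [hr0]; exact hT1 _ hρ₀
    | succ k =>
      have h1 := hdec 0 (k + 1) (Nat.succ_pos k)
      have h2 : 2 * r 0 < ρ₀ := by rw [hr0]; exact hT1 _ hρ₀
      linarith [hpos 0]
  · cases k with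
    | zero => rw [hr0]; exact hT2 _ hρ₀
    | succ k => rw [hrs]; exact hT2 _ (hpos k)
  · have key : ∀ k l, k < l → Disjoint (ann x (r k)) (ann x (r l)) := by
      intro k l hkl
      rw [disjoint_left]
      intro w hw1 hw2
      have h1 : r k < dist w x := hw1.1
      have h2 : dist w x < 2 * r l := hw2.2
      linarith [hdec k l hkl]
    intro k l hkl
    rcases lt_or_gt_of_ne hkl with h | h
    · exact key k l h
    · exact (key l k h).symm
  · intro p hp hxp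
    have key : ∀ k l, k < l → (p ∩ ann x (r k)).Nonempty → (p ∩ ann x (r l)).Nonempty → False := by
      rintro k l hkl ⟨w1, hw1, hw1'⟩ ⟨w2, hw2, hw2'⟩
      have h1 : r k < dist w1 x := hw1'.1
      have h2 : dist w2 x < 2 * r l := hw2'.2
      have h3 := hsep k l hkl p hp hxp ⟨w1, hw1, h1.le⟩ w2 hw2
      linarith
    intro k l h1 h2
    by_contra hkl
    rcases lt_or_gt_of_ne hkl with h | h
    · exact key k l h h1 h2
    · exact key l k h h2 h1

end Vale.Agent.P116.H906
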