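import Mathlib
import Vale.Agent.P116.H906.Sel

/-!
Local estimate at points with the packing condition, and goodness.
-/

open Set Filter Topology Metric Bornology MeasureTheory
open scoped Real

namespace Vale.Agent.P116.H906

variable {K : Set ℂ}

lemma isPreconnected_sphere' (y : ℂ) (ρ : ℝ) : IsPreconnected (sphere y ρ) :=
  isPreconnected_sphere (by rw [Complex.rank_real_complex]; norm_num) y ρ

theorem loc (h : FK) (hK : IsCompact K) {y : ℂ} {C : ℝ}
    (hPB : ∃ᶠ r in 𝓝[>] (0:ℝ), PBr K y C r) {ρ₀ R ε : ℝ} (hρ₀ : 0 < ρ₀) (hR : 0 < R)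
    (hε : 0 < ε) : ∃ ρ₁ > 0, ρ₁ < ρ₀ ∧ ∀ S : Str, ⋃₀ S.1 ⊆ closedBall 0 R →
      (∀ P ∈ S.1, (P ∩ ball y ρ₀).Nonempty → P ∈ comps K) →
      (∀ P ∈ S.1, y ∈ P → kT h S (ball y ρ₁) ⊆ closedBall (kc h S P) (kr h S P + ε)) ∧
      (y ∉ ⋃₀ S.1 → kT h S (ball y ρ₁) ⊆ closedBall (kF h S y) ε) := by
  classical
  set R' : ℝ := R + ‖y‖ + ρ₀ + 1 with hR'
  have hy0 := norm_nonneg y
  have hR'0 : 0 < R' := by positivity
  set M : ℝ := 5 * R' with hM
  have hM0 : 0 ≤ M := by positivity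
  obtain ⟨m, hm0, hm⟩ : ∃ m : ℕ, 0 < m ∧ π * M ^ 2 + 2 * π + C + 1 ≤ ε / 2 * √m := by
    have h1 : Tendsto (fun m : ℕ => ε / 2 * √(m:ℝ)) atTop atTop :=
      (Real.tendsto_sqrt_atTop.comp tendsto_natCast_atTop_atTop).const_mul_atTop (by positivity)
    obtain ⟨m, hm1, hm2⟩ := ((h1.eventually_ge_atTop (π * M ^ 2 + 2 * π + C + 1)).and
      (eventually_gt_atTop 0)).exists
    exact ⟨m, hm2, hm1⟩
  obtain ⟨r, hr1, hr2, hr3⟩ := sel hK hPB hρ₀
  obtain ⟨k₀, hk₀, hmin⟩ := (Finset.range m).exists_min_image r ⟨0, by simpa using hm0⟩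
  refine ⟨r k₀, (hr1 k₀).1, by linarith [(hr1 k₀).1, (hr1 k₀).2.1], fun S hSR hSc => ?_⟩
  set f := kF h S with hfdef
  have hmap := kmap h S
  set O : Set ℂ := (⋃₀ S.1)ᶜ with hO
  have hOo : IsOpen O := S.2.isOpen_compl
  set J : Finset (Set ℂ) := S.2.fin.toFinset.filter (fun P => y ∉ P ∧ (P ∩ ball y ρ₀).Nonempty)
    with hJ
  have hJm : ∀ P, P ∈ J ↔ P ∈ S.1 ∧ y ∉ P ∧ (P ∩ ball y ρ₀).Nonempty := by
    intro P
    simp [hJ]
  have hSR' : ⋃₀ S.1 ⊆ closedBall 0 R' := hSR.trans (closedBall_subset_closedBall (by linarith))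
  have hTb : kT h S (ball 0 R') ⊆ closedBall 0 M := hmap.Tm_bound S.2 hR'0 hSR'
  have hannb : ∀ k, ann y (r k) ⊆ ball y ρ₀ := fun k w hw => by
    have : dist w y < 2 * r k := hw.2
    exact this.trans (hr1 k).2.1
  have hballb : ball y ρ₀ ⊆ ball 0 R' := by
    refine ball_subset_ball' ?_
    rw [dist_zero_right]
    linarith
  have hPb : ∀ P ∈ S.1, closedBall (kc h S P) (kr h S P) ⊆ closedBall 0 M := by
    intro P hP w hw
    obtain ⟨z, hz⟩ := (S.2.conn P hP).nonempty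
    refine hTb (Or.inr (mem_iUnion₂.2 ⟨P, ⟨hP, z, ?_, hz⟩, hw⟩))
    have := hSR (subset_sUnion_of_mem hP hz)
    rw [mem_closedBall] at this
    rw [mem_ball]
    linarith
  obtain ⟨k, hk, ρ, hρ, hvol⟩ := length_area J (Q := fun P => P) (c := kc h S) (s := kr h S)
    hOo hmap.nu.diff hmap.nu.inj (fun P hP => (hmap.rpos P ((hJm P).1 hP).1).le)
    (fun P hP => S.2.cpt P ((hJm P).1 hP).1)
    (fun P hP P' hP' hne => hmap.disj P ((hJm P).1 hP).1 P' ((hJm P').1 hP').1 hne)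
    (fun P hP => by
      rw [disjoint_left]
      rintro w hw ⟨z, hz, rfl⟩
      exact hmap.notMem hz ((hJm P).1 hP).1 hw)
    hM0 (fun P hP => hPb P ((hJm P).1 hP).1) (x := y) hm0 (fun k _ => (hr1 k).1)
    (fun k _ l _ hkl => hr2 k l hkl)
    (fun k _ => by
      rintro _ ⟨z, ⟨hz, hzO⟩, rfl⟩
      exact hTb (Or.inl ⟨z, ⟨hballb (hannb k hz), hzO⟩, rfl⟩))
    (fun P hP k _ l _ h1 h2 => by
      obtain ⟨hP1, hP2, hP3⟩ := (hJm P).1 hP
      exact hr3 P (hSc P hP1 hP3) hP2 k l h1 h2)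
    (C := C) (fun k _ => by
      refine (hr1 k).2.2 J fun P hP => ?_
      obtain ⟨hP1, hP2, hP3⟩ := (hJm P).1 hP
      exact ⟨hSc P hP1 hP3, hP2⟩)
    (ε := ε / 2) (by positivity) hm
  set E := f '' (sphere y ρ ∩ O) ∪
        ⋃ j ∈ {j | j ∈ J ∧ (j ∩ sphere y ρ).Nonempty}, closedBall (kc h S j) (kr h S j) with hE
  have hρpos : 0 < ρ := (hr1 k).1.trans hρ.1
  have hρρ₀ : ρ < ρ₀ := hρ.2.trans (hr1 k).2.1
  have hsph : sphere y ρ ⊆ ball y ρ₀ := fun w hw => by
    rw [mem_ball, mem_sphere.1 hw]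
    exact hρρ₀
  have hfr : frontier (ball y ρ) = sphere y ρ := frontier_ball _ hρpos.ne'
  have hsub : ball y (r k₀) ⊆ ball y ρ :=
    ball_subset_ball ((hmin k (by simpa using hk)).trans hρ.1.le)
  have hΓc : IsPreconnected (kT h S (sphere y ρ)) := hmap.push S.2 (isPreconnected_sphere' y ρ)
  obtain ⟨z₁, hz₁⟩ : (sphere y ρ).Nonempty := NormedSpace.sphere_nonempty.2 hρpos.le
  obtain ⟨w₀, hw₀⟩ : (kT h S (sphere y ρ)).Nonempty := by
    by_cases hz : z₁ ∈ ⋃₀ S.1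
    · obtain ⟨P, hP, hzP⟩ := hz
      exact ⟨kc h S P, Or.inr (mem_iUnion₂.2 ⟨P, ⟨hP, z₁, hz₁, hzP⟩,
        mem_closedBall_self (hmap.rpos P hP).le⟩)⟩
    · exact ⟨f z₁, Or.inl ⟨z₁, ⟨hz₁, hz⟩, rfl⟩⟩
  have hΓE : ∀ w ∈ kT h S (sphere y ρ), w ∈ E ∨ ∃ P ∈ S.1, y ∈ P ∧ (sphere y ρ ∩ P).Nonempty ∧
      w ∈ closedBall (kc h S P) (kr h S P) := by
    rintro w (⟨z, hz, rfl⟩ | hw)
    · exact Or.inl (Or.inl ⟨z, hz, rfl⟩)
    · obtain ⟨P, ⟨hP, z, hz, hzP⟩, hwP⟩ := mem_iUnion₂.1 hw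
      by_cases hyP : y ∈ P
      · exact Or.inr ⟨P, hP, hyP, ⟨z, hz, hzP⟩, hwP⟩
      · refine Or.inl (Or.inr (mem_iUnion₂.2 ⟨P, ⟨(hJm P).2 ⟨hP, hyP, z, hzP, hsph hz⟩,
          z, hzP, hz⟩, hwP⟩))
  have hEΓ : E ⊆ kT h S (sphere y ρ) := by
    rintro w (⟨z, hz, rfl⟩ | hw)
    · exact Or.inl ⟨z, hz, rfl⟩
    · obtain ⟨P, ⟨hP, z, hzP, hz⟩, hwP⟩ := mem_iUnion₂.1 hw
      exact Or.inr (mem_iUnion₂.2 ⟨P, ⟨((hJm P).1 hP).1, z, hz, hzP⟩, hwP⟩)
  -- if the circle does not meet the hole of `y`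
  have hnomeet : (∀ P ∈ S.1, y ∈ P → ¬ (sphere y ρ ∩ P).Nonempty) →
      kT h S (ball y ρ) ⊆ closedBall w₀ (ε / 2) := by
    intro hno
    have hEeq : kT h S (sphere y ρ) = E := by
      refine Subset.antisymm (fun w hw => ?_) hEΓ
      rcases hΓE w hw with h1 | ⟨P, hP, hyP, hne, -⟩
      · exact h1
      · exact absurd hne (hno P hP hyP)
    refine hmap.Tm_subset_closedBall S.2 isBounded_ball (by positivity) ?_
    rw [hfr]
    intro w hw
    rw [mem_closedBall]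
    change w ∈ kT h S (sphere y ρ) at hw
    rw [hEeq] at hw hw₀ hΓc
    exact dist_le_of_prj hΓc (by positivity) hvol hw hw₀
  refine ⟨fun P₀ hP₀ hyP₀ => ?_, fun hy => ?_⟩
  · have huniq : ∀ P ∈ S.1, y ∈ P → P = P₀ := by
      intro P hP hyP
      by_contra hne
      exact disjoint_left.1 (S.2.disj P hP P₀ hP₀ hne) hyP hyP₀
    have hr₀ := (hmap.rpos P₀ hP₀).le
    refine (Tm_mono hsub).trans ?_
    by_cases hmeet : (sphere y ρ ∩ P₀).Nonempty
    · have hEeq : kT h S (sphere y ρ) = E ∪ closedBall (kc h S P₀) (kr h S P₀) := by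
        refine Subset.antisymm (fun w hw => ?_) (union_subset hEΓ fun w hw => ?_)
        · rcases hΓE w hw with h1 | ⟨P, hP, hyP, hne, hwP⟩
          · exact Or.inl h1
          · rw [huniq P hP hyP] at hwP
            exact Or.inr hwP
        · exact Or.inr (mem_iUnion₂.2 ⟨P₀, ⟨hP₀, hmeet⟩, hw⟩)
      refine hmap.Tm_subset_closedBall S.2 isBounded_ball (by positivity) ?_
      rw [hfr]
      intro w hw
      change w ∈ kT h S (sphere y ρ) at hw
      rw [hEeq] at hw hΓc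
      rw [mem_closedBall]
      rcases hw with hw | hw
      · have := dist_le_of_prj_disk hr₀ hΓc (by positivity) hvol hw
        linarith
      · rw [mem_closedBall] at hw
        linarith
    · have h1 := hnomeet (fun P hP hyP => by rw [huniq P hP hyP]; exact hmeet)
      have h2 : kc h S P₀ ∈ kT h S (ball y ρ) := Or.inr (mem_iUnion₂.2
        ⟨P₀, ⟨hP₀, y, mem_ball_self hρpos, hyP₀⟩, mem_closedBall_self hr₀⟩)
      intro w hw
      have h3 := h1 hw
      have h4 := h1 h2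
      rw [mem_closedBall] at h3 h4 ⊢
      have := dist_triangle_right w (kc h S P₀) w₀
      linarith
  · refine (Tm_mono hsub).trans ?_
    have h1 := hnomeet (fun P hP hyP => absurd ⟨P, hP, hyP⟩ hy)
    have h2 : kF h S y ∈ kT h S (ball y ρ) := Or.inl ⟨y, ⟨mem_ball_self hρpos, hy⟩, rfl⟩
    intro w hw
    have h3 := h1 hw
    have h4 := h1 h2
    rw [mem_closedBall] at h3 h4 ⊢
    have := dist_triangle_right w (kF h S y) w₀
    linarith

/-- limits of disks omit the limit domain -/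
lemma omit_of_lim {h : FK} {𝔊 : Ultrafilter Str} (hK : IsCompact K) (hf : Full K)
    (hG : Fine K (𝔊 : Filter Str)) {g : ℂ → ℂ}
    (hg : TendstoLocallyUniformlyOn (kF h) g (𝔊 : Filter Str) Kᶜ) {w : Str → ℂ} {w₀ : ℂ}
    (hw : Tendsto w 𝔊 (𝓝 w₀))
    (hom : ∀ᶠ S in (𝔊 : Filter Str), w S ∉ kF h S '' ((⋃₀ S.1)ᶜ ∩ Kᶜ)) : w₀ ∉ g '' Kᶜ := by
  obtain ⟨R, hR, hRK⟩ := lev_bdd hK 0
  have hexh : Exh (𝔊 : Filter Str) Kᶜ (fun S : Str => (⋃₀ S.1)ᶜ) (kF h) R :=
    hG.exh hK hf hR hRK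
  have hexh2 : Exh (𝔊 : Filter Str) Kᶜ (fun S : Str => (⋃₀ S.1)ᶜ ∩ Kᶜ) (kF h) R :=
    { open' := hexh.open'
      conn := hexh.conn
      rpos := hR
      tail := hexh.tail
      vtail := by
        filter_upwards [hexh.vtail] with S hS using subset_inter hS hexh.tail
      nu := by
        filter_upwards [hexh.nu] with S hS using hS.mono inter_subset_left
      exh := by
        intro z hz
        obtain ⟨r, hr, hr1, hr2⟩ := hexh.exh z hz
        refine ⟨r, hr, hr1, ?_⟩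
        filter_upwards [hr2] with S hS using subset_inter hS hr1 }
  exact hexh2.omitted hg hw hom

/-- goodness from convergence of disks and local estimates -/
lemma goodAt_of_disks {h : FK} {𝔊 : Ultrafilter Str} (hK : IsCompact K) (hf : Full K)
    (hG : Fine K (𝔊 : Filter Str)) {g : ℂ → ℂ}
    (hg : TendstoLocallyUniformlyOn (kF h) g (𝔊 : Filter Str) Kᶜ) {x : ℂ}
    {cS : Str → ℂ} {rS : Str → ℝ} {c : ℂ} {r : ℝ} (hc : Tendsto cS 𝔊 (𝓝 c))
    (hr : Tendsto rS 𝔊 (𝓝 r)) (hr0 : ∀ᶠ S in (𝔊 : Filter Str), 0 ≤ rS S)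
    (hom : ∀ᶠ S in (𝔊 : Filter Str), ∀ w ∈ closedBall (cS S) (rS S),
      w ∉ kF h S '' ((⋃₀ S.1)ᶜ ∩ Kᶜ))
    (hsm : ∀ ε > 0, ∃ n, ∀ᶠ S in (𝔊 : Filter Str),
      kT h S (nd K n x) ⊆ closedBall (cS S) (rS S + ε)) :
    GoodAt h K (𝔊 : Filter Str) x := by
  have hrr : 0 ≤ r := ge_of_tendsto hr hr0
  refine ⟨c, r, hrr, ?_, ?_⟩
  · intro ε hε
    obtain ⟨n, hn⟩ := hsm (ε / 3) (by positivity)
    refine ⟨n, ?_⟩
    filter_upwards [hn, hc.eventually (ball_mem_nhds c (show 0 < ε / 3 by positivity)),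
      hr.eventually (ball_mem_nhds r (show 0 < ε / 3 by positivity))] with S h1 h2 h3
    refine h1.trans (closedBall_subset_closedBall' ?_)
    rw [Real.dist_eq, abs_lt] at h3
    linarith [h3.2]
  · intro z hz
    have h1 : r < ‖g z - c‖ := by
      by_contra hle
      rw [not_lt] at hle
      -- approximating points of the disks
      set w : Str → ℂ := fun S => if ‖g z - cS S‖ ≤ rS S then g z else
        cS S + ((rS S / ‖g z - cS S‖ : ℝ) : ℂ) * (g z - cS S) with hw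
      have hwm : ∀ S, 0 ≤ rS S → w S ∈ closedBall (cS S) (rS S) := by
        intro S hS
        simp only [hw]
        split_ifs with hif
        · rwa [mem_closedBall, dist_eq_norm]
        · rw [mem_closedBall, dist_eq_norm, add_sub_cancel_left, norm_mul, Complex.norm_real,
            Real.norm_of_nonneg (div_nonneg hS (norm_nonneg _))]
          rw [div_mul_cancel₀]
          rw [not_le] at hif
          exact (hS.trans_lt hif).ne'
      have hwd : ∀ S, 0 ≤ rS S → dist (w S) (g z) ≤ max 0 (‖g z - cS S‖ - rS S) := by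
        intro S hS
        simp only [hw]
        split_ifs with hif
        · rw [dist_self]
          exact le_max_left _ _
        · rw [not_le] at hif
          have hpos : 0 < ‖g z - cS S‖ := hS.trans_lt hif
          have hne : (‖g z - cS S‖ : ℂ) ≠ 0 := by exact_mod_cast hpos.ne'
          have e : cS S + ((rS S / ‖g z - cS S‖ : ℝ) : ℂ) * (g z - cS S) - g z =
              -(((‖g z - cS S‖ - rS S) / ‖g z - cS S‖ : ℝ) : ℂ) * (g z - cS S) := by
            push_cast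
            field_simp
            ring
          rw [dist_eq_norm, e, norm_mul, norm_neg, Complex.norm_real,
            Real.norm_of_nonneg (div_nonneg (by linarith) hpos.le), div_mul_cancel₀ _ hpos.ne']
          exact le_max_right _ _
      have hwlim : Tendsto w 𝔊 (𝓝 (g z)) := by
        rw [tendsto_iff_dist_tendsto_zero]
        have h2 : Tendsto (fun S => max 0 (‖g z - cS S‖ - rS S)) 𝔊
            (𝓝 (max 0 (‖g z - c‖ - r))) :=
          (tendsto_const_nhds).max (((tendsto_const_nhds.sub hc).norm).sub hr)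
        rw [max_eq_left (by linarith)] at h2
        refine tendsto_of_tendsto_of_tendsto_of_le_of_le' tendsto_const_nhds h2
          (Eventually.of_forall fun S => dist_nonneg) ?_
        filter_upwards [hr0] with S hS using hwd S hS
      have h3 := omit_of_lim hK hf hG hg hwlim (by
        filter_upwards [hom, hr0] with S h1 h2 using h1 _ (hwm S h2))
      exact h3 ⟨z, hz, rfl⟩
    refine ⟨(‖g z - c‖ - r) / 2, by linarith, ?_⟩
    have h2 : Tendsto (fun S => ‖kF h S z - c‖) 𝔊 (𝓝 ‖g z - c‖) :=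
      ((hg.tendsto_at hz).sub_const c).norm
    exact h2.eventually (lt_mem_nhds (by linarith))

lemma mem_Tm_biUnion {S : Set (Set ℂ)} {f : ℂ → ℂ} {c : Set ℂ → ℂ} {r : Set ℂ → ℝ} {ι : Type*}
    {t : Set ι} {Γ : ι → Set ℂ} {Δ : Set ℂ} (hΔ : Δ ⊆ ⋃ i ∈ t, Γ i) {w : ℂ}
    (hw : w ∈ Tm S f c r Δ) : ∃ i ∈ t, w ∈ Tm S f c r (Γ i) := by
  rcases hw with ⟨z, ⟨hz1, hz2⟩, rfl⟩ | hw
  · obtain ⟨i, hi, hzi⟩ := mem_iUnion₂.1 (hΔ hz1)
    exact ⟨i, hi, Or.inl ⟨z, ⟨hzi, hz2⟩, rfl⟩⟩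
  · obtain ⟨P, ⟨hP, z, hz1, hzP⟩, hwP⟩ := mem_iUnion₂.1 hw
    obtain ⟨i, hi, hzi⟩ := mem_iUnion₂.1 (hΔ hz1)
    exact ⟨i, hi, Or.inr (mem_iUnion₂.2 ⟨P, ⟨hP, z, hzi, hzP⟩, hwP⟩)⟩

/-- values are bounded -/
lemma kT_bdd (h : FK) (S : Str) {R : ℝ} (hR : 0 < R) (hS : ⋃₀ S.1 ⊆ closedBall 0 R) {Γ : Set ℂ}
    (hΓ : Γ ⊆ ball 0 R) : kT h S Γ ⊆ closedBall 0 (5 * R) :=
  (Tm_mono hΓ).trans ((kmap h S).Tm_bound S.2 hR hS)

lemma disk_bdd {c : ℂ} {s M : ℝ} (hs : 0 ≤ s) (h : closedBall c s ⊆ closedBall 0 M) :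
    ‖c‖ ≤ M ∧ s ≤ M := by
  have h1 : c + s ∈ closedBall c s := by
    rw [mem_closedBall, dist_eq_norm, add_sub_cancel_left, Complex.norm_real,
      Real.norm_of_nonneg hs]
  have h2 : c - s ∈ closedBall c s := by
    rw [mem_closedBall, dist_eq_norm, sub_sub_cancel_left, norm_neg, Complex.norm_real,
      Real.norm_of_nonneg hs]
  have h3 := h h1
  have h4 := h h2
  have h5 := h (mem_closedBall_self hs)
  rw [mem_closedBall, dist_zero_right] at h3 h4 h5
  refine ⟨h5, ?_⟩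
  have h6 : (2 * s : ℝ) = ‖(c + s) - (c - s)‖ := by
    have : (c + s) - (c - s) = ((2 * s : ℝ) : ℂ) := by
      push_cast
      ring
    rw [this, Complex.norm_real, Real.norm_of_nonneg (by linarith)]
  have := norm_sub_le (c + (s:ℂ)) (c - (s:ℂ))
  linarith

/-- the packing condition gives good points -/
theorem good_of_PB {h : FK} {𝔊 : Ultrafilter Str} (hK : IsCompact K) (hf : Full K)
    (hG : Fine K (𝔊 : Filter Str)) {g : ℂ → ℂ}
    (hg : TendstoLocallyUniformlyOn (kF h) g (𝔊 : Filter Str) Kᶜ) {x : ℂ} (hx : x ∈ K)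
    (hPB : ∀ y ∈ connectedComponentIn K x, PB K y) (n₀ : ℕ)
    (hS : ∀ᶠ S in (𝔊 : Filter Str), ∀ P ∈ S.1, (P ∩ nd K n₀ x).Nonempty → P ∈ comps K)
    (hmem : (connectedComponentIn K x).Nontrivial →
      ∀ᶠ S in (𝔊 : Filter Str), connectedComponentIn K x ∈ S.1) :
    GoodAt h K (𝔊 : Filter Str) x := by
  set p := connectedComponentIn K x with hp
  have hpc : IsCompact p := isCompact_comp hK x
  have hxp : x ∈ p := mem_connectedComponentIn hx
  have hpK : p ⊆ K := connectedComponentIn_subset _ _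
  obtain ⟨R, hR, hRK⟩ := lev_bdd hK 0
  set R' := R + 1 with hR'
  have hR'0 : 0 < R' := by positivity
  have hball : ∀ y ∈ p, ball y (lr n₀) ⊆ nd K n₀ x := by
    intro y hy
    refine ball_subset_closedBall.trans (closedBall_subset_nd (hpK hy) ?_)
    exact connectedComponentIn_mono _ (subset_lev n₀) hy
  have hxR : ∀ y ∈ K, y ∈ ball (0:ℂ) R' := by
    intro y hy
    have := hRK (subset_lev 0 hy)
    rw [mem_closedBall] at this
    rw [mem_ball]
    linarith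
  have hSR : ∀ᶠ S : Str in (𝔊 : Filter Str), (⋃₀ S.1 : Set ℂ) ⊆ closedBall 0 R := by
    filter_upwards [hG 0] with S h0
    exact sUnion_subset fun P hP => (h0 P hP).trans hRK
  by_cases hnt : p.Nontrivial
  · have hmem' := hmem hnt
    have hbd : ∀ᶠ S : Str in (𝔊 : Filter Str), ‖kc h S p‖ ≤ 5 * R' ∧ 0 ≤ kr h S p ∧
        kr h S p ≤ 5 * R' := by
      filter_upwards [hSR, hmem'] with S h1 h2
      have h3 := (kmap h S).rpos p h2
      have h4 : closedBall (kc h S p) (kr h S p) ⊆ closedBall 0 (5 * R') := by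
        intro w hw
        refine kT_bdd h S hR'0 (h1.trans (closedBall_subset_closedBall (by linarith))) subset_rfl
          (Or.inr (mem_iUnion₂.2 ⟨p, ⟨h2, x, hxR x hx, hxp⟩, hw⟩))
      obtain ⟨h5, h6⟩ := disk_bdd h3.le h4
      exact ⟨h5, h3.le, h6⟩
    obtain ⟨c, -, hc⟩ := (isCompact_closedBall (0 : ℂ) (5 * R')).ultrafilter_le_nhds
      (𝔊.map (fun S => kc h S p)) (by
        rw [le_principal_iff, Ultrafilter.coe_map, Filter.mem_map]
        filter_upwards [hbd] with S hS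
        simpa using hS.1)
    obtain ⟨r, -, hr⟩ := (isCompact_Icc (a := (0:ℝ)) (b := 5 * R')).ultrafilter_le_nhds
      (𝔊.map (fun S => kr h S p)) (by
        rw [le_principal_iff, Ultrafilter.coe_map, Filter.mem_map]
        filter_upwards [hbd] with S hS
        exact ⟨hS.2.1, hS.2.2⟩)
    refine goodAt_of_disks hK hf hG hg (cS := fun S => kc h S p) (rS := fun S => kr h S p)
      (c := c) (r := r) hc hr (hbd.mono fun S hS => hS.2.1) ?_ ?_
    · filter_upwards [hmem'] with S hS w hw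
      rintro ⟨z, ⟨hz, -⟩, rfl⟩
      exact (kmap h S).notMem hz hS hw
    · intro ε hε
      have hloc : ∀ y ∈ p, ∃ ρ₁ > 0, ∀ S : Str, ⋃₀ S.1 ⊆ closedBall 0 R →
          (∀ P ∈ S.1, (P ∩ nd K n₀ x).Nonempty → P ∈ comps K) → p ∈ S.1 →
          kT h S (ball y ρ₁) ⊆ closedBall (kc h S p) (kr h S p + ε) := by
        intro y hy
        obtain ⟨C, hC⟩ := hPB y hy
        obtain ⟨ρ₁, h1, -, h2⟩ := loc h hK hC (lr_pos n₀) hR hε
        refine ⟨ρ₁, h1, fun S hS1 hS2 hS3 => ?_⟩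
        exact (h2 S hS1 (fun P hP hne => hS2 P hP
          (hne.mono (inter_subset_inter_right _ (hball y hy))))).1 p hS3 hy
      choose! ρ hρ0 hρ using hloc
      obtain ⟨t, htp, htc⟩ := hpc.elim_nhds_subcover (fun y => ball y (ρ y))
        (fun y hy => ball_mem_nhds y (hρ0 y hy))
      obtain ⟨n, hn⟩ := exists_nd_subset hK hf hx
        (isOpen_biUnion (s := (t : Set ℂ)) (fun y _ => isOpen_ball (x := y) (ε := ρ y)))
        (by simpa using htc)
      refine ⟨n, ?_⟩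
      filter_upwards [hSR, hS, hmem'] with S h1 h2 h3 w hw
      obtain ⟨y, hy, hwy⟩ := mem_Tm_biUnion hn hw
      exact hρ y (htp y hy) S h1 h2 h3 hwy
  · have hpx : p = {x} := by
      rw [not_nontrivial_iff] at hnt
      exact hnt.eq_singleton_of_mem hxp
    have hxS : ∀ᶠ S : Str in (𝔊 : Filter Str), x ∉ (⋃₀ S.1 : Set ℂ) := by
      filter_upwards [hS] with S hS'
      rintro ⟨P, hP, hxP⟩
      have h1 := hS' P hP ⟨x, hxP, mem_nd hx n₀⟩
      have h2 := comps_eq h1 hxP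
      refine hnt ?_
      rw [hp, ← h2]
      exact S.2.nontriv P hP
    have hbd : ∀ᶠ S : Str in (𝔊 : Filter Str), kF h S x ∈ closedBall (0:ℂ) (5 * R') := by
      filter_upwards [hSR, hxS] with S h1 h2
      exact kT_bdd h S hR'0 (h1.trans (closedBall_subset_closedBall (by linarith))) subset_rfl
        (Or.inl ⟨x, ⟨hxR x hx, h2⟩, rfl⟩)
    obtain ⟨c, -, hc⟩ := (isCompact_closedBall (0 : ℂ) (5 * R')).ultrafilter_le_nhds
      (𝔊.map (fun S => kF h S x)) (by
        rw [le_principal_iff, Ultrafilter.coe_map, Filter.mem_map]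
        exact hbd)
    refine goodAt_of_disks hK hf hG hg (cS := fun S => kF h S x) (rS := fun _ => 0)
      (c := c) (r := 0) hc tendsto_const_nhds (Eventually.of_forall fun S => le_rfl) ?_ ?_
    · filter_upwards [hxS] with S hS' w hw
      rw [closedBall_zero, mem_singleton_iff] at hw
      rintro ⟨z, ⟨hz, hzK⟩, hzw⟩
      rw [hw] at hzw
      have := (kmap h S).nu.inj hz hS' hzw
      exact hzK (this ▸ hx)
    · intro ε hε
      obtain ⟨C, hC⟩ := hPB x hxp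
      obtain ⟨ρ₁, h1, -, h2⟩ := loc h hK hC (lr_pos n₀) hR hε
      obtain ⟨n, hn⟩ := exists_nd_subset hK hf hx (isOpen_ball (x := x) (ε := ρ₁)) (by
        rw [← hp, hpx, singleton_subset_iff]
        exact mem_ball_self h1)
      refine ⟨n, ?_⟩
      filter_upwards [hSR, hS, hxS] with S hS1 hS2 hS3
      rw [zero_add]
      exact (Tm_mono hn).trans ((h2 S hS1 (fun P hP hne => hS2 P hP
          (hne.mono (inter_subset_inter_right _ (hball x hxp))))).2 hS3)

end Vale.Agent.P116.H906
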