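import Mathlib
import Vale.Agent.P116.H906.Loc
import Vale.Agent.P116.H906.Fin2

/-!
The packing theorem in the plane.
-/

open Set Filter Topology Metric Bornology

namespace Vale.Agent.P116.H906

variable {K : Set ℂ}

/-- finite sets of nondegenerate components are admissible -/
lemma adm_of_comps (hK : IsCompact K) (hf : Full K) {S : Set (Set ℂ)} (hS : S.Finite)
    (h : ∀ P ∈ S, P ∈ comps K ∧ P.Nontrivial) : Adm S where
  fin := hS
  cpt P hP := comps_isCompact hK (h P hP).1
  conn P hP := ⟨(h P hP).2.nonempty, comps_isPreconnected (h P hP).1⟩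
  nontriv P hP := (h P hP).2
  disj P hP Q hQ hne := by
    rw [disjoint_left]
    intro x hxP hxQ
    exact hne ((comps_eq (h P hP).1 hxP).trans (comps_eq (h Q hQ).1 hxQ).symm)
  full := by
    refine full_of_saturated hK.isClosed hf
      (hS.isCompact_sUnion fun P hP => comps_isCompact hK (h P hP).1).isClosed ?_ ?_
    · rintro x ⟨P, hP, hx⟩
      obtain ⟨y, _, hy⟩ := (h P hP).1
      rw [← hy] at hx
      exact connectedComponentIn_subset _ _ hx
    · rintro x ⟨P, hP, hx⟩
      rw [← comps_eq (h P hP).1 hx]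
      exact subset_sUnion_of_mem hP

/-- **The packing theorem**, planar form -/
theorem pb_plane (hK : IsCompact K) (hc : IsPreconnected Kᶜ) (hPB : ∀ x ∈ K, PB K x) :
    ∃ g : ℂ → ℂ, NU Kᶜ g ∧ ∀ w ∉ g '' Kᶜ, ∃ (c : ℂ) (r : ℝ), 0 ≤ r ∧
      connectedComponentIn (g '' Kᶜ)ᶜ w = closedBall c r := by
  classical
  have hf : Full K := full_of_isPreconnected_compl hc hK.isBounded
  set D : Type := {P : Set ℂ // P ∈ comps K ∧ P.Nontrivial} with hD
  have hadm : ∀ T : Finset D, Adm (Subtype.val '' (T : Set D)) := fun T =>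
    adm_of_comps hK hf (T.finite_toSet.image _) (by
      rintro _ ⟨P, _, rfl⟩
      exact P.2)
  set toStr : Finset D → Str := fun T => ⟨Subtype.val '' (T : Set D), hadm T⟩ with htoStr
  set 𝔊 : Ultrafilter Str := (Ultrafilter.of (atTop : Filter (Finset D))).map toStr with h𝔊
  have hev : ∀ p : Str → Prop, (∀ᶠ T in (atTop : Filter (Finset D)), p (toStr T)) →
      ∀ᶠ S in (𝔊 : Filter Str), p S := by
    intro p hp
    exact Ultrafilter.of_le (atTop : Filter (Finset D)) hp
  have hcomps : ∀ᶠ S in (𝔊 : Filter Str), ∀ P ∈ S.1, P ∈ comps K := by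
    refine hev _ (Eventually.of_forall fun T => ?_)
    rintro _ ⟨P, _, rfl⟩
    exact P.2.1
  have hFine : Fine K (𝔊 : Filter Str) := by
    intro n
    filter_upwards [hcomps] with S hS P hP
    obtain ⟨y, _, hy⟩ := hS P hP
    rw [← hy]
    exact (connectedComponentIn_subset _ _).trans (subset_lev n)
  obtain ⟨R, hR, hRK⟩ := lev_bdd hK 0
  have hexh := hFine.exh (h := fk) hK hf hR hRK
  obtain ⟨g, hg⟩ := hexh.exists_lim
  refine ⟨g, hexh.lim_nu hg, fun w hw => ?_⟩
  refine assembly hK hf hFine hg (fun x hx => ?_) hw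
  refine good_of_PB hK hf hFine hg hx (fun y hy => hPB y (connectedComponentIn_subset _ _ hy)) 0
    (hcomps.mono fun S hS P hP _ => hS P hP) fun hnt => ?_
  refine hev _ ?_
  filter_upwards [eventually_ge_atTop ({⟨connectedComponentIn K x, ⟨x, hx, rfl⟩, hnt⟩} : Finset D)]
    with T hT
  exact ⟨_, hT (Finset.mem_singleton_self _), rfl⟩

end Vale.Agent.P116.H906
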